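import Crest.Agent.N207.C.Max

/-!
# Row 207, block B (helper8): global Shi estimates on the abstract heat calculus
-/

set_option autoImplicit false
set_option linter.dupNamespace false
open Set MeasureTheory
open scoped ContDiff

noncomputable section

namespace Crest.Agent.N207

namespace HC

variable {M : Type*} [TopologicalSpace M] [CompactSpace M] [MeasurableSpace M] {H : HC M}

/-- Gronwall for subsolutions -/
theorem Alg.gron (A : H.Alg) {a b K m : ℝ} {f f' : ℝ → M → ℝ} (hs : H.St a b) (hf : H.Sm a b f)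
    (hd : HasDt a b f f') (h0 : ∀ x, f a x ≤ m)
    (h : ∀ t ∈ Ioc a b, ∀ x, f' t x ≤ H.lap t (f t) x + K * (f t x + 1)) :
    ∀ t ∈ Icc a b, ∀ x, f t x + 1 ≤ (m + 1) * Real.exp (K * (t - a)) := by
  have h1 : H.Sm a b fun t (_ : M) => (m + 1) * Real.exp (K * (t - a)) - 1 :=
    A.sm_timeU (by fun_prop)
  have h2 : HasDt a b (fun t (_ : M) => (m + 1) * Real.exp (K * (t - a)) - 1)
      fun t _ => (m + 1) * (Real.exp (K * (t - a)) * K) :=
    HasDt.time fun t _ => by
      simpa using (((((hasDerivAt_id t).sub_const a).const_mul K).exp).const_mul (m + 1)).sub_const 1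
  intro t ht x
  have := A.maxp hs (A.sm_sub hf h1) (hd.sub h2) K (fun x => by simpa using h0 x)
    (fun s hs' y _ hl _ => by
      have hm : s ∈ Icc a b := Ioc_subset_Icc_self hs'
      rw [A.lap_sub (hs.mem hm) (A.sm_s0 hf s hm) (A.s0_const _), A.lap_const (hs.mem hm)] at hl
      have := h s hs' y
      nlinarith) t ht x
  linarith

/-- global Shi estimates: bounded curvature gives bounded derivatives -/
theorem Alg.shi (A : H.Alg) (E : H.Evo) {a : ℝ} (ha : a ∈ Ioo 0 H.T)
    (h0 : ∃ C, ∀ t ∈ Ico a H.T, ∀ x, H.N 0 t x ≤ C) (k : ℕ) :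
    ∃ C, ∀ t ∈ Ico a H.T, ∀ x, H.N k t x ≤ C := by
  have hI : ∀ t ∈ Ico a H.T, t ∈ Ioo 0 H.T := fun t ht => ⟨ha.1.trans_le ht.1, ht.2⟩
  suffices h : ∃ B, 1 ≤ B ∧ ∀ i ≤ k, ∀ t ∈ Ico a H.T, ∀ x, √(H.N i t x) ≤ B by
    obtain ⟨B, hB, h⟩ := h
    refine ⟨B ^ 2, fun t ht x => ?_⟩
    have := h k le_rfl t ht x
    rwa [Real.sqrt_le_left (by linarith)] at this
  induction k with
  | zero =>
      obtain ⟨C, hC⟩ := h0
      refine ⟨max 1 √C, le_max_left _ _, fun i hi t ht x => ?_⟩
      obtain rfl : i = 0 := by omega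
      exact (Real.sqrt_le_sqrt (hC t ht x)).trans (le_max_right _ _)
  | succ k ih =>
      obtain ⟨B, hB, h⟩ := ih
      obtain ⟨C, hC0, hC⟩ := E.dt_N (k + 1)
      obtain ⟨m, hm⟩ : ∃ m, 0 ≤ m ∧ ∀ x, H.N (k + 1) a x ≤ m := by
        have hc := A.s0_cont (A.s0_N ha (k + 1))
        obtain ⟨m, hm⟩ := (isCompact_range hc).bddAbove
        exact ⟨max m 0, le_max_right _ _, fun x => (hm ⟨x, rfl⟩).trans (le_max_left _ _)⟩
      set K := C * ((k + 2 : ℕ) * (B * (B + 1))) with hK
      have hK0 : 0 ≤ K := by positivity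
      have key : ∀ t ∈ Ico a H.T, ∀ x,
          H.N (k + 1) t x ≤ (m + 1) * Real.exp (K * (H.T - a)) := by
        intro t ht x
        have hs : H.St a ((t + H.T) / 2) :=
          ⟨ha.1, by linarith [ht.1, ht.2], by linarith [ht.2]⟩
        obtain ⟨N', -, hN'⟩ := A.sm_dt hs.2.1 (A.sm_N (k + 1) hs)
        have h1 := A.gron (K := K) hs (A.sm_N (k + 1) hs) hN' hm.2 (fun s hs' y => by
          have hm' : s ∈ Icc a ((t + H.T) / 2) := Ioc_subset_Icc_self hs'
          have hs2 : s ∈ Ico a H.T := ⟨hm'.1, hm'.2.trans_lt hs.2.2⟩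
          have h2 := (abs_le.1 (hC hs hN' s hm' y)).2
          have h3 := E.N_nonneg (k + 1 + 1) s (hI s hs2) y
          have h4 := E.N_nonneg (k + 1) s (hI s hs2) y
          have h5 : ∑ i ∈ Finset.range (k + 1 + 1), √(H.N i s y) * √(H.N (k + 1 - i) s y) *
              √(H.N (k + 1) s y) ≤ (k + 2 : ℕ) * (B * (B + 1) * (H.N (k + 1) s y + 1)) := by
            have h6 : ∀ i ∈ Finset.range (k + 1 + 1), √(H.N i s y) * √(H.N (k + 1 - i) s y) *
                √(H.N (k + 1) s y) ≤ B * (B + 1) * (H.N (k + 1) s y + 1) := by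
              intro i hi
              have hi' := Finset.mem_range.1 hi
              obtain ⟨q, hq⟩ : ∃ q, q = √(H.N (k + 1) s y) := ⟨_, rfl⟩
              have hq0 : 0 ≤ q := hq ▸ Real.sqrt_nonneg _
              have hq2 : H.N (k + 1) s y = q ^ 2 := by rw [hq, Real.sq_sqrt h4]
              have h7 : √(H.N i s y) * √(H.N (k + 1 - i) s y) ≤ B * (B + q) := by
                by_cases hi0 : i = 0
                · subst hi0
                  rw [Nat.sub_zero, ← hq]
                  exact mul_le_mul (h 0 (Nat.zero_le _) s hs2 y) (by linarith) hq0 (by linarith)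
                by_cases hi1 : i = k + 1
                · subst hi1
                  rw [Nat.sub_self, ← hq, mul_comm]
                  exact mul_le_mul (h 0 (Nat.zero_le _) s hs2 y) (by linarith) hq0 (by linarith)
                exact mul_le_mul (h i (by omega) s hs2 y)
                  ((h _ (by omega) s hs2 y).trans (by linarith)) (Real.sqrt_nonneg _) (by linarith)
              rw [← hq, hq2]
              refine (mul_le_mul_of_nonneg_right h7 hq0).trans ?_
              rw [mul_assoc, mul_assoc]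
              refine mul_le_mul_of_nonneg_left ?_ (by linarith)
              nlinarith [mul_nonneg (by linarith : (0:ℝ) ≤ B) (sq_nonneg (q - 1)),
                mul_nonneg (by linarith : (0:ℝ) ≤ B) hq0]
            have h10 := Finset.sum_le_card_nsmul _ _ _ h6
            rw [Finset.card_range, nsmul_eq_mul] at h10
            exact h10
          have h8 := mul_le_mul_of_nonneg_left h5 hC0
          have h9 : C * ((k + 2 : ℕ) * (B * (B + 1) * (H.N (k + 1) s y + 1))) =
              K * (H.N (k + 1) s y + 1) := by rw [hK]; ring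
          linarith) t ⟨ht.1, by linarith [ht.2]⟩ x
        have h2 : Real.exp (K * (t - a)) ≤ Real.exp (K * (H.T - a)) :=
          Real.exp_le_exp.2 (mul_le_mul_of_nonneg_left (by linarith [ht.2]) hK0)
        have h3 := mul_le_mul_of_nonneg_left h2 (by linarith [hm.1] : 0 ≤ m + 1)
        linarith
      refine ⟨max B √((m + 1) * Real.exp (K * (H.T - a))), hB.trans (le_max_left _ _),
        fun i hi t ht x => ?_⟩
      rcases Nat.lt_or_eq_of_le hi with hi | rfl
      · exact (h i (by omega) t ht x).trans (le_max_left _ _)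
      · exact (Real.sqrt_le_sqrt (key t ht x)).trans (le_max_right _ _)

end HC

end Crest.Agent.N207

end
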