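import Crest.Agent.N207.A.Sta
import Crest.Agent.N207.A.Shi
import Crest.Agent.N207.AI.HcDef

/-!
# Row 207, block A (helper8): `HC.Alg` for a Ricci flow; global Shi estimates for a `Flow`
-/

set_option autoImplicit false
set_option linter.style.haveILetI false
set_option linter.unusedSectionVars false

open scoped ContDiff Manifold Topology
open Set Bundle Filter
open Crest.Agent.R247

noncomputable section

namespace Crest.Agent.N207

namespace Sta

variable {n : ℕ} {M : Type*} [TopologicalSpace M] [ChartedSpace (En n) M]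
  [IsManifold 𝓘(ℝ, En n) ∞ M]

theorem smST_cont {u : ℝ → M → ℝ} {J : Set ℝ} (hu : SmST n u J) :
    ContinuousOn (fun p : ℝ × M => u p.1 p.2) (J ×ˢ univ) := by
  rintro ⟨t, x⟩ ⟨ht, -⟩
  have hx : x ∈ (chartAt (En n) x).source := mem_chart_source (En n) x
  have h1 : ContinuousWithinAt (fun p : ℝ × En n => Bo84.inCh n x (u p.1) p.2) (J ×ˢ tg n x)
      (t, ctr n x) := (hu x).continuousOn _ ⟨ht, ctr_mem x⟩
  have h2 : ContinuousAt (fun p : ℝ × M => (p.1, chartAt (En n) x p.2)) (t, x) :=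
    continuousAt_fst.prodMk (((chartAt (En n) x).continuousAt hx).comp_of_eq continuousAt_snd rfl)
  have h3 : ContinuousWithinAt (fun p : ℝ × M => Bo84.inCh n x (u p.1) (chartAt (En n) x p.2))
      (J ×ˢ (chartAt (En n) x).source) (t, x) := by
    have hm : MapsTo (fun p : ℝ × M => (p.1, chartAt (En n) x p.2)) (J ×ˢ (chartAt (En n) x).source) (J ×ˢ tg n x) :=
      fun p hp => mk_mem_prod hp.1 ((chartAt (En n) x).map_source hp.2)
    have h5 := ContinuousWithinAt.comp (f := fun p : ℝ × M => (p.1, chartAt (En n) x p.2))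
      (x := (t, x)) h1 h2.continuousWithinAt hm
    exact h5
  have h4 : ContinuousWithinAt (fun p : ℝ × M => u p.1 p.2) (J ×ˢ (chartAt (En n) x).source) (t, x) := by
    refine h3.congr (fun p hp => ?_) ?_
    · simp only [Bo84.inCh, (chartAt (En n) x).left_inv hp.2]
    · simp only [Bo84.inCh, (chartAt (En n) x).left_inv hx]
  refine h4.mono_of_mem_nhdsWithin ?_
  refine mem_nhdsWithin.2 ⟨univ ×ˢ (chartAt (En n) x).source, isOpen_univ.prod (chartAt (En n) x).open_source,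
    ⟨mem_univ _, hx⟩, fun p hp => ⟨hp.2.1, hp.1.2⟩⟩

theorem smST_mono {u : ℝ → M → ℝ} {J J' : Set ℝ} (hu : SmST n u J) (h : J' ⊆ J) :
    SmST n u J' := fun x => (hu x).mono (prod_mono h Subset.rfl)

theorem smST_chart_deriv {u : ℝ → M → ℝ} {J : Set ℝ} (hu : SmST n u J) (x : M) {t : ℝ}
    (ht : t ∈ J) {y : En n} (hy : y ∈ tg n x) :
    HasDerivWithinAt (fun s => u s ((chartAt (En n) x).symm y))
      (fderivWithin ℝ (fun p : ℝ × En n => Bo84.inCh n x (u p.1) p.2) (J ×ˢ tg n x) (t, y) (1, 0))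
      J t := by
  have h1 := ((hu x).differentiableOn (by simp) (t, y) ⟨ht, hy⟩).hasFDerivWithinAt
  have h2 : HasDerivWithinAt (fun s : ℝ => (s, y)) ((1 : ℝ), (0 : En n)) J t :=
    ((hasDerivAt_id t).prodMk (hasDerivAt_const t y)).hasDerivWithinAt
  exact h1.comp_hasDerivWithinAt (f := fun s : ℝ => (s, y)) t h2 fun s hs => ⟨hs, hy⟩

theorem smST_hasDerivWithinAt {u : ℝ → M → ℝ} {J : Set ℝ} (hu : SmST n u J) {t : ℝ}
    (ht : t ∈ J) (x : M) :
    HasDerivWithinAt (fun s => u s x) (derivWithin (fun s => u s x) J t) J t := by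
  have h := smST_chart_deriv hu x ht (ctr_mem x)
  rw [symm_ctr] at h
  exact h.differentiableWithinAt.hasDerivWithinAt

/-- the time derivative of a space-time smooth function is space-time smooth -/
theorem smST_derivWithin {u : ℝ → M → ℝ} {J : Set ℝ} (hu : SmST n u J) (hJ : UniqueDiffOn ℝ J) :
    SmST n (fun t x => derivWithin (fun s => u s x) J t) J := by
  intro x
  have hS : UniqueDiffOn ℝ (J ×ˢ tg n x) := hJ.prod (chartAt (En n) x).open_target.uniqueDiffOn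
  have h1 : ContDiffOn ℝ ∞ (fun p => fderivWithin ℝ
      (fun p : ℝ × En n => Bo84.inCh n x (u p.1) p.2) (J ×ˢ tg n x) p (1, 0)) (J ×ˢ tg n x) :=
    ((hu x).fderivWithin hS (m := ∞) (by simp)).clm_apply contDiffOn_const
  refine h1.congr fun p hp => ?_
  exact (smST_chart_deriv hu x hp.1 hp.2).derivWithin (hJ _ hp.1)

theorem smST_bdd [CompactSpace M] {u : ℝ → M → ℝ} {J : Set ℝ} (hu : SmST n u J)
    (hJ : IsCompact J) : ∃ C, ∀ t ∈ J, ∀ x, |u t x| ≤ C := by
  obtain ⟨C, hC⟩ := (hJ.prod isCompact_univ).exists_bound_of_continuousOn (smST_cont hu)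
  exact ⟨C, fun t ht x => hC (t, x) ⟨ht, mem_univ x⟩⟩

end Sta

variable {M : Type*} [TopologicalSpace M] [ChartedSpace E4 M] [IsManifold 𝓘(ℝ, E4) ∞ M]
  [T3Space M] [ConnectedSpace M] [MeasurableSpace M] [BorelSpace M]

theorem Flow.smFam_st (F : Flow M) {a b : ℝ} (h : F.hc.St a b) : SmFam F.m (Icc a b) :=
  F.sm.mono' fun _ ht => ⟨h.1.le.trans ht.1, ht.2.trans_lt h.2.2⟩

theorem Flow.alg (F : Flow M) : F.hc.Alg where
  T_pos := F.hT
  s0_const _ := contMDiff_const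
  s0_add hu hv := ContMDiff.add hu hv
  s0_mul hu hv := ContMDiff.mul hu hv
  s0_comp hU hφ h hu := fun x =>
    (hφ.contDiffAt (hU.mem_nhds (h x))).contMDiffAt.comp x (hu x)
  s0_cont hu := ContMDiff.continuous hu
  sm_s0 hf _ ht := Sta.sm_of_smST hf ht
  sm_static hu := fun x => st_const (Sm.inCh hu x)
  sm_time hc := fun _ => hc.comp contDiffOn_fst fun _ hp => hp.1
  sm_add hf hg := fun x => (hf x).add (hg x)
  sm_mul hf hg := fun x => (hf x).mul (hg x)
  sm_comp _ hφ h hf := fun x => hφ.comp (hf x) fun p hp => h p.1 hp.1 _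
  sm_congr hf h := fun x => (hf x).congr fun p hp => by rw [h p.1 hp.1]
  sm_mono hf ha hb := Sta.smST_mono hf (Icc_subset_Icc ha hb)
  sm_cont hf := Sta.smST_cont hf
  sm_dt := fun {a b f} hab hf => ⟨fun t x => derivWithin (fun s => f s x) (Icc a b) t,
    Sta.smST_derivWithin hf (uniqueDiffOn_Icc hab),
    fun _ ht x => Sta.smST_hasDerivWithinAt hf ht x⟩
  sm_lap hs hf := Sta.smST_lap (F.smFam_st hs) hf
  sm_gam hs hf hg := Sta.smST_gam (F.smFam_st hs) hf hg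
  sm_hh hs hf := Sta.smST_ip (F.smFam_st hs) (Sta.globST_hess (F.smFam_st hs) hf)
    (Sta.globST_hess (F.smFam_st hs) hf)
  sm_rh hs hf := Sta.smST_ip (F.smFam_st hs) (Sta.globST_covN_ric (F.smFam_st hs) 0)
    (Sta.globST_hess (F.smFam_st hs) hf)
  sm_R hs := Sta.smST_scal (F.smFam_st hs)
  sm_N k hs := Sta.smST_rm (F.smFam_st hs) k
  sm_Q k hs := Sta.smST_rc (F.smFam_st hs) k
  gam_symm t _ u v _ _ x := Sta.gam_comm (F.m t) u v x
  gam_add t _ _ _ w hu hv _ x := Sta.gam_add (F.m t) (Sta.md hu x) (Sta.md hv x) w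
  gam_mul t _ _ _ w hu hv _ x := Sta.gam_mul (F.m t) (Sta.md hu x) (Sta.md hv x) w
  gam_comp t _ _ w _ _ hU hφ h hu _ x := Sta.gam_comp (F.m t)
    ((hφ.contDiffAt (hU.mem_nhds (h x))).differentiableAt (by simp)) (Sta.md hu x) w
  gam_nonneg t _ u _ x := Sta.gam_nonneg (F.m t) u x
  lap_add t _ _ _ hu hv x := Sta.lap_add (F.m t) (Sta.c2 hu x) (Sta.c2 hv x)
  lap_mul t _ _ _ hu hv x := Sta.lap_mul (F.m t) (Sta.c2 hu x) (Sta.c2 hv x)
  lap_comp t _ _ _ _ hU hφ h hu x := Sta.lap_comp (F.m t)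
    ((hφ.contDiffAt (hU.mem_nhds (h x))).of_le Bo84.two_le_infty) (Sta.c2 hu x)
  at_max t _ u x hu hm := ⟨Sta.lap_nonpos_of_max (F.m t) (Sta.c2 hu x) hm,
    Sta.gam_eq_zero_of_max (F.m t) hm u⟩

/-- global Shi estimates -/
theorem Flow.shi [CompactSpace M] (F : Flow M) (E : F.hc.Evo) (h : F.BddRm) (j : ℕ) :
    ∃ C, ∀ t ∈ Ico 0 F.T, ∀ x, (F.m t).rm j x ≤ C := by
  have hT := F.hT
  obtain ⟨C0, hC0⟩ := h
  obtain ⟨C, hC⟩ := F.alg.shi E (a := F.T / 2) ⟨by linarith, by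
    change F.T / 2 < F.T; linarith⟩
    ⟨C0, fun t ht x => hC0 t ⟨by linarith [ht.1], ht.2⟩ x⟩ j
  have h1 : SmFam F.m (Icc 0 (F.T / 2)) :=
    F.sm.mono' fun _ ht => ⟨ht.1, by linarith [ht.2]⟩
  obtain ⟨C', hC'⟩ := Sta.smST_bdd (Sta.smST_rm h1 j) isCompact_Icc
  refine ⟨max C C', fun t ht x => ?_⟩
  rcases le_total t (F.T / 2) with h2 | h2
  · exact ((le_abs_self _).trans (hC' t ⟨ht.1, h2⟩ x)).trans (le_max_right _ _)
  · exact (hC t ⟨h2, ht.2⟩ x).trans (le_max_left _ _)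

/-- global Shi estimates for the Ricci tensor -/
theorem Flow.shi_rc [CompactSpace M] (F : Flow M) (E : F.hc.Evo) (h : F.BddRm) (j : ℕ) :
    ∃ C, ∀ t ∈ Ico 0 F.T, ∀ x, (F.m t).rc j x ≤ C := by
  have hT := F.hT
  obtain ⟨C, hC⟩ := F.shi E h j
  have h1 : SmFam F.m (Icc 0 (F.T / 2)) :=
    F.sm.mono' fun _ ht => ⟨ht.1, by linarith [ht.2]⟩
  obtain ⟨C', hC'⟩ := Sta.smST_bdd (Sta.smST_rc h1 j) isCompact_Icc
  refine ⟨max (4 * C) C', fun t ht x => ?_⟩
  rcases le_total t (F.T / 2) with h2 | h2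
  · exact ((le_abs_self _).trans (hC' t ⟨ht.1, h2⟩ x)).trans (le_max_right _ _)
  · have h3 : (F.m t).rc j x ≤ 4 * (F.m t).rm j x := E.Q_le j t ⟨by linarith, ht.2⟩ x
    exact (h3.trans (by linarith [hC t ht x])).trans (le_max_left _ _)

end Crest.Agent.N207

end
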