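import Crest.Agent.N207.Defs

/-!
# Row 207, block A (helper8): metrics from chart data, basic facts on `m.G`
-/

set_option autoImplicit false
set_option linter.style.haveILetI false
set_option linter.unusedSectionVars false

open scoped ContDiff Manifold Topology
open Set Bundle Filter
open Crest.GeometryTopology.CoordMetric Crest.GeometryTopology.ChartCurvature
  Crest.GeometryTopology.MetricFamily
open Crest.Agent.R247 Crest.Agent.R202.Tens

noncomputable section

namespace Crest.Agent.N207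

variable {n k : ℕ} {M : Type*} [TopologicalSpace M] [ChartedSpace (En n) M]
  [IsManifold 𝓘(ℝ, En n) ∞ M]

/-- fields of bilinear forms (raw data) -/
abbrev Frm (n : ℕ) (M : Type*) [TopologicalSpace M] [ChartedSpace (En n) M] :=
  (x : M) → TangentSpace 𝓘(ℝ, En n) x →L[ℝ] TangentSpace 𝓘(ℝ, En n) x →L[ℝ] ℝ

/-- coefficients of a field of bilinear forms in the preferred chart at `x` -/
def frmG (g : Frm n M) (x : M) : MetricField n := fun y => Matrix.of fun i j =>
  g ((chartAt (En n) x).symm y) (Bo84.dSy x y (EuclideanSpace.single i 1))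
    (Bo84.dSy x y (EuclideanSpace.single j 1))

theorem Met.G_eq_frmG (m : Met n M) (x : M) : m.G x = frmG m.inner x := rfl

theorem bil_clm (B : En n →L[ℝ] En n →L[ℝ] ℝ) (u v : En n) :
    bil (Matrix.of fun i j => B (EuclideanSpace.single i 1) (EuclideanSpace.single j 1)) u v =
      B u v := by
  rw [bil_apply]
  conv_rhs => rw [eq_sum_single u, eq_sum_single v]
  simp only [map_sum, map_smul, _root_.sum_apply, _root_.smul_apply,
    smul_eq_mul, Matrix.of_apply, Finset.mul_sum]
  rw [Finset.sum_comm]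
  refine Finset.sum_congr rfl fun i _ => Finset.sum_congr rfl fun j _ => by ring

theorem bil_frmG (g : Frm n M) (x : M) (y u v : En n) :
    bil (frmG g x y) u v = g ((chartAt (En n) x).symm y) (Bo84.dSy x y u) (Bo84.dSy x y v) := by
  let B : En n →L[ℝ] En n →L[ℝ] ℝ := g ((chartAt (En n) x).symm y)
  have h := bil_clm ((B.comp (Bo84.dSy x y)).flip.comp (Bo84.dSy x y)).flip u v
  exact h

theorem frm_congr (g : Frm n M) {p q : M} (h : p = q) (v w : En n) : g p v w = g q v w := by
  subst h; rfl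

theorem frm_eq_bil (g : Frm n M) (x : M) {p : M} (hp : p ∈ (chartAt (En n) x).source)
    (v w : En n) :
    g p v w = bil (frmG g x (chartAt (En n) x p)) (Bo84.dCh x p v) (Bo84.dCh x p w) := by
  rw [bil_frmG, Bo84.dSy_dCh x hp, Bo84.dSy_dCh x hp]
  exact frm_congr g ((chartAt (En n) x).left_inv hp).symm v w

theorem dCh_injective (x : M) {p : M} (hp : p ∈ (chartAt (En n) x).source) :
    Function.Injective (Bo84.dCh (n := n) x p) := by
  intro u v h
  rw [← Bo84.dSy_dCh x hp u, ← Bo84.dSy_dCh x hp v, h]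

theorem bil_symm_of {A : Matrix (Fin n) (Fin n) ℝ} (hA : A.PosDef) (u v : En n) :
    bil A u v = bil A v u := by
  rw [bil_apply, bil_apply, Finset.sum_comm]
  refine Finset.sum_congr rfl fun a _ => Finset.sum_congr rfl fun b _ => ?_
  have h : A b a = A a b := by
    have := hA.isHermitian.apply a b
    simpa using this
  rw [h]; ring

theorem bil_pos_of {A : Matrix (Fin n) (Fin n) ℝ} (hA : A.PosDef) {v : En n} (hv : v ≠ 0) :
    0 < bil A v v := by
  have hv' : (WithLp.ofLp v : Fin n → ℝ) ≠ 0 := by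
    intro h
    apply hv
    ext i
    simpa using congrFun h i
  have h := hA.dotProduct_mulVec_pos hv'
  rw [bil_apply]
  refine h.trans_eq ?_
  simp only [dotProduct, Matrix.mulVec, Pi.star_apply, star_trivial, Finset.mul_sum]
  exact Finset.sum_congr rfl fun i _ => Finset.sum_congr rfl fun j _ => by ring

theorem posDef_of_bil {A : Matrix (Fin n) (Fin n) ℝ} (hs : ∀ i j, A i j = A j i)
    (hp : ∀ v : En n, v ≠ 0 → 0 < bil A v v) : A.PosDef := by
  refine Matrix.PosDef.of_dotProduct_mulVec_pos ?_ ?_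
  · ext i j
    simp only [Matrix.conjTranspose_apply, star_trivial]
    exact hs j i
  · intro v hv
    have hv' : (WithLp.toLp 2 v : En n) ≠ 0 := by simpa using hv
    have h1 := hp _ hv'
    rw [bil_apply] at h1
    refine h1.trans_eq ?_
    simp only [dotProduct, Matrix.mulVec, star_trivial, Finset.mul_sum]
    exact Finset.sum_congr rfl fun i _ => Finset.sum_congr rfl fun j _ => by ring

/-- ellipticity of a positive bilinear form -/
theorem exists_lower (B : En n →L[ℝ] En n →L[ℝ] ℝ) (hB : ∀ v, v ≠ 0 → 0 < B v v) :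
    ∃ c > 0, ∀ v : En n, c * ‖v‖ ^ 2 ≤ B v v := by
  rcases (Metric.sphere (0 : En n) 1).eq_empty_or_nonempty with he | hne
  · refine ⟨1, one_pos, fun v => ?_⟩
    have : v = 0 := by
      by_contra hv
      have : (‖v‖⁻¹ • v) ∈ Metric.sphere (0 : En n) 1 := by
        simp [norm_smul, hv]
      rw [he] at this
      exact this
    subst this
    simp
  · have hc : ContinuousOn (fun v : En n => B v v) (Metric.sphere (0 : En n) 1) := by
      apply Continuous.continuousOn
      exact B.continuous.clm_apply continuous_id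
    obtain ⟨v0, hv0, hmin⟩ := (isCompact_sphere (0 : En n) 1).exists_isMinOn hne hc
    have hv0' : v0 ≠ 0 := by
      intro h
      rw [h] at hv0
      simp at hv0
    refine ⟨B v0 v0, hB v0 hv0', fun v => ?_⟩
    by_cases hv : v = 0
    · subst hv; simp
    have hn : ‖v‖ ≠ 0 := norm_ne_zero_iff.2 hv
    have h1 : (‖v‖⁻¹ • v) ∈ Metric.sphere (0 : En n) 1 := by simp [norm_smul, hv]
    have h2 := hmin h1
    simp only [mem_ofPred_eq, map_smul, _root_.smul_apply, smul_eq_mul] at h2
    calc B v0 v0 * ‖v‖ ^ 2 ≤ (‖v‖⁻¹ * (‖v‖⁻¹ * B v v)) * ‖v‖ ^ 2 := by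
          gcongr
      _ = B v v := by field_simp

theorem contDiffOn_bil {A : MetricField n} {U : Set (En n)}
    (h : ∀ i j, ContDiffOn ℝ ∞ (fun y => A y i j) U) :
    ContDiffOn ℝ ∞ (fun y => bil (A y)) U := by
  rw [contDiffOn_clm_apply]
  intro v
  rw [contDiffOn_clm_apply]
  intro w
  simp only [bil_apply]
  exact ContDiffOn.sum fun a _ => ContDiffOn.sum fun b _ =>
    ((h a b).mul contDiffOn_const).mul contDiffOn_const

theorem symmL_eq_dSy {p q : M} (hq : q ∈ (chartAt (En n) p).source) :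
    (trivializationAt (En n) (TangentSpace 𝓘(ℝ, En n)) p).symmL ℝ q =
      (Bo84.dSy p (chartAt (En n) p q) : En n →L[ℝ] En n) := by
  rw [TangentBundle.symmL_trivializationAt hq]
  simp only [modelWithCornersSelf_coe, range_id, mfderivWithin_univ]
  rfl

set_option backward.isDefEq.respectTransparency false in
theorem contMDiff_frm (g : Frm n M)
    (hsm : ∀ x i j, ContDiffOn ℝ ∞ (fun y => frmG g x y i j) (tg n x)) :
    ContMDiff 𝓘(ℝ, En n) (𝓘(ℝ, En n).prod 𝓘(ℝ, En n →L[ℝ] En n →L[ℝ] ℝ)) ∞
      (fun b : M => TotalSpace.mk' (En n →L[ℝ] En n →L[ℝ] ℝ) b (g b)) := by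
  intro p
  rw [contMDiffAt_section]
  have h1 : ContMDiffAt 𝓘(ℝ, En n) 𝓘(ℝ, En n →L[ℝ] En n →L[ℝ] ℝ) ∞
      (fun q : M => bil (frmG g p (chartAt (En n) p q))) p := by
    have h2 : ContMDiffAt 𝓘(ℝ, En n) 𝓘(ℝ, En n) ∞ (extChartAt 𝓘(ℝ, En n) p) p :=
      contMDiffAt_extChartAt
    have h3 : ContDiffAt ℝ ∞ (fun y => bil (frmG g p y)) (chartAt (En n) p p) :=
      (contDiffOn_bil (hsm p)).contDiffAt
        ((chartAt (En n) p).open_target.mem_nhds (mem_chart_target (En n) p))
    exact (h3.contMDiffAt).comp p h2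
  refine h1.congr_of_eventuallyEq ?_
  filter_upwards [(chartAt (En n) p).open_source.mem_nhds (mem_chart_source (En n) p)] with q hq
  ext v w
  rw [hom_trivializationAt_apply]
  simp only [ContinuousLinearMap.inCoordinates, ContinuousLinearMap.comp_apply]
  have hq' : q ∈ (trivializationAt (En n →L[ℝ] ℝ)
      (fun x : M => (TangentSpace 𝓘(ℝ, En n) x →L[ℝ] ℝ)) p).baseSet := by
    simp only [hom_trivializationAt_baseSet]
    exact ⟨hq, by simp⟩
  rw [Trivialization.continuousLinearMapAt_apply, Trivialization.coe_linearMapAt_of_mem _ hq']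
  change ((trivializationAt (En n →L[ℝ] ℝ) (fun x : M => (TangentSpace 𝓘(ℝ, En n) x →L[ℝ] ℝ)) p)
    ⟨q, (g q) ((Trivialization.symmL ℝ
      (trivializationAt (En n) (TangentSpace 𝓘(ℝ, En n)) p) q) v)⟩).2 w = _
  rw [hom_trivializationAt_apply]
  simp only [ContinuousLinearMap.inCoordinates, ContinuousLinearMap.comp_apply]
  rw [symmL_eq_dSy hq]
  have h3 := Bundle.Trivial.continuousLinearMapAt_trivialization ℝ M ℝ q
  have h4 := congrArg (fun L : ℝ →L[ℝ] ℝ => L ((g q) (Bo84.dSy p (chartAt (En n) p q) v)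
    (Bo84.dSy p (chartAt (En n) p q) w))) h3
  refine Eq.trans h4 ?_
  rw [bil_frmG]
  exact frm_congr g ((chartAt (En n) p).left_inv hq).symm _ _

/-- a metric from a field of forms with smooth positive definite chart coefficients -/
def Met.ofFrm (g : Frm n M) (hsm : ∀ x i j, ContDiffOn ℝ ∞ (fun y => frmG g x y i j) (tg n x))
    (hpd : ∀ x, (frmG g x (ctr n x)).PosDef) : Met n M where
  inner := g
  symm p v w :=
    (frm_eq_bil g p (mem_chart_source (En n) p) v w).trans ((bil_symm_of (hpd p) _ _).trans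
      (frm_eq_bil g p (mem_chart_source (En n) p) w v).symm)
  pos p v hv := by
    refine lt_of_lt_of_eq ?_ (frm_eq_bil g p (mem_chart_source (En n) p) v v).symm
    refine bil_pos_of (hpd p) fun h => hv ?_
    exact dCh_injective p (mem_chart_source (En n) p) (h.trans (map_zero _).symm)
  isVonNBounded p := by
    let B : En n →L[ℝ] En n →L[ℝ] ℝ := g p
    change Bornology.IsVonNBounded ℝ {v : En n | B v v < 1}
    obtain ⟨c, hc, h⟩ := exists_lower B fun v hv => by
      change 0 < g p v v
      rw [frm_eq_bil g p (mem_chart_source (En n) p)]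
      refine bil_pos_of (hpd p) fun h => hv ?_
      exact dCh_injective p (mem_chart_source (En n) p) (h.trans (map_zero _).symm)
    refine (NormedSpace.isVonNBounded_ball ℝ (En n) (Real.sqrt (1 / c) + 1)).subset ?_
    intro v hv
    have h1 : c * ‖v‖ ^ 2 < 1 := lt_of_le_of_lt (h v) hv
    have h2 : ‖v‖ ^ 2 < 1 / c := by
      rw [lt_div_iff₀ hc]; linarith [mul_comm c (‖v‖ ^ 2)]
    have h3 : ‖v‖ < Real.sqrt (1 / c) := Real.lt_sqrt_of_sq_lt h2
    rw [mem_ball_zero_iff]
    linarith
  contMDiff := contMDiff_frm g hsm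

theorem Met.ofFrm_inner (g : Frm n M) (hsm hpd) : (Met.ofFrm g hsm hpd).inner = g := rfl

theorem Met.ofFrm_G (g : Frm n M) (hsm hpd) (x : M) : (Met.ofFrm g hsm hpd).G x = frmG g x := rfl

theorem Met.ext' {m m' : Met n M} (h : m.inner = m'.inner) : m = m' := by
  cases m; cases m'; cases h; rfl

namespace Met

variable (m : Met n M)

theorem isRiem (x : M) : IsRiemannianOn (m.G x) (tg n x) :=
  letI : RiemannianBundle (fun x : M => TangentSpace 𝓘(ℝ, En n) x) := ⟨m.toRiemannianMetric⟩
  Bo84.isRiemannianOn_chartMetric x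

theorem pull_trans (x₀ x₁ : M) :
    Pull (m.G x₀) (m.G x₁) (Bo84.trans x₀ x₁) (Bo84.tdom x₀ x₁) (tg n x₁) :=
  letI : RiemannianBundle (fun x : M => TangentSpace 𝓘(ℝ, En n) x) := ⟨m.toRiemannianMetric⟩
  Bo84.pull_trans x₀ x₁

theorem bil_G (x : M) (y u v : En n) :
    bil (m.G x y) u v = m.inner ((chartAt (En n) x).symm y) (Bo84.dSy x y u) (Bo84.dSy x y v) :=
  bil_frmG m.inner x y u v

theorem bil_pm (Ψ : En n → M) (y u v : En n) :
    bil (m.pm Ψ y) u v = m.inner (Ψ y) (mfderiv 𝓘(ℝ, En n) 𝓘(ℝ, En n) Ψ y u)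
      (mfderiv 𝓘(ℝ, En n) 𝓘(ℝ, En n) Ψ y v) := by
  let B : En n →L[ℝ] En n →L[ℝ] ℝ := m.inner (Ψ y)
  let L : En n →L[ℝ] En n := mfderiv 𝓘(ℝ, En n) 𝓘(ℝ, En n) Ψ y
  exact bil_clm ((B.comp L).flip.comp L).flip u v

/-- two metrics with the same coefficients at the chart centres are equal -/
theorem ext_G {m m' : Met n M} (h : ∀ x, m.G x (ctr n x) = m'.G x (ctr n x)) : m = m' := by
  refine Met.ext' (funext fun p => ?_)
  ext v w
  refine (frm_eq_bil m.inner p (mem_chart_source (En n) p) v w).trans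
    (Eq.trans ?_ (frm_eq_bil m'.inner p (mem_chart_source (En n) p) v w).symm)
  exact congrArg (fun A => bil A _ _) (h p)

end Met

/-- the field of forms of a `2`-tensor field -/
def frmOf (T : CT n M 2) : Frm n M := fun p =>
  (((bil (Matrix.of fun i j => T p (ctr n p) ![i, j])).comp (Bo84.dCh p p)).flip.comp
    (Bo84.dCh p p)).flip

theorem frmOf_apply (T : CT n M 2) (p : M) (v w : En n) :
    frmOf T p v w =
      bil (Matrix.of fun i j => T p (ctr n p) ![i, j]) (Bo84.dCh p p v) (Bo84.dCh p p w) := rfl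

theorem evT_two (A : Arr n 2) (u v : En n) :
    evT A ![u, v] = bil (Matrix.of fun i j => A ![i, j]) u v := by
  rw [bil_apply, evT, ← (finTwoArrowEquiv (Fin n)).symm.sum_comp, Fintype.sum_prod_type]
  refine Finset.sum_congr rfl fun i _ => Finset.sum_congr rfl fun j _ => ?_
  simp [Fin.prod_univ_two, finTwoArrowEquiv]
  ring

theorem mem_tdom_self {x : M} {y : En n} (hy : y ∈ tg n x) :
    y ∈ Bo84.tdom x ((chartAt (En n) x).symm y) := ⟨hy, mem_chart_source (En n) _⟩

theorem frmG_frmOf {T : CT n M 2} (hT : Compat T) (x : M) {y : En n} (hy : y ∈ tg n x)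
    (i j : Fin n) : frmG (frmOf T) x y i j = T x y ![i, j] := by
  have h1 := hT x _ y (mem_tdom_self hy)
  rw [h1]
  simp only [frmG, Matrix.of_apply, frmOf_apply, pullT]
  rw [← evT_two]
  refine congrArg (evT (T _ (ctr n ((chartAt (En n) x).symm y)))) ?_
  funext s
  fin_cases s
  · exact (Bo84.fderiv_trans (mem_tdom_self hy) _).symm
  · exact (Bo84.fderiv_trans (mem_tdom_self hy) _).symm

/-- a metric from a positive definite smooth `2`-tensor field -/
def Met.ofCT (T : CT n M 2) (hT : IsGlob T)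
    (hpd : ∀ x, (Matrix.of fun i j => T x (ctr n x) ![i, j]).PosDef) : Met n M :=
  Met.ofFrm (frmOf T)
    (fun x i j => (hT.sm x ![i, j]).congr fun y hy => frmG_frmOf hT.compat x hy i j)
    fun x => by
      have : frmG (frmOf T) x (ctr n x) = Matrix.of fun i j => T x (ctr n x) ![i, j] := by
        ext i j
        exact frmG_frmOf hT.compat x (mem_chart_target (En n) x) i j
      rw [this]; exact hpd x

theorem Met.ofCT_G (T : CT n M 2) (hT : IsGlob T) (hpd) (x : M) {y : En n} (hy : y ∈ tg n x)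
    (i j : Fin n) : (Met.ofCT T hT hpd).G x y i j = T x y ![i, j] :=
  frmG_frmOf hT.compat x hy i j

/-- the metric `c • m` -/
def Met.scale (m : Met n M) (c : ℝ) (hc : 0 < c) : Met n M :=
  Met.ofFrm (fun p => c • m.inner p)
    (fun x i j => (contDiffOn_const (c := c)).mul ((m.isRiem x).contDiffOn i j))
    fun x => by
      have : frmG (fun p => c • m.inner p) x (ctr n x) = c • m.G x (ctr n x) := by
        ext i j; rfl
      rw [this]
      exact ((m.isRiem x).posDef _ (mem_chart_target (En n) x)).smul hc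

theorem Met.scale_inner (m : Met n M) (c : ℝ) (hc : 0 < c) (p : M)
    (v w : TangentSpace 𝓘(ℝ, En n) p) : (m.scale c hc).inner p v w = c * m.inner p v w := rfl

theorem Met.scale_pm (m : Met n M) (c : ℝ) (hc : 0 < c) (Ψ : En n → M) :
    (m.scale c hc).pm Ψ = fun y => c • m.pm Ψ y := by
  funext y; ext i j; rfl

theorem Met.scale_G (m : Met n M) (c : ℝ) (hc : 0 < c) (x : M) :
    (m.scale c hc).G x = fun y => c • m.G x y := m.scale_pm c hc _

end Crest.Agent.N207

end
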