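import Crest.Agent.N207.A.Tg4
import Crest.Agent.N207.AI.EvoC

/-!
# Row 207, block A (helper33): the evolution equations in the form `AI.CEvo`
-/

set_option autoImplicit false

namespace Crest.Agent.N207.A

theorem cevo (n : ℕ) : AI.CEvo n where
  gam c _ hu _ ht _ hy := (((WF.of_cflow c).dt_gam ht hy hu fun _ hs _ hz =>
    (AI.st_differentiableAt c.isOpenJ hu hs hz).hasDerivAt.hasDerivWithinAt).hasDerivAt
      (c.isOpenJ.mem_nhds ht)).deriv
  lap c _ hu _ ht _ hy := (((WF.of_cflow c).dt_lap ht hy hu fun _ hs _ hz =>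
    (AI.st_differentiableAt c.isOpenJ hu hs hz).hasDerivAt.hasDerivWithinAt).hasDerivAt
      (c.isOpenJ.mem_nhds ht)).deriv
  scal c _ ht _ hy := (((WF.of_cflow c).dt_scal ht hy).hasDerivAt (c.isOpenJ.mem_nhds ht)).deriv
  rm k := by
    obtain ⟨C, h0, h⟩ := dt_N n k
    refine ⟨C, h0, fun c t ht y hy _ => ?_⟩
    obtain ⟨N', h1, h2⟩ := h (WF.of_cflow c) t ht y hy
    rwa [← (h1.hasDerivAt (c.isOpenJ.mem_nhds ht)).deriv] at h2
  rc k := by
    obtain ⟨C, h0, h⟩ := dt_Q n k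
    refine ⟨C, h0, fun c t ht y hy _ => ?_⟩
    obtain ⟨N', h1, h2⟩ := h (WF.of_cflow c) t ht y hy
    rwa [← (h1.hasDerivAt (c.isOpenJ.mem_nhds ht)).deriv] at h2

end Crest.Agent.N207.A
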