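import Crest.Agent.N207.A.Co1
import Crest.Agent.N207.AI.Ev

/-!
# Row 207, block A2 (helper41), file 2: linearity and Leibniz rules of `cov`
-/

set_option autoImplicit false

open scoped ContDiff Topology
open Filter Set Function
open Crest.GeometryTopology.CoordMetric Crest.GeometryTopology.ChartCurvature
  Crest.GeometryTopology.MetricFamily
open Crest.Agent.R202.Tens Crest.Agent.R247

noncomputable section

namespace Crest.Agent.N207

variable {n k : ℕ} {G : MetricField n} {U : Set (En n)} {y : En n}

/-- differentiable components at a point -/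
abbrev DfT (T : Tn n k) (y : En n) : Prop := ∀ I, DifferentiableAt ℝ (fun z => T z I) y

/-! ### array algebra -/

/-- the derivation of arrays induced by the matrix `B m i` -/
def actA (B : Fin n → Fin n → ℝ) (A : Arr n k) : Arr n k := fun I =>
  ∑ s : Fin k, ∑ m, B m (I s) * A (update I s m)

/-- freezing the index `0` of an array -/
def slA (a : Fin n) (A : Arr n (k + 1)) : Arr n k := fun I => A (Fin.cons a I)

/-- freezing the index `0` of a tensor -/
def slT (a : Fin n) (T : Tn n (k + 1)) : Tn n k := fun y => slA a (T y)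

theorem actA_cons (B : Fin n → Fin n → ℝ) (A : Arr n (k + 1)) (a : Fin n) (I : Fin k → Fin n) :
    actA B A (Fin.cons a I) = ∑ m, B m a * A (Fin.cons m I) + actA B (slA a A) I := by
  simp only [actA, slA, Fin.sum_univ_succ, Fin.cons_zero, Fin.cons_succ, Fin.update_cons_zero,
    Fin.cons_update]

theorem actA_zero_rank (B : Fin n → Fin n → ℝ) (A : Arr n 0) (I : Fin 0 → Fin n) :
    actA B A I = 0 := by simp [actA]

theorem actA_add (B : Fin n → Fin n → ℝ) (A C : Arr n k) :
    actA B (A + C) = actA B A + actA B C := by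
  funext I; simp only [actA, Pi.add_apply, mul_add, Finset.sum_add_distrib]

theorem actA_sub (B : Fin n → Fin n → ℝ) (A C : Arr n k) :
    actA B (A - C) = actA B A - actA B C := by
  funext I; simp only [actA, Pi.sub_apply, mul_sub, Finset.sum_sub_distrib]

theorem actA_smul (B : Fin n → Fin n → ℝ) (c : ℝ) (A : Arr n k) :
    actA B (c • A) = c • actA B A := by
  funext I
  simp only [actA, Pi.smul_apply, smul_eq_mul, Finset.mul_sum]
  exact Finset.sum_congr rfl fun _ _ => Finset.sum_congr rfl fun _ _ => by ring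

theorem actA_sum {ι : Type*} (t : Finset ι) (B : Fin n → Fin n → ℝ) (A : ι → Arr n k) :
    actA B (∑ a ∈ t, A a) = ∑ a ∈ t, actA B (A a) := by
  funext I
  simp only [actA, Finset.sum_apply, Finset.mul_sum]
  rw [Finset.sum_comm (s := t)]
  exact Finset.sum_congr rfl fun _ _ => Finset.sum_comm

variable {H : Matrix (Fin n) (Fin n) ℝ}

theorem ipA_add_left (A B C : Arr n k) : ipA H (A + B) C = ipA H A C + ipA H B C := by
  simp only [ipA, Pi.add_apply, add_mul, mul_add, Finset.sum_add_distrib]

theorem ipA_add_right (A B C : Arr n k) : ipA H A (B + C) = ipA H A B + ipA H A C := by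
  simp only [ipA, Pi.add_apply, mul_add, Finset.sum_add_distrib]

theorem ipA_sub_left (A B C : Arr n k) : ipA H (A - B) C = ipA H A C - ipA H B C := by
  simp only [ipA, Pi.sub_apply, sub_mul, mul_sub, Finset.sum_sub_distrib]

theorem ipA_sub_right (A B C : Arr n k) : ipA H A (B - C) = ipA H A B - ipA H A C := by
  simp only [ipA, Pi.sub_apply, mul_sub, Finset.sum_sub_distrib]

theorem ipA_smul_left (c : ℝ) (A C : Arr n k) : ipA H (c • A) C = c * ipA H A C := by
  simp only [ipA, Pi.smul_apply, smul_eq_mul, Finset.mul_sum]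
  exact Finset.sum_congr rfl fun _ _ => Finset.sum_congr rfl fun _ _ => by ring

theorem ipA_smul_right (c : ℝ) (A C : Arr n k) : ipA H A (c • C) = c * ipA H A C := by
  simp only [ipA, Pi.smul_apply, smul_eq_mul, Finset.mul_sum]
  exact Finset.sum_congr rfl fun _ _ => Finset.sum_congr rfl fun _ _ => by ring

theorem ipA_zero_left (C : Arr n k) : ipA H 0 C = 0 := by simp [ipA]

theorem ipA_zero_right (C : Arr n k) : ipA H C 0 = 0 := by simp [ipA]

theorem ipA_sum_left {ι : Type*} (t : Finset ι) (A : ι → Arr n k) (C : Arr n k) :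
    ipA H (∑ a ∈ t, A a) C = ∑ a ∈ t, ipA H (A a) C := by
  classical
  induction t using Finset.induction_on with
  | empty => simp [ipA_zero_left]
  | insert a t ha ih => rw [Finset.sum_insert ha, Finset.sum_insert ha, ipA_add_left, ih]

theorem ipA_sum_right {ι : Type*} (t : Finset ι) (A : ι → Arr n k) (C : Arr n k) :
    ipA H C (∑ a ∈ t, A a) = ∑ a ∈ t, ipA H C (A a) := by
  classical
  induction t using Finset.induction_on with
  | empty => simp [ipA_zero_right]
  | insert a t ha ih => rw [Finset.sum_insert ha, Finset.sum_insert ha, ipA_add_right, ih]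

theorem ipA_comm (hH : ∀ a b, H a b = H b a) (A C : Arr n k) : ipA H A C = ipA H C A := by
  rw [ipA, ipA, Finset.sum_comm]
  refine Finset.sum_congr rfl fun I _ => Finset.sum_congr rfl fun J _ => ?_
  rw [mul_comm (A J), Finset.prod_congr rfl fun s _ => hH (J s) (I s)]

theorem ipA_zero_rank (A C : Arr n 0) : ipA H A C = A ![] * C ![] := by
  simp only [ipA, Fintype.sum_unique, Finset.univ_eq_empty, Finset.prod_empty, one_mul]
  rfl

theorem ipA_succ (A C : Arr n (k + 1)) :
    ipA H A C = ∑ a, ∑ b, H a b * ipA H (slA a A) (slA b C) := by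
  rw [ipA, AI.sum_cons]
  refine Finset.sum_congr rfl fun a _ => ?_
  simp only [AI.sum_cons (k := k), ipA, slA, Finset.mul_sum, Fin.prod_univ_succ, Fin.cons_zero,
    Fin.cons_succ]
  rw [Finset.sum_comm]
  exact Finset.sum_congr rfl fun b _ => Finset.sum_congr rfl fun I _ =>
    Finset.sum_congr rfl fun J _ => by ring

theorem ipA_one (A C : Arr n 1) : ipA H A C = ∑ a, ∑ b, H a b * (A ![a] * C ![b]) := by
  rw [ipA_succ]
  simp only [ipA_zero_rank]
  rfl

theorem ipA_two (A C : Arr n 2) :
    ipA H A C = ∑ a, ∑ b, ∑ c, ∑ d, H a b * H c d * (A ![a, c] * C ![b, d]) := by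
  rw [ipA_succ]
  simp only [ipA_one, Finset.mul_sum, mul_assoc]
  rfl

theorem ipA_act_left (B : Fin n → Fin n → ℝ) (A C : Arr n k) :
    ipA H (actA B A) C = ∑ I : Fin k → Fin n, ∑ J : Fin k → Fin n, (∑ s : Fin k,
      (∏ r ∈ Finset.univ.erase s, H (I r) (J r)) * ∑ m, B (I s) m * H m (J s)) * (A I * C J) := by
  rw [ipA, Finset.sum_comm, Finset.sum_comm (f := fun I J => _ * (A I * C J))]
  refine Finset.sum_congr rfl fun J _ => ?_
  simp only [actA, Finset.sum_mul, Finset.mul_sum]
  rw [Finset.sum_comm]
  conv_rhs => rw [Finset.sum_comm]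
  refine Finset.sum_congr rfl fun s _ => ?_
  rw [AI.sum_update_swap s]
  refine Finset.sum_congr rfl fun I _ => Finset.sum_congr rfl fun m _ => ?_
  rw [← Finset.mul_prod_erase Finset.univ _ (Finset.mem_univ s)]
  simp only [update_self, update_idem, update_eq_self]
  rw [Finset.prod_congr rfl fun r hr => by rw [update_of_ne (Finset.ne_of_mem_erase hr)]]
  ring

theorem ipA_act_right (B : Fin n → Fin n → ℝ) (A C : Arr n k) :
    ipA H A (actA B C) = ∑ I : Fin k → Fin n, ∑ J : Fin k → Fin n, (∑ s : Fin k,
      (∏ r ∈ Finset.univ.erase s, H (I r) (J r)) * ∑ m, B (J s) m * H (I s) m) * (A I * C J) := by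
  rw [ipA]
  refine Finset.sum_congr rfl fun I _ => ?_
  simp only [actA, Finset.sum_mul, Finset.mul_sum]
  rw [Finset.sum_comm]
  conv_rhs => rw [Finset.sum_comm]
  refine Finset.sum_congr rfl fun s _ => ?_
  rw [AI.sum_update_swap s]
  refine Finset.sum_congr rfl fun J _ => Finset.sum_congr rfl fun m _ => ?_
  rw [← Finset.mul_prod_erase Finset.univ _ (Finset.mem_univ s)]
  simp only [update_self, update_idem, update_eq_self]
  rw [Finset.prod_congr rfl fun r hr => by rw [update_of_ne (Finset.ne_of_mem_erase hr)]]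
  ring

/-- the algebra behind every derivative of an inner product -/
theorem ipA_deriv_alg (B : Fin n → Fin n → ℝ) (H' : Fin n → Fin n → ℝ)
    (h : ∀ a b, H' a b = -(∑ m, B a m * H m b) - ∑ m, B b m * H a m) (A A' C C' : Arr n k) :
    ∑ I : Fin k → Fin n, ∑ J : Fin k → Fin n,
      ((∑ s : Fin k, (∏ r ∈ Finset.univ.erase s, H (I r) (J r)) * H' (I s) (J s)) * (A I * C J)
        + (∏ s, H (I s) (J s)) * (A' I * C J + A I * C' J)) =
      ipA H (A' - actA B A) C + ipA H A (C' - actA B C) := by
  rw [ipA_sub_left, ipA_sub_right, ipA_act_left, ipA_act_right]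
  simp only [ipA, ← Finset.sum_sub_distrib, ← Finset.sum_add_distrib]
  refine Finset.sum_congr rfl fun I _ => Finset.sum_congr rfl fun J _ => ?_
  simp only [h, mul_sub, mul_neg, Finset.sum_sub_distrib, Finset.sum_neg_distrib]
  ring

/-! ### `cov` in components -/

variable {S T : Tn n k}

theorem cov_cons (G : MetricField n) (T : Tn n k) (y : En n) (l : Fin n) (I : Fin k → Fin n) :
    cov G T y (Fin.cons l I) = pderiv l (fun z => T z I) y -
      actA (fun m i => christoffel G y m l i) (T y) I := rfl

theorem slA_cov (G : MetricField n) (T : Tn n k) (y : En n) (l : Fin n) :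
    slA l (cov G T y) = (fun I => pderiv l (fun z => T z I) y) -
      actA (fun m i => christoffel G y m l i) (T y) := rfl

theorem cov_cons_cons (G : MetricField n) (T : Tn n (k + 1)) (y : En n) (l a : Fin n)
    (I : Fin k → Fin n) : cov G T y (Fin.cons l (Fin.cons a I)) =
      cov G (slT a T) y (Fin.cons l I) - ∑ m, christoffel G y m l a * T y (Fin.cons m I) := by
  rw [cov_cons, cov_cons, actA_cons]
  simp only [slT, slA]
  ring

theorem cov_zero_rank (G : MetricField n) (T : Tn n 0) (y : En n) (l : Fin n) :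
    cov G T y ![l] = pderiv l (fun z => T z ![]) y := by
  have h := cov_cons G T y l ![]
  rw [actA_zero_rank, sub_zero] at h
  exact h

theorem cov_one (G : MetricField n) (T : Tn n 1) (y : En n) (l a : Fin n) :
    cov G T y ![l, a] = pderiv l (fun z => T z ![a]) y - ∑ m, christoffel G y m l a * T y ![m] := by
  have h := cov_cons_cons G T y l a ![]
  have h2 := cov_zero_rank G (slT a T) y l
  exact h.trans (congrArg (· - _) h2)

theorem cov_two (G : MetricField n) (T : Tn n 2) (y : En n) (l a b : Fin n) :
    cov G T y ![l, a, b] = pderiv l (fun z => T z ![a, b]) y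
      - ∑ m, christoffel G y m l a * T y ![m, b] - ∑ m, christoffel G y m l b * T y ![a, m] := by
  have h := cov_cons_cons G T y l a ![b]
  have h2 := cov_one G (slT a T) y l b
  refine (h.trans (congrArg (· - _) h2)).trans ?_
  exact sub_right_comm _ _ _

theorem cov_three (G : MetricField n) (T : Tn n 3) (y : En n) (l a b c : Fin n) :
    cov G T y ![l, a, b, c] = pderiv l (fun z => T z ![a, b, c]) y
      - ∑ m, christoffel G y m l a * T y ![m, b, c] - ∑ m, christoffel G y m l b * T y ![a, m, c]
      - ∑ m, christoffel G y m l c * T y ![a, b, m] := by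
  have h := cov_cons_cons G T y l a ![b, c]
  have h2 := cov_two G (slT a T) y l b c
  refine (h.trans (congrArg (· - _) h2)).trans ?_
  change _ - _ - _ - ∑ m, christoffel G y m l a * T y ![m, b, c] = _
  simp only [slT, slA]
  have e : ∀ (z : En n) (p q r : Fin n), T z (Fin.cons p ![q, r]) = T z ![p, q, r] :=
    fun _ _ _ _ => rfl
  simp only [e]
  ring

theorem cov_four (G : MetricField n) (T : Tn n 4) (y : En n) (l a b c d : Fin n) :
    cov G T y ![l, a, b, c, d] = pderiv l (fun z => T z ![a, b, c, d]) y
      - ∑ m, christoffel G y m l a * T y ![m, b, c, d]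
      - ∑ m, christoffel G y m l b * T y ![a, m, c, d]
      - ∑ m, christoffel G y m l c * T y ![a, b, m, d]
      - ∑ m, christoffel G y m l d * T y ![a, b, c, m] := by
  have h := cov_cons_cons G T y l a ![b, c, d]
  have h2 := cov_three G (slT a T) y l b c d
  refine (h.trans (congrArg (· - _) h2)).trans ?_
  change _ - _ - _ - _ - ∑ m, christoffel G y m l a * T y ![m, b, c, d] = _
  simp only [slT, slA]
  have e : ∀ (z : En n) (p q r s : Fin n), T z (Fin.cons p ![q, r, s]) = T z ![p, q, r, s] :=
    fun _ _ _ _ _ => rfl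
  simp only [e]
  ring

theorem arr_ext {A B : Arr n (k + 1)} (h : ∀ l I, A (Fin.cons l I) = B (Fin.cons l I)) : A = B := by
  funext J
  rw [← Fin.cons_self_tail J]
  exact h _ _

theorem cov_zero (G : MetricField n) : cov G (0 : Tn n k) = 0 := by
  funext y J
  simp [cov, pd_const]

theorem cov_add (hS : DfT S y) (hT : DfT T y) : cov G (S + T) y = cov G S y + cov G T y := by
  refine arr_ext fun l I => ?_
  simp only [Pi.add_apply, cov_cons, actA_add, pd_add l (hS I) (hT I)]
  ring

theorem cov_sub (hS : DfT S y) (hT : DfT T y) : cov G (S - T) y = cov G S y - cov G T y := by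
  refine arr_ext fun l I => ?_
  simp only [Pi.sub_apply, cov_cons, actA_sub, pd_sub l (hS I) (hT I)]
  ring

theorem cov_smul (c : ℝ) (T : Tn n k) : cov G (c • T) = c • cov G T := by
  funext y
  refine arr_ext fun l I => ?_
  simp only [Pi.smul_apply, cov_cons, actA_smul, smul_eq_mul, pd_cmul]
  ring

theorem cov_neg (T : Tn n k) : cov G (-T) = -cov G T := by
  rw [← neg_one_smul ℝ T, cov_smul, neg_one_smul]

theorem cov_sum {ι : Type*} (t : Finset ι) {F : ι → Tn n k} (hF : ∀ a ∈ t, DfT (F a) y) :
    cov G (∑ a ∈ t, F a) y = ∑ a ∈ t, cov G (F a) y := by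
  refine arr_ext fun l I => ?_
  simp only [Finset.sum_apply, cov_cons, actA_sum, Finset.sum_sub_distrib]
  rw [pd_sum l t fun a ha => hF a ha I]

theorem cov_smT_cons {f : En n → ℝ} (hf : DifferentiableAt ℝ f y) (hT : DfT T y) (l : Fin n)
    (I : Fin k → Fin n) : cov G (smT f T) y (Fin.cons l I) =
      pderiv l f y * T y I + f y * cov G T y (Fin.cons l I) := by
  have h : smT f T y = f y • T y := rfl
  rw [cov_cons, cov_cons, h, actA_smul]
  simp only [smT, pd_mul l hf (hT I), Pi.smul_apply, smul_eq_mul]
  ring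

theorem cov_smT {f : En n → ℝ} (hf : DifferentiableAt ℝ f y) (hT : DfT T y)
    (J : Fin (k + 1) → Fin n) : cov G (smT f T) y J =
      pderiv (J 0) f y * T y (Fin.tail J) + f y * cov G T y J := by
  have h := cov_smT_cons (G := G) hf hT (J 0) (Fin.tail J)
  rwa [Fin.cons_self_tail] at h

theorem cov_fnT (G : MetricField n) (f : En n → ℝ) : cov G (fnT f) = dT f := by
  funext y J
  simp [cov, fnT, dT]

theorem covN_one (G : MetricField n) (T : Tn n k) : covN G T 1 = cov G T := rfl

theorem covN_two (G : MetricField n) (T : Tn n k) : covN G T 2 = cov G (cov G T) := rfl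

/-- `cov` commutes with the permutations of the indices -/
theorem cov_perm (G : MetricField n) (σ : Equiv.Perm (Fin k)) (T : Tn n k) (y : En n) (l : Fin n)
    (I : Fin k → Fin n) : cov G (fun z J => T z (J ∘ σ)) y (Fin.cons l I) =
      cov G T y (Fin.cons l (I ∘ σ)) := by
  rw [cov_cons, cov_cons]
  congr 1
  simp only [actA]
  rw [← Equiv.sum_comp σ]
  refine Finset.sum_congr rfl fun s _ => Finset.sum_congr rfl fun m _ => ?_
  rw [update_comp_equiv, Equiv.symm_apply_apply]
  rfl

end Crest.Agent.N207

end
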