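import Crest.Agent.N207.A.Co3
import Crest.Agent.N207.AI.GlobT

/-!
# Row 207, block A2 (helper41), file 4: paths of functions, differentiable with their jets

`JD J t U m f f'`: `f s` is smooth on `U` for `s` near `t` in `J`, and the space derivatives of
order `≤ m` of `f s` have the `s`-derivative (within `J`, at `t`) given by those of `f'`.
-/

set_option autoImplicit false

open scoped ContDiff Topology
open Filter Set Function
open Crest.GeometryTopology.CoordMetric Crest.GeometryTopology.ChartCurvature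
  Crest.GeometryTopology.MetricFamily
open Crest.Agent.R202.Tens Crest.Agent.R247

noncomputable section

namespace Crest.Agent.N207

variable {n k : ℕ}

/-- order zero -/
structure JD0 (J : Set ℝ) (t : ℝ) (U : Set (En n)) (f : ℝ → En n → ℝ) (f' : En n → ℝ) : Prop where
  isOpen : IsOpen U
  ev : ∀ᶠ s in 𝓝[J] t, ContDiffOn ℝ ∞ (f s) U
  sm : ContDiffOn ℝ ∞ (f t) U
  sm' : ContDiffOn ℝ ∞ f' U
  d : ∀ y ∈ U, HasDerivWithinAt (fun s => f s y) (f' y) J t

/-- paths of smooth functions, differentiable with the space derivatives of order `≤ m` -/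
def JD (J : Set ℝ) (t : ℝ) (U : Set (En n)) : ℕ → (ℝ → En n → ℝ) → (En n → ℝ) → Prop
  | 0, f, f' => JD0 J t U f f'
  | m + 1, f, f' => JD0 J t U f f' ∧ ∀ i, JD J t U m (fun s => pderiv i (f s)) (pderiv i f')

variable {J : Set ℝ} {t : ℝ} {U : Set (En n)} {f g : ℝ → En n → ℝ} {f' g' : En n → ℝ}

namespace JD

theorem zero : ∀ {m : ℕ}, JD J t U m f f' → JD0 J t U f f'
  | 0, h => h
  | _ + 1, h => h.1

theorem pd {m : ℕ} (h : JD J t U (m + 1) f f') (i : Fin n) :
    JD J t U m (fun s => pderiv i (f s)) (pderiv i f') := h.2 i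

theorem pred : ∀ {m : ℕ} {f : ℝ → En n → ℝ} {f' : En n → ℝ},
    JD J t U (m + 1) f f' → JD J t U m f f'
  | 0, _, _, h => h.1
  | _ + 1, _, _, h => ⟨h.1, fun i => pred (h.2 i)⟩

theorem of_le {m m' : ℕ} (h : JD J t U m f f') (hm : m' ≤ m) : JD J t U m' f f' := by
  induction hm with
  | refl => exact h
  | step _ ih => exact ih h.pred

theorem d {m : ℕ} (h : JD J t U m f f') {y : En n} (hy : y ∈ U) :
    HasDerivWithinAt (fun s => f s y) (f' y) J t := h.zero.d y hy

theorem congr : ∀ {m : ℕ} {f g : ℝ → En n → ℝ} {f' g' : En n → ℝ}, JD J t U m f f' →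
    (∀ᶠ s in 𝓝[J] t, ∀ y ∈ U, g s y = f s y) → (∀ y ∈ U, g t y = f t y) →
    (∀ y ∈ U, g' y = f' y) → JD J t U m g g'
  | 0, _, _, _, _, h, h1, h2, h3 =>
    ⟨h.isOpen, (h.ev.and h1).mono fun _ hs => hs.1.congr hs.2, h.sm.congr h2, h.sm'.congr h3,
      fun y hy => h3 y hy ▸ (h.d hy).congr_of_eventuallyEq (h1.mono fun _ hs => hs y hy)
        (h2 y hy)⟩
  | _ + 1, _, _, _, _, h, h1, h2, h3 =>
    ⟨congr (m := 0) h.1 h1 h2 h3, fun i => congr (h.2 i)
      (h1.mono fun _ hs _ hy => pd_congr_on i h.1.isOpen hy hs)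
      (fun _ hy => pd_congr_on i h.1.isOpen hy h2) fun _ hy => pd_congr_on i h.1.isOpen hy h3⟩

theorem congr' {m : ℕ} (h : JD J t U m f f') (h3 : ∀ y ∈ U, g' y = f' y) : JD J t U m f g' :=
  h.congr (Eventually.of_forall fun _ _ _ => rfl) (fun _ _ => rfl) h3

theorem static (hU : IsOpen U) : ∀ (m : ℕ) {u : En n → ℝ}, ContDiffOn ℝ ∞ u U →
    JD J t U m (fun _ => u) fun _ => 0
  | 0, _, hu => ⟨hU, Eventually.of_forall fun _ => hu, hu, contDiffOn_const,
      fun _ _ => hasDerivWithinAt_const _ _ _⟩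
  | m + 1, _, hu => ⟨static hU 0 hu, fun i =>
      (static hU m (sm_pd hU hu i)).congr' fun _ _ => pd_const i 0⟩

theorem add : ∀ {m : ℕ} {f g : ℝ → En n → ℝ} {f' g' : En n → ℝ}, JD J t U m f f' →
    JD J t U m g g' → JD J t U m (fun s y => f s y + g s y) fun y => f' y + g' y
  | 0, _, _, _, _, hf, hg =>
    ⟨hf.isOpen, (hf.ev.and hg.ev).mono fun _ hs => hs.1.add hs.2, hf.sm.add hg.sm,
      hf.sm'.add hg.sm', fun _ hy => (hf.d hy).add (hg.d hy)⟩
  | _ + 1, _, _, _, _, hf, hg =>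
    ⟨add (m := 0) hf.1 hg.1, fun i => (add (hf.2 i) (hg.2 i)).congr
      ((hf.1.ev.and hg.1.ev).mono fun _ hs _ hy =>
        pd_add i (dAt hs.1 hf.1.isOpen hy) (dAt hs.2 hf.1.isOpen hy))
      (fun _ hy => pd_add i (dAt hf.1.sm hf.1.isOpen hy) (dAt hg.1.sm hf.1.isOpen hy))
      fun _ hy => pd_add i (dAt hf.1.sm' hf.1.isOpen hy) (dAt hg.1.sm' hf.1.isOpen hy)⟩

theorem mul : ∀ {m : ℕ} {f g : ℝ → En n → ℝ} {f' g' : En n → ℝ}, JD J t U m f f' →
    JD J t U m g g' → JD J t U m (fun s y => f s y * g s y) fun y => f' y * g t y + f t y * g' y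
  | 0, _, _, _, _, hf, hg =>
    ⟨hf.isOpen, (hf.ev.and hg.ev).mono fun _ hs => hs.1.mul hs.2, hf.sm.mul hg.sm,
      (hf.sm'.mul hg.sm).add (hf.sm.mul hg.sm'), fun _ hy => (hf.d hy).mul (hg.d hy)⟩
  | _ + 1, _, _, _, _, hf, hg =>
    ⟨mul (m := 0) hf.1 hg.1, fun i =>
      ((mul (hf.2 i) hg.pred).add (mul hf.pred (hg.2 i))).congr
      ((hf.1.ev.and hg.1.ev).mono fun _ hs _ hy =>
        pd_mul i (dAt hs.1 hf.1.isOpen hy) (dAt hs.2 hf.1.isOpen hy))
      (fun _ hy => pd_mul i (dAt hf.1.sm hf.1.isOpen hy) (dAt hg.1.sm hf.1.isOpen hy))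
      fun y hy => by
        have a1 := dAt hf.1.sm hf.1.isOpen hy
        have a2 := dAt hg.1.sm hf.1.isOpen hy
        have a3 := dAt hf.1.sm' hf.1.isOpen hy
        have a4 := dAt hg.1.sm' hf.1.isOpen hy
        rw [pd_add i (a3.fun_mul a2) (a1.fun_mul a4), pd_mul i a3 a2, pd_mul i a1 a4]
        ring⟩

theorem cmul {m : ℕ} (c : ℝ) (hf : JD J t U m f f') :
    JD J t U m (fun s y => c * f s y) fun y => c * f' y :=
  ((static hf.zero.isOpen m (u := fun _ => c) contDiffOn_const).mul hf).congr' fun _ _ => by ring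

theorem neg {m : ℕ} (hf : JD J t U m f f') : JD J t U m (fun s y => -f s y) fun y => -f' y :=
  (hf.cmul (-1)).congr (Eventually.of_forall fun _ _ _ => by ring) (fun _ _ => by ring)
    fun _ _ => by ring

theorem sub {m : ℕ} (hf : JD J t U m f f') (hg : JD J t U m g g') :
    JD J t U m (fun s y => f s y - g s y) fun y => f' y - g' y :=
  (hf.add hg.neg).congr (Eventually.of_forall fun _ _ _ => by ring) (fun _ _ => by ring)
    fun _ _ => by ring

theorem sum {m : ℕ} {ι : Type*} (hU : IsOpen U) (s : Finset ι) {F : ι → ℝ → En n → ℝ}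
    {F' : ι → En n → ℝ} (hF : ∀ a ∈ s, JD J t U m (F a) (F' a)) :
    JD J t U m (fun r y => ∑ a ∈ s, F a r y) fun y => ∑ a ∈ s, F' a y := by
  classical
  induction s using Finset.induction_on with
  | empty => simpa using static (J := J) (t := t) hU m (u := fun _ => 0) contDiffOn_const
  | insert a s ha ih =>
    simp only [Finset.sum_insert ha]
    exact (hF a (Finset.mem_insert_self _ _)).add
      (ih fun b hb => hF b (Finset.mem_insert_of_mem hb))

theorem mono_time {J' : Set ℝ} (hJ : J' ⊆ J) : ∀ {m : ℕ} {f : ℝ → En n → ℝ} {f' : En n → ℝ},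
    JD J t U m f f' → JD J' t U m f f'
  | 0, _, _, h => ⟨h.isOpen, h.ev.filter_mono (nhdsWithin_mono _ hJ), h.sm, h.sm',
      fun _ hy => (h.d hy).mono hJ⟩
  | _ + 1, _, _, h => ⟨mono_time (m := 0) hJ h.1, fun i => mono_time hJ (h.2 i)⟩

/-- affine paths -/
theorem affine (hU : IsOpen U) (m : ℕ) {u v : En n → ℝ} (hu : ContDiffOn ℝ ∞ u U)
    (hv : ContDiffOn ℝ ∞ v U) : JD J t U m (fun s y => u y + s * v y) v := by
  have h0 : ∀ m, JD J t U m (fun s (_ : En n) => s) fun _ => 1 := by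
    intro m
    have h00 : JD0 J t U (fun s (_ : En n) => s) fun _ => 1 :=
      ⟨hU, Eventually.of_forall fun _ => contDiffOn_const, contDiffOn_const, contDiffOn_const,
        fun _ _ => hasDerivWithinAt_id _ _⟩
    cases m with
    | zero => exact h00
    | succ m =>
      exact ⟨h00, fun i => (static hU m (u := fun _ => 0) contDiffOn_const).congr
        (Eventually.of_forall fun _ _ _ => pd_const i _) (fun _ _ => pd_const i _)
        fun _ _ => pd_const i _⟩
  exact ((static hU m hu).add ((h0 m).mul (static hU m hv))).congr' fun _ _ => by ring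

end JD

/-- time and space derivatives commute -/
theorem hasDerivAt_pd {f : ℝ → En n → ℝ} (hJ : IsOpen J) (hU : IsOpen U) (hf : St f J U)
    (ht : t ∈ J) {y : En n} (hy : y ∈ U) (i : Fin n) :
    HasDerivAt (fun s => pderiv i (f s) y) (pderiv i (fun z => deriv (fun s => f s z) t) y) t := by
  set F : ℝ × En n → ℝ := fun p => f p.1 p.2 with hF
  have hO : IsOpen (J ×ˢ U) := hJ.prod hU
  have hAt : ∀ p ∈ J ×ˢ U, ContDiffAt ℝ ∞ F p := fun p hp => hf.contDiffAt (hO.mem_nhds hp)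
  have hd : ∀ p ∈ J ×ˢ U, HasFDerivAt F (fderiv ℝ F p) p := fun p hp =>
    ((hAt p hp).differentiableAt (by norm_num)).hasFDerivAt
  have h2 : ContDiffAt ℝ 2 F (t, y) := (hAt _ ⟨ht, hy⟩).of_le Bo84.two_le_infty
  have hD : HasFDerivAt (fderiv ℝ F) (fderiv ℝ (fderiv ℝ F) (t, y)) (t, y) :=
    ((h2.fderiv_right (m := 1) (by norm_num)).differentiableAt (by norm_num)).hasFDerivAt
  have hsym := h2.isSymmSndFDerivAt (by simp)
  have e1 : (fun s => pderiv i (f s) y) =ᶠ[𝓝 t]
      fun s => fderiv ℝ F (s, y) (0, EuclideanSpace.single i 1) := by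
    filter_upwards [hJ.mem_nhds ht] with s hs
    have h := (hd (s, y) ⟨hs, hy⟩).comp y (hasFDerivAt_prodMk_right s y)
    have h' : f s = F ∘ fun z => (s, z) := rfl
    rw [pderiv, h', h.fderiv]
    simp
  have e2 : (fun z => deriv (fun s => f s z) t) =ᶠ[𝓝 y] fun z => fderiv ℝ F (t, z) (1, 0) := by
    filter_upwards [hU.mem_nhds hy] with z hz
    have h := (hd (t, z) ⟨ht, hz⟩).comp_hasDerivAt t
      ((hasDerivAt_id t).prodMk (hasDerivAt_const t z))
    exact h.deriv
  have a1 : HasDerivAt (fun s => fderiv ℝ F (s, y) (0, EuclideanSpace.single i 1))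
      (fderiv ℝ (fderiv ℝ F) (t, y) (1, 0) (0, EuclideanSpace.single i 1)) t := by
    have h := hD.comp_hasDerivAt t ((hasDerivAt_id t).prodMk (hasDerivAt_const t y))
    simpa using h.clm_apply (hasDerivAt_const t ((0 : ℝ), EuclideanSpace.single i (1 : ℝ)))
  have a2 : pderiv i (fun z => fderiv ℝ F (t, z) (1, 0)) y =
      fderiv ℝ (fderiv ℝ F) (t, y) (0, EuclideanSpace.single i 1) (1, 0) := by
    have h := hD.comp y (hasFDerivAt_prodMk_right t y)
    have h3 := h.clm_apply (hasFDerivAt_const ((1 : ℝ), (0 : En n)) y)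
    rw [pderiv]
    erw [h3.fderiv]
    simp
  rw [pd_congr i e2, a2, ← hsym.eq]
  exact a1.congr_of_eventuallyEq e1

/-- jointly smooth functions, `J` open -/
theorem jd_of_st (hJ : IsOpen J) (hU : IsOpen U) (ht : t ∈ J) (J' : Set ℝ) :
    ∀ (m : ℕ) {f : ℝ → En n → ℝ}, St f J U → JD J' t U m f fun y => deriv (fun s => f s y) t
  | 0, _, hf =>
    ⟨hU, mem_nhdsWithin_of_mem_nhds (mem_of_superset (hJ.mem_nhds ht) fun _ hs => st_slice hf hs),
      st_slice hf ht, st_slice (st_deriv hJ hf) ht, fun _ hy =>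
        (((st_tslice hf hy).contDiffAt (hJ.mem_nhds ht)).differentiableAt
          (by norm_num)).hasDerivAt.hasDerivWithinAt⟩
  | m + 1, _, hf => ⟨jd_of_st hJ hU ht J' 0 hf, fun i =>
      (jd_of_st hJ hU ht J' m (st_pderiv hU hf i)).congr' fun _ hy =>
        (hasDerivAt_pd hJ hU hf ht hy i).deriv.symm⟩

end Crest.Agent.N207

end
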