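import Crest.Agent.N207.A.Co4

/-!
# Row 207, block A2 (helper41), file 5: first variation of `g⁻¹`, `√det g`, `Γ`, `Rm`
-/

set_option autoImplicit false

open scoped ContDiff Topology
open Filter Set Function
open Crest.GeometryTopology.CoordMetric Crest.GeometryTopology.ChartCurvature
  Crest.GeometryTopology.MetricFamily
open Crest.Agent.R202.Tens Crest.Agent.R247

noncomputable section

namespace Crest.Agent.N207

variable {n k : ℕ}

/-- a path of metrics on `U` with velocity `h` at the time `t` (within `J`), to the order `m` -/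
structure Var (J : Set ℝ) (t : ℝ) (U : Set (En n)) (m : ℕ) (G : ℝ → MetricField n) (h : Tn n 2) :
    Prop where
  riem : IsRiemannianOn (G t) U
  ev : ∀ᶠ s in 𝓝[J] t, IsRiemannianOn (G s) U
  jd : ∀ i j, JD J t U m (fun s z => G s z i j) fun z => h z ![i, j]
  symm : ∀ z ∈ U, ∀ i j, h z ![i, j] = h z ![j, i]

/-- a path of tensors with velocity `T'` -/
def JDT (J : Set ℝ) (t : ℝ) (U : Set (En n)) (m : ℕ) (T : ℝ → Tn n k) (T' : Tn n k) : Prop :=
  ∀ I, JD J t U m (fun s z => T s z I) fun z => T' z I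

/-- the trace of a 2-tensor, as a function -/
def trF (g : MetricField n) (h : Tn n 2) (z : En n) : ℝ := trT g h z ![]

/-- the lowered variation of the Christoffel symbols,
`vC l i j = (∇ᵢ h_{jl} + ∇ⱼ h_{il} - ∇ₗ h_{ij}) / 2` -/
def vC (g : MetricField n) (h : Tn n 2) : Tn n 3 := fun z I =>
  (1 / 2) * (cov g h z ![I 1, I 2, I 0] + cov g h z ![I 2, I 1, I 0] - cov g h z ![I 0, I 1, I 2])

/-- the variation of `Γˡᵢⱼ` -/
def dCh (g : MetricField n) (h : Tn n 2) (z : En n) (l i j : Fin n) : ℝ :=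
  ∑ m, (g z)⁻¹ l m * vC g h z ![m, i, j]

theorem vC_apply (g : MetricField n) (h : Tn n 2) (z : En n) (l i j : Fin n) :
    vC g h z ![l, i, j] =
      (1 / 2) * (cov g h z ![i, j, l] + cov g h z ![j, i, l] - cov g h z ![l, i, j]) := rfl

theorem trF_apply (g : MetricField n) (h : Tn n 2) (z : En n) :
    trF g h z = ∑ a, ∑ b, (g z)⁻¹ a b * h z ![a, b] := rfl

variable {J : Set ℝ} {t : ℝ} {U : Set (En n)} {G : ℝ → MetricField n} {h : Tn n 2}
  {g : MetricField n} {y : En n}

theorem SmT.vC (hg : IsRiemannianOn g U) (hh : SmT h U) : SmT (vC g h) U := fun _ =>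
  contDiffOn_const.mul (((hh.cov hg _).add (hh.cov hg _)).sub (hh.cov hg _))

theorem sm_trF (hg : IsRiemannianOn g U) (hh : SmT h U) : ContDiffOn ℝ ∞ (trF g h) U :=
  hh.trT hg ![]

theorem sum_mul3 (P X Q : Matrix (Fin n) (Fin n) ℝ) (a b : Fin n) :
    ∑ c, ∑ d, P a c * X c d * Q d b = (P * X * Q) a b := by
  simp only [Matrix.mul_apply, Finset.sum_mul]
  rw [Finset.sum_comm]

/-- entries of a matrix as continuous linear maps -/
def entL (i j : Fin n) : (Fin n → Fin n → ℝ) →L[ℝ] ℝ :=
  (ContinuousLinearMap.proj (R := ℝ) (φ := fun _ : Fin n => ℝ) j).comp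
    (ContinuousLinearMap.proj (R := ℝ) (φ := fun _ : Fin n => Fin n → ℝ) i)

theorem entL_apply (i j : Fin n) (B : Fin n → Fin n → ℝ) : entL i j B = B i j := rfl

theorem hasFDerivAt_ent (i j : Fin n) (x : Fin n → Fin n → ℝ) :
    HasFDerivAt (fun B : Fin n → Fin n → ℝ => B i j) (entL i j) x := (entL i j).hasFDerivAt

/-- raising the index `0` and differentiating -/
theorem pd_raise {T : Tn n (k + 1)} (hg : IsRiemannianOn g U) (hy : y ∈ U) (hT : DfT T y)
    (i l : Fin n) (I : Fin k → Fin n) :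
    pderiv i (fun z => ∑ m, (g z)⁻¹ l m * T z (Fin.cons m I)) y =
      ∑ m, (g y)⁻¹ l m * cov g T y (Fin.cons i (Fin.cons m I))
      - ∑ a, christoffel g y l i a * ∑ m, (g y)⁻¹ a m * T y (Fin.cons m I)
      + ∑ m, (g y)⁻¹ l m * actA (fun m a => christoffel g y m i a) (slA m (T y)) I := by
  have hi : ∀ a b, DifferentiableAt ℝ (fun z => (g z)⁻¹ a b) y := fun a b =>
    dAt (sm_inv hg a b) hg.isOpen hy
  rw [pd_sum i _ fun m _ => (hi l m).fun_mul (hT (Fin.cons m I))]
  simp only [fun m => pd_mul i (hi l m) (hT (Fin.cons m I)), pd_ginv hg hy, cov_cons, actA_cons,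
    mul_sub, mul_add, sub_mul, neg_mul, Finset.sum_add_distrib, Finset.sum_sub_distrib,
    Finset.sum_neg_distrib]
  have e1 : ∑ x, (∑ m, christoffel g y l i m * (g y)⁻¹ m x) * T y (Fin.cons x I) =
      ∑ a, christoffel g y l i a * ∑ m, (g y)⁻¹ a m * T y (Fin.cons m I) := by
    simp only [Finset.sum_mul, Finset.mul_sum]
    rw [Finset.sum_comm]
    exact Finset.sum_congr rfl fun _ _ => Finset.sum_congr rfl fun _ _ => by ring
  have e2 : ∑ x, (∑ m, christoffel g y x i m * (g y)⁻¹ l m) * T y (Fin.cons x I) =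
      ∑ x, (g y)⁻¹ l x * ∑ m, christoffel g y m i x * T y (Fin.cons m I) := by
    simp only [Finset.sum_mul, Finset.mul_sum]
    rw [Finset.sum_comm]
    exact Finset.sum_congr rfl fun _ _ => Finset.sum_congr rfl fun _ _ => by ring
  rw [e1, e2]
  ring

theorem actA_one (B : Fin n → Fin n → ℝ) (A : Arr n 1) (a : Fin n) :
    actA B A ![a] = ∑ m, B m a * A ![m] := by
  have h := actA_cons B A a ![]
  rw [actA_zero_rank, add_zero] at h
  exact h

theorem actA_two (B : Fin n → Fin n → ℝ) (A : Arr n 2) (a b : Fin n) :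
    actA B A ![a, b] = ∑ m, B m a * A ![m, b] + ∑ m, B m b * A ![a, m] := by
  have h := actA_cons B A a ![b]
  rw [actA_one] at h
  exact h

theorem vC_symm (hg : IsRiemannianOn g U) (hy : y ∈ U)
    (hs : ∀ z ∈ U, ∀ i j, h z ![i, j] = h z ![j, i]) (l i j : Fin n) :
    vC g h y ![l, i, j] = vC g h y ![l, j, i] := by
  have e : cov g h y ![l, i, j] = cov g h y ![l, j, i] := by
    rw [cov_two, cov_two, pd_congr_on l hg.isOpen hy fun z hz => hs z hz i j]
    simp only [fun m => hs y hy m j, fun m => hs y hy m i]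
    ring
  rw [vC_apply, vC_apply, e]
  ring

theorem vC_coord (hg : IsRiemannianOn g U) (hy : y ∈ U)
    (hs : ∀ z ∈ U, ∀ i j, h z ![i, j] = h z ![j, i]) (l i j : Fin n) :
    vC g h y ![l, i, j] = (1 / 2) * (pderiv i (fun z => h z ![j, l]) y
      + pderiv j (fun z => h z ![i, l]) y - pderiv l (fun z => h z ![i, j]) y)
      - ∑ m, christoffel g y m i j * h y ![l, m] := by
  rw [vC_apply, cov_two, cov_two, cov_two]
  simp only [fun m => christoffel_symm hg hy m j i, fun m => christoffel_symm hg hy m l i,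
    fun m => christoffel_symm hg hy m l j, fun m => hs y hy m l, fun m => hs y hy m j]
  ring

namespace Var

variable {m : ℕ}

theorem pred (v : Var J t U (m + 1) G h) : Var J t U m G h :=
  ⟨v.riem, v.ev, fun i j => (v.jd i j).pred, v.symm⟩

theorem of_le {m' : ℕ} (v : Var J t U m G h) (hm : m' ≤ m) : Var J t U m' G h :=
  ⟨v.riem, v.ev, fun i j => (v.jd i j).of_le hm, v.symm⟩

theorem smT (v : Var J t U m G h) : SmT h U := fun I => by
  have hI : I = ![I 0, I 1] := by funext s; fin_cases s <;> rfl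
  rw [hI]
  exact (v.jd _ _).zero.sm'

theorem det0 (v : Var J t U m G h) (hy : y ∈ U) :
    HasDerivWithinAt (fun s => (G s y).det) ((G t y).det * trF (G t) h y) J t := by
  have hF := Bo84.hasFDerivAt_det (V := Fin n → Fin n → ℝ) (A := fun B => Matrix.of B)
    (x := fun i j => G t y i j)
    (A' := entL) (fun i j => hasFDerivAt_ent i j _)
  have hP : HasDerivWithinAt (fun s => fun i j => G s y i j) (fun i j => h y ![i, j]) J t :=
    hasDerivWithinAt_pi.2 fun i => hasDerivWithinAt_pi.2 fun j => (v.jd i j).d hy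
  refine (hF.comp_hasDerivWithinAt t hP).congr_deriv ?_
  symm
  have hne := (Bo84.det_pos v.riem hy).ne'
  have hadj : ∀ i j, (G t y).adjugate i j = (G t y).det * (G t y)⁻¹ i j := by
    intro i j
    simp only [Matrix.inv_def, Ring.inverse_eq_inv', Matrix.smul_apply, smul_eq_mul]
    field_simp
  simp only [sum_apply, smul_apply, smul_eq_mul, trF_apply, Finset.mul_sum, entL_apply]
  refine Finset.sum_congr rfl fun i _ => Finset.sum_congr rfl fun j _ => ?_
  rw [v.symm y hy j i, ← mul_assoc, ← hadj]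
  rfl

/-- `∂ₛ √det g = (tr h / 2) √det g` -/
theorem sqrt_det (v : Var J t U m G h) (hy : y ∈ U) :
    HasDerivWithinAt (fun s => Real.sqrt (G s y).det)
      ((1 / 2) * trF (G t) h y * Real.sqrt (G t y).det) J t := by
  have hpos := Bo84.det_pos v.riem hy
  convert (v.det0 hy).sqrt hpos.ne' using 1
  have h2 : Real.sqrt (G t y).det ≠ 0 := (Real.sqrt_pos.2 hpos).ne'
  have h3 : (G t y).det = Real.sqrt (G t y).det * Real.sqrt (G t y).det :=
    (Real.mul_self_sqrt hpos.le).symm
  set s := Real.sqrt (G t y).det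
  rw [h3]
  field_simp

theorem ginv0 (v : Var J t U m G h) (hy : y ∈ U) (a b : Fin n) :
    HasDerivWithinAt (fun s => (G s y)⁻¹ a b)
      (-∑ c, ∑ d, (G t y)⁻¹ a c * h y ![c, d] * (G t y)⁻¹ d b) J t := by
  have hne := (Bo84.det_pos v.riem hy).ne'
  have hF : ∀ a b, DifferentiableAt ℝ (fun B : Fin n → Fin n → ℝ => (Matrix.of B)⁻¹ a b)
      fun i j => G t y i j := by
    intro a b
    have hO : IsOpen {B : Fin n → Fin n → ℝ | (Matrix.of B).det ≠ 0} :=
      isOpen_ne_fun (Continuous.matrix_det continuous_id) continuous_const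
    exact ((contDiffOn_inv' (A := fun B : Fin n → Fin n → ℝ => Matrix.of B)
      (fun i j => (contDiff_apply_apply ℝ ℝ i j).contDiffOn) (fun _ hB => hB) a b).contDiffAt
        (hO.mem_nhds hne)).differentiableAt (by norm_num)
  set x0 : Fin n → Fin n → ℝ := fun i j => G t y i j with hx0
  set w : Fin n → Fin n → ℝ := fun i j => h y ![i, j] with hw
  have hP : HasDerivWithinAt (fun s => fun i j => G s y i j) w J t :=
    hasDerivWithinAt_pi.2 fun i => hasDerivWithinAt_pi.2 fun j => (v.jd i j).d hy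
  have key := inv_deriv_alg (A := G t y) (A' := Matrix.of w)
    (H' := Matrix.of fun c d => fderiv ℝ (fun B : Fin n → Fin n → ℝ => (Matrix.of B)⁻¹ c d) x0 w)
    (Matrix.nonsing_inv_mul _ hne.isUnit) (Matrix.mul_nonsing_inv _ hne.isUnit) (by
      ext c d
      have h1 := HasFDerivAt.fun_sum (u := Finset.univ) fun e _ =>
        (hF c e).hasFDerivAt.fun_mul (hasFDerivAt_ent e d x0)
      have h2 : (fun B : Fin n → Fin n → ℝ => ∑ e, (Matrix.of B)⁻¹ c e * B e d) =ᶠ[𝓝 x0]
          fun _ => (1 : Matrix (Fin n) (Fin n) ℝ) c d := by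
        have hO : IsOpen {B : Fin n → Fin n → ℝ | (Matrix.of B).det ≠ 0} :=
          isOpen_ne_fun (Continuous.matrix_det continuous_id) continuous_const
        filter_upwards [hO.mem_nhds hne] with B hB
        rw [← Matrix.nonsing_inv_mul (Matrix.of B) (Ne.isUnit hB), Matrix.mul_apply]
        rfl
      have h3 := (h1.congr_of_eventuallyEq h2.symm).unique (hasFDerivAt_const _ _)
      have h4 := congrArg (fun L => L w) h3
      simp only [sum_apply, add_apply, smul_apply, smul_eq_mul, entL_apply, zero_apply] at h4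
      simp only [Matrix.add_apply, Matrix.mul_apply, Matrix.of_apply, Matrix.zero_apply,
        ← Finset.sum_add_distrib]
      rw [← h4]
      exact Finset.sum_congr rfl fun e _ => by
        rw [add_comm, mul_comm (x0 e d)]; rfl)
  have h5 := (hF a b).hasFDerivAt.comp_hasDerivWithinAt t hP
  have h6 := congrFun (congrFun key a) b
  rw [Matrix.of_apply, Matrix.neg_apply, ← sum_mul3] at h6
  rw [h6] at h5
  exact h5

/-- `∂ₛ g⁻¹ = - g⁻¹ h g⁻¹` -/
theorem ginv : ∀ {m : ℕ}, Var J t U m G h → ∀ a b, JD J t U m (fun s z => (G s z)⁻¹ a b)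
    fun z => -∑ c, ∑ d, (G t z)⁻¹ a c * h z ![c, d] * (G t z)⁻¹ d b
  | 0, v, a, b => ⟨v.riem.isOpen, v.ev.mono fun _ hs => sm_inv hs a b, sm_inv v.riem a b,
      (ContDiffOn.sum fun c _ => ContDiffOn.sum fun d _ =>
        ((sm_inv v.riem a c).mul (v.smT _)).mul (sm_inv v.riem d b)).neg,
      fun _ hy => v.ginv0 hy a b⟩
  | m + 1, v, a, b => ⟨ginv (m := 0) (v.of_le (Nat.zero_le _)) a b, fun l => by
      have hU := v.riem.isOpen
      refine (JD.sum hU Finset.univ fun c _ => JD.sum hU Finset.univ fun d _ =>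
        ((ginv v.pred a c).mul ((v.jd c d).pd l)).mul (ginv v.pred d b)).neg.congr
        (v.ev.mono fun s hs z hz => pd_ginv' hs hz l a b) (fun z hz => pd_ginv' v.riem hz l a b)
        fun z hz => ?_
      have hi : ∀ a b, DifferentiableAt ℝ (fun z => (G t z)⁻¹ a b) z := fun a b =>
        dAt (sm_inv v.riem a b) hU hz
      have hh := v.smT.dAt hU hz
      rw [pd_neg, pd_sum l _ fun c _ => DifferentiableAt.fun_sum fun d _ =>
        ((hi a c).fun_mul (hh ![c, d])).fun_mul (hi d b)]
      simp only [fun c => pd_sum l Finset.univ fun d _ =>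
        ((hi a c).fun_mul (hh ![c, d])).fun_mul (hi d b),
        fun c d => pd_mul l ((hi a c).fun_mul (hh ![c, d])) (hi d b),
        fun c d => pd_mul l (hi a c) (hh ![c, d]), pd_ginv' v.riem hz]
      set H := (G t z)⁻¹
      set X : Matrix (Fin n) (Fin n) ℝ := Matrix.of fun c d => h z ![c, d] with hX
      set Y : Matrix (Fin n) (Fin n) ℝ := Matrix.of fun c d => pderiv l (fun z => G t z c d) z
        with hY
      set Z : Matrix (Fin n) (Fin n) ℝ := Matrix.of fun c d => pderiv l (fun z => h z ![c, d]) z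
        with hZ
      have eX : ∀ c d, h z ![c, d] = X c d := fun _ _ => rfl
      have eY : ∀ c d, pderiv l (fun z => G t z c d) z = Y c d := fun _ _ => rfl
      have eZ : ∀ c d, pderiv l (fun z => h z ![c, d]) z = Z c d := fun _ _ => rfl
      simp only [eX, eY, eZ, sum_mul3]
      simp only [neg_mul, mul_neg, add_mul, Finset.sum_add_distrib, Finset.sum_neg_distrib,
        sum_mul3, Matrix.mul_assoc]
      ring⟩

/-- `∂ₛ Γ` -/
theorem chr (v : Var J t U (m + 1) G h) (l i j : Fin n) :
    JD J t U m (fun s z => christoffel (G s) z l i j) fun z => dCh (G t) h z l i j := by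
  have hU := v.riem.isOpen
  refine ((JD.sum hU Finset.univ fun a _ => (v.pred.ginv l a).mul
    ((((v.jd j a).pd i).add ((v.jd i a).pd j)).sub ((v.jd i j).pd a))).cmul (1 / 2)).congr'
    fun z hz => ?_
  simp only [dCh, vC_coord v.riem hz v.symm, mul_sub, Finset.sum_add_distrib,
    Finset.sum_sub_distrib]
  have e : ∑ a, (-∑ c, ∑ d, (G t z)⁻¹ l c * h z ![c, d] * (G t z)⁻¹ d a) *
      (pderiv i (fun z => G t z j a) z + pderiv j (fun z => G t z i a) z
        - pderiv a (fun z => G t z i j) z) =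
      -(2 * ∑ x, (G t z)⁻¹ l x * ∑ m, christoffel (G t) z m i j * h z ![x, m]) := by
    simp only [christoffel, inverseField, neg_mul, Finset.sum_neg_distrib, Finset.sum_mul,
      Finset.mul_sum]
    congr 1
    rw [Finset.sum_comm]
    refine Finset.sum_congr rfl fun c _ => ?_
    rw [Finset.sum_comm]
    exact Finset.sum_congr rfl fun _ _ => Finset.sum_congr rfl fun _ _ => by ring
  simp only [mul_sub] at e
  simp only [Finset.sum_sub_distrib] at e
  rw [e]
  simp only [mul_add, Finset.sum_add_distrib, mul_left_comm _ (1 / 2 : ℝ), ← Finset.mul_sum]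
  ring

/-- `∂ₛ Rˡₖᵢⱼ = ∇ᵢ δΓˡⱼₖ - ∇ⱼ δΓˡᵢₖ` -/
theorem riemann (v : Var J t U (m + 2) G h) (l a i j : Fin n) :
    JD J t U m (fun s z => riemann (G s) z l a i j) fun z => ∑ b, (G t z)⁻¹ l b *
      (cov (G t) (vC (G t) h) z ![i, b, j, a] - cov (G t) (vC (G t) h) z ![j, b, i, a]) := by
  have hU := v.riem.isOpen
  refine ((((v.chr l j a).pd i).sub ((v.chr l i a).pd j)).add (JD.sum hU Finset.univ fun c _ =>
    ((v.pred.chr l i c).mul (v.pred.chr c j a)).sub
      ((v.pred.chr l j c).mul (v.pred.chr c i a)))).congr' fun z hz => ?_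
  have hC := (v.smT.vC v.riem).dAt hU hz
  have h1 := pd_raise v.riem hz hC i l ![j, a]
  have h2 := pd_raise v.riem hz hC j l ![i, a]
  simp only [actA_two] at h1 h2
  have e : ∀ (z : En n) (p q r : Fin n),
      vC (G t) h z (Fin.cons p ![q, r]) = vC (G t) h z ![p, q, r] := fun _ _ _ _ => rfl
  have e' : ∀ (p q r s : Fin n), cov (G t) (vC (G t) h) z (Fin.cons p (Fin.cons q ![r, s])) =
      cov (G t) (vC (G t) h) z ![p, q, r, s] := fun _ _ _ _ => rfl
  simp only [slA, e, e'] at h1 h2
  have sw : ∀ (c : Fin n → ℝ) (X : Fin n → Fin n → ℝ),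
      ∑ m, (G t z)⁻¹ l m * ∑ x, c x * X m x = ∑ x, (∑ m, (G t z)⁻¹ l m * X m x) * c x := by
    intro c X
    simp only [Finset.sum_mul, Finset.mul_sum]
    rw [Finset.sum_comm]
    exact Finset.sum_congr rfl fun _ _ => Finset.sum_congr rfl fun _ _ => by ring
  simp only [mul_add, Finset.sum_add_distrib, sw] at h1 h2
  simp only [dCh, h1, h2, mul_sub, Finset.sum_sub_distrib, Finset.sum_add_distrib,
    fun m => christoffel_symm v.riem hz m j i]
  ring

/-- `∂ₛ R_{lkij}` -/
theorem rmT (v : Var J t U (m + 2) G h) (l a i j : Fin n) :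
    JD J t U m (fun s z => rmT (G s) z ![l, a, i, j]) fun z =>
      ∑ b, h z ![l, b] * Crest.GeometryTopology.ChartCurvature.riemann (G t) z b a i j +
      (cov (G t) (vC (G t) h) z ![i, l, j, a] - cov (G t) (vC (G t) h) z ![j, l, i, a]) := by
  refine (JD.sum v.riem.isOpen Finset.univ fun b _ =>
    ((v.jd l b).of_le (Nat.le_add_right m 2)).mul (v.riemann b a i j)).congr' fun z hz => ?_
  rw [Finset.sum_add_distrib, g_ginv_sum v.riem hz]

end Var

end Crest.Agent.N207

end
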