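import Crest.Agent.N207.A.Co5

/-!
# Row 207, block A2 (helper41), file 6: first variation of `Ric`, `R`, `Δ`, `∇`, `⟨,⟩`
-/

set_option autoImplicit false

open scoped ContDiff Topology
open Filter Set Function
open Crest.GeometryTopology.CoordMetric Crest.GeometryTopology.ChartCurvature
  Crest.GeometryTopology.MetricFamily
open Crest.Agent.R202.Tens Crest.Agent.R247

noncomputable section

namespace Crest.Agent.N207

variable {n k : ℕ} {J : Set ℝ} {t : ℝ} {U : Set (En n)} {G : ℝ → MetricField n} {h : Tn n 2}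
  {g : MetricField n} {y : En n}

/-- trace over the indices `1, 2` -/
def tr1T (g : MetricField n) (W : Tn n (k + 3)) : Tn n (k + 1) := fun z I =>
  ∑ a, ∑ b, (g z)⁻¹ a b * W z (Fin.cons (I 0) (Fin.cons a (Fin.cons b (Fin.tail I))))

theorem SmT.tr1T {W : Tn n (k + 3)} (hg : IsRiemannianOn g U) (hW : SmT W U) :
    SmT (tr1T g W) U := fun _ =>
  ContDiffOn.sum fun _ _ => ContDiffOn.sum fun _ _ => (sm_inv hg _ _).mul (hW _)

theorem cov_trT_eq {T : Tn n (k + 2)} (hg : IsRiemannianOn g U) (hy : y ∈ U) (hT : DfT T y) :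
    cov g (trT g T) y = tr1T g (cov g T) y := arr_ext fun l I => cov_trT hg hy hT l I

theorem cov_tr1T {W : Tn n (k + 3)} (hg : IsRiemannianOn g U) (hy : y ∈ U) (hW : DfT W y)
    (a b : Fin n) (I : Fin k → Fin n) : cov g (tr1T g W) y (Fin.cons a (Fin.cons b I)) =
      ∑ c, ∑ d, (g y)⁻¹ c d * cov g W y (Fin.cons a (Fin.cons b (Fin.cons c (Fin.cons d I)))) := by
  have e : slT b (tr1T g W) = trT g (slT b W) := rfl
  rw [cov_cons_cons, e, cov_trT (T := slT b W) hg hy fun J => hW _]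
  simp only [cov_cons_cons g W y a b, mul_sub, Finset.sum_sub_distrib, tr1T, Fin.cons_zero,
    Fin.tail_cons, Finset.mul_sum]
  congr 1
  rw [Finset.sum_comm]
  refine Finset.sum_congr rfl fun c _ => ?_
  rw [Finset.sum_comm]
  exact Finset.sum_congr rfl fun _ _ => Finset.sum_congr rfl fun _ _ => by ring

theorem cov_cov_trT {T : Tn n (k + 2)} (hg : IsRiemannianOn g U) (hy : y ∈ U) (hT : SmT T U)
    (a b : Fin n) (I : Fin k → Fin n) :
    cov g (cov g (trT g T)) y (Fin.cons a (Fin.cons b I)) = ∑ c, ∑ d, (g y)⁻¹ c d *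
      cov g (cov g T) y (Fin.cons a (Fin.cons b (Fin.cons c (Fin.cons d I)))) := by
  rw [cov_congr_on hg.isOpen hy fun z hz => cov_trT_eq hg hz (hT.dAt hg.isOpen hz),
    cov_tr1T hg hy ((hT.cov hg).dAt hg.isOpen hy)]

theorem sum_comm4 (H : Matrix (Fin n) (Fin n) ℝ) (X : Fin n → Fin n → Fin n → Fin n → ℝ) :
    ∑ a, ∑ b, H a b * ∑ c, ∑ d, H c d * X a b c d =
      ∑ c, ∑ d, H c d * ∑ a, ∑ b, H a b * X a b c d := by
  have e : ∀ Y : Fin n → Fin n → Fin n → Fin n → ℝ,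
      ∑ a, ∑ b, H a b * ∑ c, ∑ d, H c d * Y a b c d =
      ∑ p : Fin n × Fin n, ∑ q : Fin n × Fin n, H p.1 p.2 * H q.1 q.2 * Y p.1 p.2 q.1 q.2 := by
    intro Y
    simp only [Fintype.sum_prod_type, Finset.mul_sum, mul_assoc]
  rw [e, e fun c d a b => X a b c d, Finset.sum_comm]
  exact Finset.sum_congr rfl fun _ _ => Finset.sum_congr rfl fun _ _ => by ring

/-- `Δ` commutes with the trace -/
theorem lapT_trT {T : Tn n (k + 2)} (hg : IsRiemannianOn g U) (hy : y ∈ U) (hT : SmT T U) :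
    lapT g (trT g T) y = trT g (lapT g T) y := by
  funext I
  simp only [lapT, trT.eq_1 g (cov g (cov g (trT g T))), cov_cov_trT hg hy hT]
  rw [sum_comm4]
  rfl

theorem fnT_trF (g : MetricField n) (h : Tn n 2) : fnT (trF g h) = trT g h := by
  funext z I
  rw [Subsingleton.elim I ![]]
  rfl

theorem hessT_trF (hg : IsRiemannianOn g U) (hy : y ∈ U) (hh : SmT h U) (a b : Fin n) :
    hessT g (trF g h) y ![a, b] = ∑ c, ∑ d, (g y)⁻¹ c d * cov g (cov g h) y ![a, b, c, d] := by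
  rw [hessT, ← cov_fnT g, fnT_trF]
  exact cov_cov_trT hg hy hh a b ![]

theorem pd_trF (hg : IsRiemannianOn g U) (hy : y ∈ U) (hh : DfT h y) (a : Fin n) :
    pderiv a (trF g h) y = ∑ c, ∑ d, (g y)⁻¹ c d * cov g h y ![a, c, d] := by
  have h1 := cov_trT hg hy hh a ![]
  rw [← fnT_trF, cov_fnT] at h1
  exact h1

theorem divT_two (g : MetricField n) (h : Tn n 2) (y : En n) (a : Fin n) :
    divT g h y ![a] = ∑ c, ∑ d, (g y)⁻¹ c d * cov g h y ![c, d, a] := rfl

theorem cov_divT_two (hg : IsRiemannianOn g U) (hy : y ∈ U) (hh : SmT h U) (a b : Fin n) :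
    cov g (divT g h) y ![a, b] = ∑ c, ∑ d, (g y)⁻¹ c d * cov g (cov g h) y ![a, c, d, b] :=
  cov_trT hg hy ((hh.cov hg).dAt hg.isOpen hy) a ![b]

theorem lapT_two (g : MetricField n) (h : Tn n 2) (y : En n) (a b : Fin n) :
    lapT g h y ![a, b] = ∑ c, ∑ d, (g y)⁻¹ c d * cov g (cov g h) y ![c, d, a, b] := rfl

theorem cov_symm_two (hg : IsRiemannianOn g U) (hy : y ∈ U)
    (hs : ∀ z ∈ U, ∀ i j, h z ![i, j] = h z ![j, i]) (l i j : Fin n) :
    cov g h y ![l, i, j] = cov g h y ![l, j, i] := by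
  rw [cov_two, cov_two, pd_congr_on l hg.isOpen hy fun z hz => hs z hz i j]
  simp only [fun m => hs y hy m j, fun m => hs y hy m i]
  ring

theorem cov_cov_symm_two (hg : IsRiemannianOn g U) (hy : y ∈ U)
    (hs : ∀ z ∈ U, ∀ i j, h z ![i, j] = h z ![j, i]) (a l i j : Fin n) :
    cov g (cov g h) y ![a, l, i, j] = cov g (cov g h) y ![a, l, j, i] := by
  rw [cov_three, cov_three, pd_congr_on a hg.isOpen hy fun z hz => cov_symm_two hg hz hs l i j]
  simp only [fun m => cov_symm_two hg hy hs m i j, fun m => cov_symm_two hg hy hs l m j,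
    fun m => cov_symm_two hg hy hs l m i]
  ring

theorem cov_vC (hg : IsRiemannianOn g U) (hy : y ∈ U) (hh : SmT h U) (a l i j : Fin n) :
    cov g (vC g h) y ![a, l, i, j] = (1 / 2) * (cov g (cov g h) y ![a, i, j, l]
      + cov g (cov g h) y ![a, j, i, l] - cov g (cov g h) y ![a, l, i, j]) := by
  have hd := (hh.cov hg).dAt hg.isOpen hy
  simp only [cov_three, vC_apply]
  rw [pd_cmul, pd_sub a ((hd _).fun_add (hd _)) (hd _), pd_add a (hd _) (hd _)]
  simp only [mul_left_comm _ (1 / 2 : ℝ), ← Finset.mul_sum, mul_add, mul_sub,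
    Finset.sum_add_distrib, Finset.sum_sub_distrib]
  ring

theorem sum_ginv_swap (hg : IsRiemannianOn g U) (hy : y ∈ U) (X : Fin n → Fin n → ℝ) :
    ∑ a, ∑ b, (g y)⁻¹ a b * X a b = ∑ a, ∑ b, (g y)⁻¹ a b * X b a := by
  rw [Finset.sum_comm]
  exact Finset.sum_congr rfl fun a _ => Finset.sum_congr rfl fun b _ => by rw [ginv_symm hg hy]

/-- `gⁱʲ δΓ_{l,ij} = (div h)ₗ - ∂ₗ tr h / 2` -/
theorem tr_vC (hg : IsRiemannianOn g U) (hy : y ∈ U) (hh : DfT h y) (l : Fin n) :
    ∑ i, ∑ j, (g y)⁻¹ i j * vC g h y ![l, i, j] =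
      divT g h y ![l] - (1 / 2) * pderiv l (trF g h) y := by
  rw [divT_two, pd_trF hg hy hh]
  simp only [vC_apply, mul_left_comm _ (1 / 2 : ℝ), ← Finset.mul_sum, mul_add, mul_sub,
    Finset.sum_add_distrib, Finset.sum_sub_distrib]
  rw [sum_ginv_swap hg hy fun i j => cov g h y ![j, i, l]]
  ring

/-- the variation of the Ricci tensor -/
def dRic (g : MetricField n) (h : Tn n 2) : Tn n 2 := fun z I =>
  (1 / 2) * (∑ a, ∑ b, (g z)⁻¹ a b * cov g (cov g h) z ![a, I 0, I 1, b]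
    + ∑ a, ∑ b, (g z)⁻¹ a b * cov g (cov g h) z ![a, I 1, I 0, b]
    - lapT g h z I - hessT g (trF g h) z I)

theorem dRic_apply (g : MetricField n) (h : Tn n 2) (z : En n) (i j : Fin n) :
    dRic g h z ![i, j] = (1 / 2) * (∑ a, ∑ b, (g z)⁻¹ a b * cov g (cov g h) z ![a, i, j, b]
      + ∑ a, ∑ b, (g z)⁻¹ a b * cov g (cov g h) z ![a, j, i, b]
      - lapT g h z ![i, j] - hessT g (trF g h) z ![i, j]) := rfl

/-- the variation of the scalar curvature -/
def dScal (g : MetricField n) (h : Tn n 2) (z : En n) : ℝ :=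
  divT g (divT g h) z ![] - laplaceBeltrami g (trF g h) z - ip g (ricT g) h z

theorem tr_dRic (hg : IsRiemannianOn g U) (hy : y ∈ U) (hh : SmT h U)
    (hs : ∀ z ∈ U, ∀ i j, h z ![i, j] = h z ![j, i]) :
    ∑ i, ∑ j, (g y)⁻¹ i j * dRic g h y ![i, j] =
      divT g (divT g h) y ![] - laplaceBeltrami g (trF g h) y := by
  have e1 : divT g (divT g h) y ![] = ∑ i, ∑ j, (g y)⁻¹ i j *
      ∑ a, ∑ b, (g y)⁻¹ a b * cov g (cov g h) y ![a, i, j, b] := by
    rw [divT, trT_zero_rank, ← sum_comm4]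
    simp only [cov_divT_two hg hy hh]
  have e2 : laplaceBeltrami g (trF g h) y = ∑ i, ∑ j, (g y)⁻¹ i j * hessT g (trF g h) y ![i, j] :=
    lapB_eq_trT hg hy (c2At (sm_trF hg hh) hg.isOpen hy)
  have e3 : laplaceBeltrami g (trF g h) y = ∑ i, ∑ j, (g y)⁻¹ i j * lapT g h y ![i, j] := by
    rw [lapB_eq_lapT hg hy (c2At (sm_trF hg hh) hg.isOpen hy), fnT_trF, lapT_trT hg hy hh]
    rfl
  have _h := hs
  simp only [dRic_apply, mul_left_comm _ (1 / 2 : ℝ), ← Finset.mul_sum, mul_add, mul_sub,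
    Finset.sum_add_distrib, Finset.sum_sub_distrib]
  rw [sum_ginv_swap hg hy fun i j => ∑ a, ∑ b, (g y)⁻¹ a b * cov g (cov g h) y ![a, j, i, b],
    ← e1, ← e2, ← e3]
  ring

theorem ip_two (g : MetricField n) (S T : Tn n 2) (y : En n) : ip g S T y =
    ∑ a, ∑ b, ∑ c, ∑ d, (g y)⁻¹ a b * (g y)⁻¹ c d * (S y ![a, c] * T y ![b, d]) := ipA_two _ _

theorem sum_dinv_mul (hg : IsRiemannianOn g U) (hy : y ∈ U) (S : Tn n 2) :
    ∑ i, ∑ j, (-∑ c, ∑ d, (g y)⁻¹ i c * h y ![c, d] * (g y)⁻¹ d j) * S y ![i, j] =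
      -ip g S h y := by
  rw [ip_two]
  simp only [neg_mul, Finset.sum_neg_distrib, Finset.sum_mul]
  congr 1
  refine Finset.sum_congr rfl fun i _ => ?_
  rw [Finset.sum_comm]
  refine Finset.sum_congr rfl fun c _ => Finset.sum_congr rfl fun j _ =>
    Finset.sum_congr rfl fun d _ => ?_
  rw [ginv_symm hg hy d j]
  ring

namespace Var

variable {m : ℕ}

/-- `∂ₛ Ric` -/
theorem ricci (v : Var J t U (m + 2) G h) (i j : Fin n) :
    JD J t U m (fun s z => ricci (G s) z i j) fun z => dRic (G t) h z ![i, j] := by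
  refine (JD.sum v.riem.isOpen Finset.univ fun a _ => v.riemann a i a j).congr
    (v.ev.mono fun s hs z hz => ricci_eq_sum_riemann hs hz i j)
    (fun z hz => ricci_eq_sum_riemann v.riem hz i j) fun z hz => ?_
  rw [dRic_apply, hessT_symm v.riem hz (c2At (sm_trF v.riem v.smT) v.riem.isOpen hz),
    hessT_trF v.riem hz v.smT, lapT_two]
  simp only [cov_vC v.riem hz v.smT, mul_left_comm _ (1 / 2 : ℝ), ← Finset.mul_sum, mul_add,
    mul_sub, Finset.sum_add_distrib, Finset.sum_sub_distrib,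
    fun a b => cov_cov_symm_two v.riem hz v.symm a b j i,
    fun a b => cov_cov_symm_two v.riem hz v.symm j a i b]
  rw [sum_ginv_swap v.riem hz fun a b => cov (G t) (cov (G t) h) z ![j, b, a, i]]
  ring

/-- `∂ₛ R = div div h - Δ tr h - ⟨Ric, h⟩` -/
theorem scal (v : Var J t U (m + 2) G h) :
    JD J t U m (fun s => scalarCurv (G s)) (dScal (G t) h) := by
  have hU := v.riem.isOpen
  refine (JD.sum hU Finset.univ fun i _ => JD.sum hU Finset.univ fun j _ =>
    ((v.of_le (Nat.le_add_right m 2)).ginv i j).mul (v.ricci i j)).congr' fun z hz => ?_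
  simp only [Finset.sum_add_distrib]
  rw [tr_dRic v.riem hz v.smT v.symm, dScal]
  have h1 := sum_dinv_mul (h := h) v.riem hz (ricT (G t))
  simp only [ricT, Matrix.cons_val_zero, Matrix.cons_val_one] at h1
  rw [h1]
  ring

/-- `∂ₛ Hess f` -/
theorem hessT {f : ℝ → En n → ℝ} {f' : En n → ℝ} (v : Var J t U (m + 1) G h)
    (hf : JD J t U (m + 2) f f') (a b : Fin n) :
    JD J t U m (fun s z => hessT (G s) (f s) z ![a, b]) fun z =>
      N207.hessT (G t) f' z ![a, b] - ∑ c, dCh (G t) h z c a b * pderiv c (f t) z := by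
  simp only [hessT_apply]
  refine (((hf.pd b).pd a).sub (JD.sum v.riem.isOpen Finset.univ fun c _ =>
    (v.chr c a b).mul (hf.pd c).pred)).congr' fun z _ => ?_
  simp only [Finset.sum_add_distrib]
  ring

/-- `∂ₛ Δ f = Δ f' - ⟨Hess f, h⟩ - ⟨div h - d tr h / 2, df⟩` -/
theorem lapB {f : ℝ → En n → ℝ} {f' : En n → ℝ} (v : Var J t U (m + 1) G h)
    (hf : JD J t U (m + 2) f f') :
    JD J t U m (fun s => laplaceBeltrami (G s) (f s)) fun z =>
      laplaceBeltrami (G t) f' z - ip (G t) (N207.hessT (G t) (f t)) h z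
        - ip (G t) (divT (G t) h - (1 / 2 : ℝ) • dT (trF (G t) h)) (dT (f t)) z := by
  have hU := v.riem.isOpen
  refine (JD.sum hU Finset.univ fun a _ => JD.sum hU Finset.univ fun b _ =>
    (v.pred.ginv a b).mul (v.hessT hf a b)).congr
    ((v.ev.and hf.zero.ev).mono fun s hs z hz => lapB_eq_trT hs.1 hz (c2At hs.2 hU hz))
    (fun z hz => lapB_eq_trT v.riem hz (c2At hf.zero.sm hU hz)) fun z hz => ?_
  simp only [Finset.sum_add_distrib, mul_sub, Finset.sum_sub_distrib]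
  rw [sum_dinv_mul v.riem hz, lapB_eq_trT v.riem hz (c2At hf.zero.sm' hU hz), trT_zero_rank]
  have e : ip (G t) (divT (G t) h - (1 / 2 : ℝ) • dT (trF (G t) h)) (dT (f t)) z =
      ∑ a, ∑ b, (G t z)⁻¹ a b * ∑ c, dCh (G t) h z c a b * pderiv c (f t) z := by
    rw [ip, ipA_one]
    have e1 : ∀ a, (divT (G t) h - (1 / 2 : ℝ) • dT (trF (G t) h)) z ![a] =
        ∑ i, ∑ j, (G t z)⁻¹ i j * vC (G t) h z ![a, i, j] := fun a =>
      (tr_vC v.riem hz (v.smT.dAt hU hz) a).symm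
    have e2 : ∀ b, dT (f t) z ![b] = pderiv b (f t) z := fun _ => rfl
    rw [sum_ginv_swap v.riem hz]
    simp only [e1, e2, dCh]
    have h4 := sum_comm4 (G t z)⁻¹ fun c l i j => vC (G t) h z ![l, i, j] * pderiv c (f t) z
    simp only [Finset.sum_mul, Finset.mul_sum, mul_assoc] at h4 ⊢
    exact h4
  rw [e]
  ring

/-- `∂ₛ ∇T = ∇T' - δΓ * T` -/
theorem cov {T : ℝ → Tn n k} {T' : Tn n k} (v : Var J t U (m + 1) G h)
    (hT : JDT J t U (m + 1) T T') : JDT J t U m (fun s => cov (G s) (T s)) fun z I =>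
      N207.cov (G t) T' z I - actA (fun a i => dCh (G t) h z a (I 0) i) (T t z) (Fin.tail I) := by
  intro I
  have hU := v.riem.isOpen
  refine (((hT (Fin.tail I)).pd (I 0)).sub (JD.sum hU Finset.univ fun s _ =>
    JD.sum hU Finset.univ fun a _ => (v.chr a (I 0) (Fin.tail I s)).mul
      (hT (update (Fin.tail I) s a)).pred)).congr' fun z _ => ?_
  simp only [N207.cov, actA, Finset.sum_add_distrib]
  ring

/-- `∂ₛ ⟨S, T⟩`, with `B = g⁻¹ h / 2` -/
theorem ip0 {S T : ℝ → Tn n k} {S' T' : Arr n k} (v : Var J t U m G h) (hy : y ∈ U)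
    (hS : ∀ I, HasDerivWithinAt (fun s => S s y I) (S' I) J t)
    (hT : ∀ I, HasDerivWithinAt (fun s => T s y I) (T' I) J t) :
    HasDerivWithinAt (fun s => ip (G s) (S s) (T s) y)
      (ipA (G t y)⁻¹ (S' - actA (fun a i => (1 / 2) * ∑ c, (G t y)⁻¹ a c * h y ![c, i]) (S t y))
          (T t y) +
        ipA (G t y)⁻¹ (S t y)
          (T' - actA (fun a i => (1 / 2) * ∑ c, (G t y)⁻¹ a c * h y ![c, i]) (T t y))) J t := by
  rw [← ipA_deriv_alg _ (fun a b => -∑ c, ∑ d, (G t y)⁻¹ a c * h y ![c, d] * (G t y)⁻¹ d b)]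
  · refine HasDerivWithinAt.fun_sum fun I _ => HasDerivWithinAt.fun_sum fun K _ => ?_
    have h1 := HasDerivWithinAt.fun_finsetProd (u := Finset.univ)
      fun s _ => v.ginv0 hy (I s) (K s)
    simpa only [smul_eq_mul] using h1.fun_mul ((hS I).fun_mul (hT K))
  · intro a b
    have e1 : ∑ m, ((1 / 2) * ∑ c, (G t y)⁻¹ a c * h y ![c, m]) * (G t y)⁻¹ m b =
        (1 / 2) * ∑ c, ∑ d, (G t y)⁻¹ a c * h y ![c, d] * (G t y)⁻¹ d b := by
      simp only [Finset.sum_mul, Finset.mul_sum]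
      rw [Finset.sum_comm]
      exact Finset.sum_congr rfl fun _ _ => Finset.sum_congr rfl fun _ _ => by ring
    have e2 : ∑ m, ((1 / 2) * ∑ c, (G t y)⁻¹ b c * h y ![c, m]) * (G t y)⁻¹ a m =
        (1 / 2) * ∑ c, ∑ d, (G t y)⁻¹ a c * h y ![c, d] * (G t y)⁻¹ d b := by
      simp only [Finset.sum_mul, Finset.mul_sum]
      exact Finset.sum_congr rfl fun c _ => Finset.sum_congr rfl fun d _ => by
        rw [ginv_symm v.riem hy b d, v.symm y hy d c]; ring
    rw [e1, e2]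
    ring

end Var

/-- a jointly smooth family on an open time set is a `Var` at every order -/
theorem CFam.var (c : CFam G J U) (hJ : IsOpen J) (ht : t ∈ J) (J' : Set ℝ) (m : ℕ) :
    Var J' t U m G (dtT (fun s => matT (G s)) t) where
  riem := c.riem ht
  ev := mem_nhdsWithin_of_mem_nhds (mem_of_superset (hJ.mem_nhds ht) fun _ hs => c.riem hs)
  jd i j := jd_of_st hJ c.isOpen ht J' m (c.sm i j)
  symm z hz i j := by
    refine Filter.EventuallyEq.deriv_eq ?_
    filter_upwards [hJ.mem_nhds ht] with s hs using metric_symm (c.riem hs) hz i j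

theorem SmTT.jdt {T : ℝ → Tn n k} (hT : SmTT T J U) (hJ : IsOpen J) (hU : IsOpen U) (ht : t ∈ J)
    (J' : Set ℝ) (m : ℕ) : JDT J' t U m T (N207.dtT T t) := fun I => jd_of_st hJ hU ht J' m (hT I)

/-- a Ricci flow is a `Var` with velocity `-2 Ric` -/
theorem CFlow.var (c : CFlow G J U) (ht : t ∈ J) (J' : Set ℝ) (m : ℕ) :
    Var J' t U m G ((-2 : ℝ) • ricT (G t)) := by
  have v := c.toCFam.var c.isOpenJ ht J' m
  have e : ∀ z ∈ U, ∀ i j, ((-2 : ℝ) • ricT (G t)) z ![i, j] =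
      dtT (fun s => matT (G s)) t z ![i, j] := fun z hz i j => (c.rf t ht z hz i j).deriv.symm
  exact ⟨v.riem, v.ev, fun i j => (v.jd i j).congr' fun z hz => e z hz i j,
    fun z hz i j => by rw [e z hz, e z hz, v.symm z hz]⟩

end Crest.Agent.N207

end
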