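import Mathlib

/-! Row 207 (helper87): the real algebra behind the variation of the Gauss-Bonnet integrand. -/

set_option autoImplicit false
open Finset

namespace Crest.Agent.N207.Gb

/-- Lanczos identity -/
theorem lanczos (R : Fin 4 → Fin 4 → Fin 4 → Fin 4 → ℝ)
    (h1 : ∀ a b c d, R b a c d = -R a b c d) (h2 : ∀ a b c d, R a b d c = -R a b c d)
    (h3 : ∀ a b c d, R c d a b = R a b c d)
    (h4 : ∀ a b c d, R a b c d + R a c d b + R a d b c = 0) (l m : Fin 4) :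
    let Rc : Fin 4 → Fin 4 → ℝ := fun k j => ∑ a, R a k a j
    let s : ℝ := ∑ a, Rc a a
    4 * ((∑ k, ∑ i, ∑ j, R l k i j * R m k i j) - 2 * (∑ k, ∑ j, R l k m j * Rc k j)
      - 2 * (∑ k, Rc l k * Rc m k) + s * Rc l m) =
      (if l = m then 1 else 0) * ((∑ a, ∑ k, ∑ i, ∑ j, R a k i j ^ 2) - 4 * (∑ k, ∑ j, Rc k j ^ 2) + s ^ 2) := by
  intro Rc s
  have z1 : ∀ a c d, R a a c d = 0 := fun a c d => by have := h1 a a c d; linarith
  have z2 : ∀ a b c, R a b c c = 0 := fun a b c => by have := h2 a b c c; linarith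
  have b : R 0 3 1 2 = -R 0 1 2 3 + R 0 2 1 3 := by have := h4 0 1 2 3; rw [h2 0 2 1 3] at this; linarith
  have a10 := h1 0 1
  have a20 := h1 0 2
  have a30 := h1 0 3
  have a21 := h1 1 2
  have a31 := h1 1 3
  have a32 := h1 2 3
  have b10 := fun a b => h2 a b 0 1
  have b20 := fun a b => h2 a b 0 2
  have b30 := fun a b => h2 a b 0 3
  have b21 := fun a b => h2 a b 1 2
  have b31 := fun a b => h2 a b 1 3
  have b32 := fun a b => h2 a b 2 3
  have c1 := h3 0 1 0 2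
  have c2 := h3 0 1 0 3
  have c3 := h3 0 1 1 2
  have c4 := h3 0 1 1 3
  have c5 := h3 0 1 2 3
  have c6 := h3 0 2 0 3
  have c7 := h3 0 2 1 2
  have c8 := h3 0 2 1 3
  have c9 := h3 0 2 2 3
  have c10 := h3 0 3 1 2
  have c11 := h3 0 3 1 3
  have c12 := h3 0 3 2 3
  have c13 := h3 1 2 1 3
  have c14 := h3 1 2 2 3
  have c15 := h3 1 3 2 3
  fin_cases l <;> fin_cases m <;>
  simp only [Rc, s, Fin.sum_univ_four, Fin.zero_eta, Fin.mk_one, Fin.reduceFinMk, Fin.isValue, z1, z2, a10, a20, a30, a21, a31, a32, b10, b20, b30, b21, b31, b32,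
    c1, c2, c3, c4, c5, c6, c7, c8, c9, c10, c11, c12, c13, c14, c15, b, Fin.reduceEq, if_true, if_false, ite_true, ite_false, reduceIte] <;> ring

variable {n : ℕ}

theorem s2 (f : Fin n → Fin n → ℝ) : ∑ a, ∑ b, f a b = ∑ a, ∑ b, f b a := sum_comm

theorem s3_rot (f : Fin n → Fin n → Fin n → ℝ) :
    ∑ a, ∑ b, ∑ c, f a b c = ∑ a, ∑ b, ∑ c, f b c a := by
  rw [sum_congr rfl fun a _ => sum_comm (f := fun b c => f b c a), sum_comm,
    sum_congr rfl fun a _ => sum_comm, sum_comm]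

theorem s3_12 (f : Fin n → Fin n → Fin n → ℝ) :
    ∑ a, ∑ b, ∑ c, f a b c = ∑ a, ∑ b, ∑ c, f b a c := sum_comm

theorem s3_23 (f : Fin n → Fin n → Fin n → ℝ) :
    ∑ a, ∑ b, ∑ c, f a b c = ∑ a, ∑ b, ∑ c, f a c b := sum_congr rfl fun _ _ => sum_comm

theorem s4_out (f : Fin n → Fin n → Fin n → Fin n → ℝ) :
    ∑ b, ∑ c, ∑ d, ∑ m, f b c d m = ∑ m, ∑ b, ∑ c, ∑ d, f b c d m := by
  rw [sum_congr rfl fun b _ => (sum_congr rfl fun c _ => sum_comm).trans sum_comm, sum_comm]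

/-- the cubic terms -/
theorem cubic (r : Fin 4 → Fin 4 → Fin 4 → Fin 4 → ℝ)
    (h1 : ∀ a b c d, r b a c d = -r a b c d) (h2 : ∀ a b c d, r a b d c = -r a b c d)
    (h3 : ∀ a b c d, r c d a b = r a b c d)
    (h4 : ∀ a b c d, r a b c d + r a c d b + r a d b c = 0)
    (rc : Fin 4 → Fin 4 → ℝ) (hrc : ∀ k j, rc k j = ∑ a, r a k a j) (s : ℝ) (hs : s = ∑ a, rc a a)
    (ρ : Fin 4 → Fin 4 → Fin 4 → Fin 4 → ℝ) (hρ : ∀ a b c d, ρ a b c d = ∑ m, rc a m * r m b c d) :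
    2 * (∑ a, ∑ b, ∑ c, ∑ d, (ρ a b c d - ρ b a c d) * r a b c d)
      - 8 * (∑ k, ∑ j, (∑ l, (ρ l k l j - ρ k l l j)) * rc k j)
      + 2 * s * (∑ k, ∑ l, (ρ l k l k - ρ k l l k)) =
    s * ((∑ a, ∑ k, ∑ i, ∑ j, r a k i j ^ 2) - 4 * (∑ k, ∑ j, rc k j ^ 2) + s ^ 2) := by
  have L := lanczos r h1 h2 h3 h4
  simp only [← hrc, ← hs] at L
  have sy : ∀ k j, rc k j = rc j k := fun k j => by
    rw [hrc, hrc]; exact sum_congr rfl fun a _ => (h3 _ _ _ _).symm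
  have t1 : ∀ m j, ∑ l, r m l l j = -rc m j := fun m j => by
    rw [hrc, ← sum_neg_distrib]; exact sum_congr rfl fun l _ => h1 _ _ _ _
  have t2 : ∀ m l, ∑ k, r m k l k = rc m l := fun m l => by
    rw [hrc]; exact sum_congr rfl fun k _ => by rw [h1 k m l k, h2 k m k l, neg_neg]
  set P := (∑ a, ∑ k, ∑ i, ∑ j, r a k i j ^ 2) - 4 * (∑ k, ∑ j, rc k j ^ 2) + s ^ 2 with hP
  have e0 : s * P = ∑ l, ∑ m, rc l m * ((if l = m then 1 else 0) * P) := by
    simp [hs, sum_mul]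
  have e1 : ∑ a, ∑ b, ∑ c, ∑ d, ρ b a c d * r a b c d = -∑ a, ∑ b, ∑ c, ∑ d, ρ a b c d * r a b c d := by
    rw [sum_comm]
    simp only [← sum_neg_distrib]
    exact sum_congr rfl fun a _ => sum_congr rfl fun b _ => sum_congr rfl fun c _ =>
      sum_congr rfl fun d _ => by rw [h1 a b c d]; ring
  have e2 : ∑ a, ∑ b, ∑ c, ∑ d, ρ a b c d * r a b c d =
      ∑ l, ∑ m, rc l m * ∑ k, ∑ i, ∑ j, r l k i j * r m k i j := by
    refine sum_congr rfl fun a _ => ?_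
    simp only [hρ, sum_mul, mul_sum]
    rw [s4_out]
    exact sum_congr rfl fun _ _ => sum_congr rfl fun _ _ => sum_congr rfl fun _ _ =>
      sum_congr rfl fun _ _ => by ring
  have e3 : ∑ k, ∑ j, (∑ l, ρ l k l j) * rc k j = ∑ l, ∑ m, rc l m * ∑ k, ∑ j, r l k m j * rc k j := by
    have : ∀ k j, ∑ l, ρ l k l j = ∑ l, ∑ m, rc l m * r l k m j := fun k j => by
      simp only [hρ]; rw [sum_comm]
      exact sum_congr rfl fun l _ => sum_congr rfl fun m _ => by rw [sy m l]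
    simp only [this, Fin.sum_univ_four]; ring
  have e4 : ∑ k, ∑ j, (∑ l, ρ k l l j) * rc k j = -∑ l, ∑ m, rc l m * ∑ k, rc l k * rc m k := by
    have : ∀ k j, ∑ l, ρ k l l j = -∑ m, rc k m * rc j m := fun k j => by
      simp only [hρ]; rw [sum_comm, ← sum_neg_distrib]
      exact sum_congr rfl fun m _ => by rw [← mul_sum, t1, sy m j]; ring
    simp only [this, Fin.sum_univ_four]; ring
  have e5 : ∑ k, ∑ l, ρ l k l k = ∑ l, ∑ m, rc l m * rc l m := by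
    rw [sum_comm]
    refine sum_congr rfl fun l _ => ?_
    simp only [hρ]; rw [sum_comm]
    exact sum_congr rfl fun m _ => by rw [← mul_sum, t2, sy m l]
  have e6 : ∑ k, ∑ l, ρ k l l k = -∑ l, ∑ m, rc l m * rc l m := by
    rw [← sum_neg_distrib]
    refine sum_congr rfl fun k _ => ?_
    simp only [hρ]; rw [sum_comm, ← sum_neg_distrib]
    exact sum_congr rfl fun m _ => by rw [← mul_sum, t1, sy m k]; ring
  have e7 : s * P = 4 * (∑ l, ∑ m, rc l m * ∑ k, ∑ i, ∑ j, r l k i j * r m k i j)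
      - 8 * (∑ l, ∑ m, rc l m * ∑ k, ∑ j, r l k m j * rc k j)
      - 8 * (∑ l, ∑ m, rc l m * ∑ k, rc l k * rc m k) + 4 * s * ∑ l, ∑ m, rc l m * rc l m := by
    rw [e0]
    simp only [mul_sum (s := univ) (a := (4 : ℝ)), mul_sum (s := univ) (a := (8 : ℝ)),
      mul_sum (s := univ) (a := 4 * s), ← sum_add_distrib, ← sum_sub_distrib]
    refine sum_congr rfl fun l _ => sum_congr rfl fun m _ => ?_
    rw [← L l m]; ring
  simp only [sub_mul, sum_sub_distrib]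
  rw [e1, e2, e3, e4, e5, e6, e7]
  ring

end Crest.Agent.N207.Gb
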