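import Crest.Agent.N207.A.Mk
import Crest.Agent.N207.A.Arr
import Crest.Agent.N207.A.Co2
import Crest.Agent.N207.V.Basic
import Crest.Agent.N207.C.DistM

/-!
# Row 207 (helper8): scaling laws
-/

set_option autoImplicit false
set_option linter.unusedSectionVars false

open scoped ContDiff Manifold Topology
open Set MeasureTheory Filter
open Crest.GeometryTopology.CoordMetric Crest.GeometryTopology.ChartCurvature
  Crest.GeometryTopology.MetricFamily
open Crest.Agent.R247

noncomputable section

namespace Crest.Agent.N207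

namespace Scl

variable {n k : ℕ} {c : ℝ} (G : MetricField n)

theorem inv_smul (hc : c ≠ 0) (A : Matrix (Fin n) (Fin n) ℝ) : (c • A)⁻¹ = c⁻¹ • A⁻¹ := by
  by_cases h : IsUnit A.det
  · refine Matrix.inv_eq_left_inv ?_
    rw [smul_mul_smul_comm, Matrix.nonsing_inv_mul _ h, inv_mul_cancel₀ hc, one_smul]
  · rw [Matrix.nonsing_inv_apply_not_isUnit _ h, smul_zero, Matrix.nonsing_inv_apply_not_isUnit]
    rw [Matrix.det_smul]
    exact fun h' => h (isUnit_of_mul_isUnit_right h')

theorem sqrt_det (hc : 0 < c) (A : Matrix (Fin n) (Fin n) ℝ) :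
    √(c • A).det = √c ^ n * √A.det := by
  rw [Matrix.det_smul, Real.sqrt_mul (by positivity), Fintype.card_fin]
  congr 1
  rw [Real.sqrt_eq_iff_mul_self_eq (by positivity) (by positivity), ← mul_pow,
    Real.mul_self_sqrt hc.le]

theorem christoffel (hc : c ≠ 0) : christoffel (fun y => c • G y) = christoffel G := by
  funext y l i j
  simp only [GeometryTopology.CoordMetric.christoffel, inverseField, inv_smul hc, Matrix.smul_apply, smul_eq_mul,
    pd_cmul]
  congr 1
  refine Finset.sum_congr rfl fun a _ => ?_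
  field_simp

theorem ricci (hc : c ≠ 0) : ricci (fun y => c • G y) = ricci G := by
  funext y i j
  simp only [GeometryTopology.CoordMetric.ricci, christoffel G hc]

theorem riemann (hc : c ≠ 0) : riemann (fun y => c • G y) = riemann G := by
  funext y l a i j
  simp only [GeometryTopology.ChartCurvature.riemann, christoffel G hc]

theorem ricT (hc : c ≠ 0) : ricT (fun y => c • G y) = ricT G := by
  funext y I
  simp only [N207.ricT, ricci G hc]

theorem rmT (hc : c ≠ 0) : rmT (fun y => c • G y) = c • rmT G := by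
  funext y I
  simp only [N207.rmT, riemannLower, riemann G hc, Matrix.smul_apply, smul_eq_mul, Pi.smul_apply,
    Finset.mul_sum, mul_assoc]

theorem matT (c : ℝ) : matT (fun y => c • G y) = c • matT G := rfl

theorem scal (hc : c ≠ 0) (y : En n) : scalarCurv (fun y => c • G y) y = c⁻¹ * scalarCurv G y := by
  simp only [scalarCurv, ricci G hc, inv_smul hc, Matrix.smul_apply, smul_eq_mul, Finset.mul_sum,
    mul_assoc]

theorem gam (hc : c ≠ 0) (f h : En n → ℝ) (y : En n) :
    Bo84.gam (fun y => c • G y) f h y = c⁻¹ * Bo84.gam G f h y := by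
  simp only [Bo84.gam, inverseField, inv_smul hc, Matrix.smul_apply, smul_eq_mul, Finset.mul_sum,
    mul_assoc]

theorem lap (hc : 0 < c) (f : En n → ℝ) (y : En n) :
    laplaceBeltrami (fun y => c • G y) f y = c⁻¹ * laplaceBeltrami G f y := by
  have h : ∀ i, (fun y => √(c • G y).det * ∑ j, inverseField (fun y => c • G y) y i j *
      pderiv j f y) = fun y => (√c ^ n * c⁻¹) *
        (√(G y).det * ∑ j, inverseField G y i j * pderiv j f y) := fun i => funext fun y => by
    simp only [sqrt_det hc, inverseField, inv_smul hc.ne', Matrix.smul_apply, smul_eq_mul,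
      mul_assoc, ← Finset.mul_sum]
    ring
  have h0 : √c ^ n ≠ 0 := pow_ne_zero _ (Real.sqrt_pos.2 hc).ne'
  simp only [laplaceBeltrami, h, pd_cmul, ← Finset.mul_sum]
  rw [sqrt_det hc, one_div, one_div, mul_inv]
  field_simp

theorem cov (hc : c ≠ 0) (T : Tn n k) : cov (fun y => c • G y) T = cov G T := by
  funext y J
  simp only [N207.cov, christoffel G hc]

theorem covN (hc : c ≠ 0) (T : Tn n k) : ∀ j, covN (fun y => c • G y) T j = covN G T j
  | 0 => rfl
  | j + 1 => by rw [N207.covN, N207.covN, covN hc T j, cov G hc]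

theorem covN_smul (a : ℝ) (T : Tn n k) : ∀ j, N207.covN G (a • T) j = a • N207.covN G T j
  | 0 => rfl
  | j + 1 => by rw [N207.covN, N207.covN, covN_smul a T j, cov_smul]

theorem hessT (hc : c ≠ 0) (f : En n → ℝ) : hessT (fun y => c • G y) f = hessT G f := cov G hc _

theorem ip (hc : c ≠ 0) (S T : Tn n k) (y : En n) :
    ip (fun y => c • G y) S T y = c⁻¹ ^ k * ip G S T y := by
  simp only [N207.ip, inv_smul hc, Ar.ipA_scale]

theorem nsq (hc : c ≠ 0) (T : Tn n k) (y : En n) :
    nsq (fun y => c • G y) T y = c⁻¹ ^ k * nsq G T y := ip G hc T T y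

theorem nsq_smul (a : ℝ) (T : Tn n k) (y : En n) :
    N207.nsq G (a • T) y = a ^ 2 * N207.nsq G T y := by
  simp only [N207.nsq, N207.ip, Pi.smul_apply, Ar.ipA_smul_left, Ar.ipA_smul_right]
  ring

theorem trT (hc : c ≠ 0) (T : Tn n (k + 2)) : trT (fun y => c • G y) T = c⁻¹ • trT G T := by
  funext y I
  simp only [N207.trT, inv_smul hc, Matrix.smul_apply, smul_eq_mul, Pi.smul_apply, Finset.mul_sum,
    mul_assoc]

theorem divT (hc : c ≠ 0) (T : Tn n (k + 1)) : divT (fun y => c • G y) T = c⁻¹ • divT G T := by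
  rw [N207.divT, cov G hc, trT G hc, N207.divT]

theorem lapT (hc : c ≠ 0) (T : Tn n k) : lapT (fun y => c • G y) T = c⁻¹ • lapT G T := by
  rw [N207.lapT, cov G hc, cov G hc, trT G hc, N207.lapT]

theorem rm (hc : c ≠ 0) (j : ℕ) (y : En n) :
    N207.nsq (fun y => c • G y) (N207.covN (fun y => c • G y) (N207.rmT fun y => c • G y) j) y =
      c⁻¹ ^ (j + 2) * N207.nsq G (N207.covN G (N207.rmT G) j) y := by
  rw [covN G hc, rmT G hc, covN_smul, nsq G hc, nsq_smul, ← mul_assoc]
  congr 1
  rw [show 4 + j = j + 2 + 2 by ring, pow_add, mul_assoc, ← mul_pow, inv_mul_cancel₀ hc, one_pow,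
    mul_one]

theorem rc (hc : c ≠ 0) (j : ℕ) (y : En n) :
    N207.nsq (fun y => c • G y) (N207.covN (fun y => c • G y) (N207.ricT fun y => c • G y) j) y =
      c⁻¹ ^ (j + 2) * N207.nsq G (N207.covN G (N207.ricT G) j) y := by
  rw [covN G hc, ricT G hc, nsq G hc, pow_add, pow_add, mul_comm (c⁻¹ ^ 2)]

end Scl

namespace Met

variable {n k : ℕ} {M : Type*} [TopologicalSpace M] [ChartedSpace (En n) M]
  [IsManifold 𝓘(ℝ, En n) ∞ M] (m : Met n M) {c : ℝ} (hc : 0 < c)

theorem scale_gam (f h : M → ℝ) (x : M) : (m.scale c hc).gam f h x = c⁻¹ * m.gam f h x := by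
  rw [gam, scale_G, Scl.gam _ hc.ne', gam]

theorem scale_lap (f : M → ℝ) (x : M) : (m.scale c hc).lap f x = c⁻¹ * m.lap f x := by
  rw [lap, scale_G, Scl.lap _ hc, lap]

theorem scale_scal (x : M) : (m.scale c hc).scal x = c⁻¹ * m.scal x := by
  rw [scal, scale_G, Scl.scal _ hc.ne', scal]

theorem scale_cov (T : CT n M k) : (m.scale c hc).cov T = m.cov T := funext fun x => by
  rw [cov, scale_G, Scl.cov _ hc.ne', cov]

theorem scale_covN (T : CT n M k) (j : ℕ) : (m.scale c hc).covN T j = m.covN T j :=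
  funext fun x => by rw [covN, scale_G, Scl.covN _ hc.ne', covN]

theorem scale_hess (f : M → ℝ) : (m.scale c hc).hess f = m.hess f := funext fun x => by
  rw [hess, scale_G, Scl.hessT _ hc.ne', hess]

theorem scale_ric : (m.scale c hc).ric = m.ric := funext fun x => by
  rw [ric, scale_G, Scl.ricT _ hc.ne', ric]

theorem scale_riem : (m.scale c hc).riem = c • m.riem := funext fun x => by
  rw [riem, scale_G, Scl.rmT _ hc.ne']; rfl

theorem scale_met : (m.scale c hc).met = c • m.met := funext fun x => by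
  rw [met, scale_G]; rfl

theorem scale_tr (T : CT n M (k + 2)) : (m.scale c hc).tr T = c⁻¹ • m.tr T := funext fun x => by
  rw [tr, scale_G, Scl.trT _ hc.ne']; rfl

theorem scale_div (T : CT n M (k + 1)) : (m.scale c hc).div T = c⁻¹ • m.div T := funext fun x => by
  rw [div, scale_G, Scl.divT _ hc.ne']; rfl

theorem scale_lapC (T : CT n M k) : (m.scale c hc).lapC T = c⁻¹ • m.lapC T := funext fun x => by
  rw [lapC, scale_G, Scl.lapT _ hc.ne']; rfl

theorem scale_ip (S T : CT n M k) (x : M) : (m.scale c hc).ip S T x = c⁻¹ ^ k * m.ip S T x := by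
  rw [ip, scale_G, Scl.ip _ hc.ne', ip]

theorem scale_nsq (T : CT n M k) (x : M) : (m.scale c hc).nsq T x = c⁻¹ ^ k * m.nsq T x :=
  m.scale_ip hc T T x

theorem scale_rm (j : ℕ) (x : M) : (m.scale c hc).rm j x = c⁻¹ ^ (j + 2) * m.rm j x := by
  have := Scl.rm (m.G x) hc.ne' j (ctr n x)
  rw [← m.scale_G c hc] at this
  exact this

theorem scale_rc (j : ℕ) (x : M) : (m.scale c hc).rc j x = c⁻¹ ^ (j + 2) * m.rc j x := by
  have := Scl.rc (m.G x) hc.ne' j (ctr n x)
  rw [← m.scale_G c hc] at this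
  exact this

variable [T3Space M] [ConnectedSpace M] [CompactSpace M]

/-- comparison of distances from a comparison of gradients -/
theorem d_le_of_gam {m m' : Met n M} {K : ℝ} (hK : 0 < K)
    (h : ∀ f, Sm n f → ∀ z, m.gam f f z ≤ K ^ 2 * m'.gam f f z) (x y : M) :
    m'.d x y ≤ K * m.d x y := by
  rw [d_gs, d_gs]
  refine Dist.GS.d_le fun f hf => (le_abs_self _).trans ?_
  have h1 : Sm n f := (m'.gs_S f).1 hf.1
  have h2 : ∀ z, m'.gam f f z ≤ 1 := fun z => by rw [← gs_gam]; exact hf.2 z
  refine Dist.GS.lip ((m.gs_S f).2 h1) hK (fun z => ?_) x y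
  rw [gs_gam]
  exact (h f h1 z).trans (mul_le_of_le_one_right (by positivity) (h2 z))

theorem scale_d (x y : M) : (m.scale c hc).d x y = √c * m.d x y := by
  have h0 := Real.sqrt_pos.2 hc
  refine le_antisymm (d_le_of_gam h0 (fun f _ z => ?_) x y) ?_
  · rw [scale_gam, Real.sq_sqrt hc.le, mul_inv_cancel_left₀ hc.ne']
  · rw [← le_inv_mul_iff₀ h0]
    refine d_le_of_gam (inv_pos.2 h0) (fun f _ z => ?_) x y
    rw [scale_gam, inv_pow, Real.sq_sqrt hc.le]

theorem scale_ball (x : M) (r : ℝ) : (m.scale c hc).ball x (√c * r) = m.ball x r := by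
  ext y
  simp only [ball, mem_ofPred_eq, scale_d, mul_lt_mul_iff_right₀ (Real.sqrt_pos.2 hc)]

variable [MeasurableSpace M] [BorelSpace M]

theorem scale_vol : (m.scale c hc).vol = ENNReal.ofReal (√c ^ n) • m.vol := by
  rw [V.vol_eq_withDensity m, ← withDensity_const]
  congr 1
  funext x
  rw [V.rho, V.dens, scale_G, Scl.sqrt_det hc]
  exact congrArg _ (mul_div_cancel_right₀ _ (V.dens_pos m x (V.ctr_mem x)).ne')

theorem scale_vol_real (A : Set M) : (m.scale c hc).vol.real A = √c ^ n * m.vol.real A := by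
  rw [scale_vol, measureReal_ennreal_smul_apply, ENNReal.toReal_ofReal (by positivity)]

theorem scale_setIntegral (f : M → ℝ) (A : Set M) :
    ∫ p in A, f p ∂(m.scale c hc).vol = √c ^ n * ∫ p in A, f p ∂m.vol := by
  rw [scale_vol, Measure.restrict_smul, integral_smul_measure,
    ENNReal.toReal_ofReal (by positivity), smul_eq_mul]

theorem scale_integral (f : M → ℝ) :
    ∫ p, f p ∂(m.scale c hc).vol = √c ^ n * ∫ p, f p ∂m.vol := by
  rw [scale_vol, integral_smul_measure, ENNReal.toReal_ofReal (by positivity), smul_eq_mul]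

end Met

end Crest.Agent.N207

end
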