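import Mathlib

/-!
# Row 207, block A (helper33): tensors over a differential ring, part 1

`Ten n S p`: component arrays with values in a commutative `ℝ`-algebra `S`.  `act ω` is the action
of a matrix on all slots, `cd δ ω = δ - act ω` the covariant derivative in one direction.
-/

set_option autoImplicit false
set_option linter.unusedSectionVars false

namespace Crest.Agent.N207.A

open Finset Function

/-- component arrays -/
abbrev Ten (n : ℕ) (S : Type*) (p : ℕ) : Type _ := (Fin p → Fin n) → S

variable {n p q : ℕ} {S : Type*} [CommRing S] [Algebra ℝ S]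

/-- freeze the index `0` -/
def sl (T : Ten n S (p + 1)) (k : Fin n) : Ten n S p := fun y => T (Fin.cons k y)

/-- action of a matrix on all slots -/
def act (ω : Matrix (Fin n) (Fin n) S) (T : Ten n S p) : Ten n S p := fun x =>
  ∑ s : Fin p, ∑ m, ω (x s) m * T (update x s m)

/-- entrywise derivative of a matrix -/
def dM (δ : Derivation ℝ S S) (M : Matrix (Fin n) (Fin n) S) : Matrix (Fin n) (Fin n) S :=
  fun i j => δ (M i j)

/-- covariant derivative in one direction -/
def cd (δ : Derivation ℝ S S) (ω : Matrix (Fin n) (Fin n) S) (T : Ten n S p) : Ten n S p :=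
  fun x => δ (T x) - act ω T x

lemma D_mul (δ : Derivation ℝ S S) (f g : S) : δ (f * g) = δ f * g + f * δ g := by
  rw [Derivation.leibniz]; simp only [smul_eq_mul]; ring

lemma cons_ind {P : (Fin (p + 1) → Fin n) → Prop} (h : ∀ k y, P (Fin.cons k y))
    (x : Fin (p + 1) → Fin n) : P x := by
  rw [← Fin.cons_self_tail x]; exact h _ _

lemma ten_ext {A B : Ten n S (p + 1)} (h : ∀ k y, A (Fin.cons k y) = B (Fin.cons k y)) : A = B :=
  funext fun x => cons_ind (P := fun x => A x = B x) h x

lemma sum_cons {M : Type*} [AddCommMonoid M] (f : (Fin (p + 1) → Fin n) → M) :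
    ∑ x, f x = ∑ k, ∑ y, f (Fin.cons k y) := by
  rw [← Fintype.sum_prod_type']
  exact (Fintype.sum_equiv (Fin.consEquiv fun _ => Fin n) _ _ fun _ => rfl).symm

@[simp] lemma sl_apply (T : Ten n S (p + 1)) (k : Fin n) (y : Fin p → Fin n) :
    sl T k y = T (Fin.cons k y) := rfl

lemma sl_add (A B : Ten n S (p + 1)) (k : Fin n) : sl (A + B) k = sl A k + sl B k := rfl
lemma sl_sub (A B : Ten n S (p + 1)) (k : Fin n) : sl (A - B) k = sl A k - sl B k := rfl
lemma sl_smul (c : S) (A : Ten n S (p + 1)) (k : Fin n) : sl (c • A) k = c • sl A k := rfl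

section act

variable (ω A B : Matrix (Fin n) (Fin n) S) (T U : Ten n S p)

lemma act_zero0 (T : Ten n S 0) (x : Fin 0 → Fin n) : act ω T x = 0 := by simp [act]

lemma act_cons (T : Ten n S (p + 1)) (k : Fin n) (y : Fin p → Fin n) :
    act ω T (Fin.cons k y) = ∑ m, ω k m * T (Fin.cons m y) + act ω (sl T k) y := by
  simp only [act, Fin.sum_univ_succ, Fin.cons_zero, Fin.cons_succ, Fin.update_cons_zero,
    ← Fin.cons_update, sl_apply]

lemma act_add : act ω (T + U) = act ω T + act ω U := by
  funext x; simp only [act, Pi.add_apply, mul_add, sum_add_distrib]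

lemma act_sub : act ω (T - U) = act ω T - act ω U := by
  funext x; simp only [act, Pi.sub_apply, mul_sub, sum_sub_distrib]

lemma act_neg : act ω (-T) = -act ω T := by
  funext x; simp only [act, Pi.neg_apply, mul_neg, sum_neg_distrib]

lemma act_smul (c : S) : act ω (c • T) = c • act ω T := by
  funext x
  simp only [act, Pi.smul_apply, smul_eq_mul, mul_sum]
  exact sum_congr rfl fun _ _ => sum_congr rfl fun _ _ => by ring

lemma act_zero : act ω (0 : Ten n S p) = 0 := by funext x; simp [act]

lemma act_sum {ι : Type*} (s : Finset ι) (T : ι → Ten n S p) :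
    act ω (∑ i ∈ s, T i) = ∑ i ∈ s, act ω (T i) := by
  classical
  induction s using Finset.induction_on with
  | empty => simpa using act_zero ω
  | insert a s ha ih => rw [sum_insert ha, sum_insert ha, act_add, ih]

lemma act_addL : act (A + B) T = act A T + act B T := by
  funext x; simp only [act, Pi.add_apply, Matrix.add_apply, add_mul, sum_add_distrib]

lemma act_subL : act (A - B) T = act A T - act B T := by
  funext x; simp only [act, Pi.sub_apply, Matrix.sub_apply, sub_mul, sum_sub_distrib]

lemma act_negL : act (-A) T = -act A T := by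
  funext x; simp only [act, Pi.neg_apply, Matrix.neg_apply, neg_mul, sum_neg_distrib]

lemma act_smulL (c : S) : act (c • A) T = c • act A T := by
  funext x
  simp only [act, Pi.smul_apply, Matrix.smul_apply, smul_eq_mul, mul_sum]
  exact sum_congr rfl fun _ _ => sum_congr rfl fun _ _ => by ring

lemma act_zeroL : act (0 : Matrix (Fin n) (Fin n) S) T = 0 := by funext x; simp [act]

lemma act_sumL {ι : Type*} (s : Finset ι) (A : ι → Matrix (Fin n) (Fin n) S) :
    act (∑ i ∈ s, A i) T = ∑ i ∈ s, act (A i) T := by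
  classical
  induction s using Finset.induction_on with
  | empty => simpa using act_zeroL T
  | insert a s ha ih => rw [sum_insert ha, sum_insert ha, act_addL, ih]

lemma sl_act (T : Ten n S (p + 1)) (k : Fin n) :
    sl (act ω T) k = ∑ m, ω k m • sl T m + act ω (sl T k) := by
  funext y
  simp only [sl_apply, act_cons, Pi.add_apply, Finset.sum_apply, Pi.smul_apply, smul_eq_mul]

/-- `act` is a representation of the Lie algebra of matrices -/
lemma act_act : ∀ {p : ℕ} (T : Ten n S p) (x : Fin p → Fin n),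
    act A (act B T) x - act B (act A T) x = act (A * B - B * A) T x
  | 0, T, x => by simp [act_zero0]
  | p + 1, T, x => by
    induction x using cons_ind with
    | h k y =>
    have ih := act_act (sl T k) y
    have e : ∀ A B : Matrix (Fin n) (Fin n) S, act A (act B T) (Fin.cons k y) =
        ∑ l, (A * B) k l * T (Fin.cons l y) + ∑ m, A k m * act B (sl T m) y
          + ∑ m, B k m * act A (sl T m) y + act A (act B (sl T k)) y := by
      intro A B
      rw [act_cons, sl_act, act_add, act_sum]
      simp only [act_cons, act_smul, Pi.add_apply, Finset.sum_apply, Pi.smul_apply, smul_eq_mul,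
        mul_add, sum_add_distrib, Matrix.mul_apply, mul_sum, sum_mul]
      rw [sum_comm (f := fun m l => A k m * (B m l * T (Fin.cons l y)))]
      simp only [mul_assoc]; ring
    rw [e A B, e B A, act_cons]
    simp only [Matrix.sub_apply, sub_mul, sum_sub_distrib]
    linear_combination ih

lemma D_act (δ : Derivation ℝ S S) (x : Fin p → Fin n) :
    δ (act ω T x) = act (dM δ ω) T x + act ω (fun y => δ (T y)) x := by
  simp only [act, map_sum, D_mul, dM, sum_add_distrib]

lemma act_one_slot (T : Ten n S 1) (a : Fin n) :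
    act ω T (fun _ => a) = ∑ m, ω a m * T (fun _ => m) := by
  simp only [act, Fin.sum_univ_one]
  refine sum_congr rfl fun m _ => ?_
  congr 2
  funext i; fin_cases i; simp

/-- a matrix is determined by its action on 1-tensors with constant components -/
lemma act_delta (a b : Fin n) :
    act ω (fun x : Fin 1 → Fin n => if x 0 = b then (1 : S) else 0) (fun _ => a) = ω a b := by
  rw [act_one_slot]; simp

end act

section cd

variable (δ : Derivation ℝ S S) (ω : Matrix (Fin n) (Fin n) S) (T U : Ten n S p)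

lemma cd_apply (x : Fin p → Fin n) : cd δ ω T x = δ (T x) - act ω T x := rfl

lemma cd_add : cd δ ω (T + U) = cd δ ω T + cd δ ω U := by
  funext x; simp only [cd, act_add, Pi.add_apply, map_add]; ring

lemma cd_sub : cd δ ω (T - U) = cd δ ω T - cd δ ω U := by
  funext x; simp only [cd, act_sub, Pi.sub_apply, map_sub]; ring

lemma cd_neg : cd δ ω (-T) = -cd δ ω T := by
  funext x; simp only [cd, act_neg, Pi.neg_apply, map_neg]; ring

lemma cd_zero : cd δ ω (0 : Ten n S p) = 0 := by
  funext x; simp [cd, act_zero]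

lemma cd_smul (c : S) : cd δ ω (c • T) = δ c • T + c • cd δ ω T := by
  funext x; simp only [cd, act_smul, Pi.add_apply, Pi.smul_apply, smul_eq_mul, D_mul]; ring

lemma cd_sum {ι : Type*} (s : Finset ι) (T : ι → Ten n S p) :
    cd δ ω (∑ i ∈ s, T i) = ∑ i ∈ s, cd δ ω (T i) := by
  classical
  induction s using Finset.induction_on with
  | empty => simpa using cd_zero δ ω
  | insert a s ha ih => rw [sum_insert ha, sum_insert ha, cd_add, ih]

lemma cd_zero0 (T : Ten n S 0) (x : Fin 0 → Fin n) : cd δ ω T x = δ (T x) := by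
  simp [cd, act_zero0]

lemma cd_cons (T : Ten n S (p + 1)) (k : Fin n) (y : Fin p → Fin n) :
    cd δ ω T (Fin.cons k y) = cd δ ω (sl T k) y - ∑ m, ω k m * T (Fin.cons m y) := by
  simp only [cd, act_cons, sl_apply]; ring

lemma sl_cd (T : Ten n S (p + 1)) (k : Fin n) :
    sl (cd δ ω T) k = cd δ ω (sl T k) - ∑ m, ω k m • sl T m := by
  funext y
  simp only [sl_apply, cd_cons, Pi.sub_apply, Finset.sum_apply, Pi.smul_apply, smul_eq_mul]

/-- commutator of two covariant derivatives -/
lemma cd_comm (δ' : Derivation ℝ S S) (ω' : Matrix (Fin n) (Fin n) S) (x : Fin p → Fin n) :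
    cd δ ω (cd δ' ω' T) x - cd δ' ω' (cd δ ω T) x = δ (δ' (T x)) - δ' (δ (T x))
      - act (dM δ ω' - dM δ' ω + (ω' * ω - ω * ω')) T x := by
  have e : ∀ (δ δ' : Derivation ℝ S S) (ω ω' : Matrix (Fin n) (Fin n) S),
      cd δ ω (cd δ' ω' T) x = δ (δ' (T x)) - act (dM δ ω') T x - act ω' (fun y => δ (T y)) x
        - act ω (fun y => δ' (T y)) x + act ω (act ω' T) x := by
    intro δ δ' ω ω'
    have : cd δ' ω' T = (fun y => δ' (T y)) - act ω' T := rfl
    rw [cd_apply, this, act_sub]
    simp only [Pi.sub_apply, map_sub, D_act]; ring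
  rw [e, e, act_addL, act_subL]
  have := act_act ω' ω T x
  simp only [Pi.add_apply, Pi.sub_apply]
  linear_combination -this

lemma cd_act (A : Matrix (Fin n) (Fin n) S) (x : Fin p → Fin n) :
    cd δ ω (act A T) x = act A (cd δ ω T) x + act (dM δ A - (ω * A - A * ω)) T x := by
  have : cd δ ω T = (fun y => δ (T y)) - act ω T := rfl
  rw [cd_apply, this, act_sub, act_subL, D_act]
  have := act_act ω A T x
  simp only [Pi.sub_apply]
  linear_combination -this

end cd

/-! ### permutations and traces -/

/-- relabelling of the slots -/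
def prm (e : Fin p ≃ Fin q) (T : Ten n S p) : Ten n S q := fun x => T (x ∘ e)

lemma act_prm (ω : Matrix (Fin n) (Fin n) S) (e : Fin p ≃ Fin q) (T : Ten n S p) :
    act ω (prm e T) = prm e (act ω T) := by
  funext x
  simp only [act, prm]
  rw [← e.sum_comp]
  refine sum_congr rfl fun s _ => sum_congr rfl fun m _ => ?_
  rw [Function.update_comp_equiv, e.symm_apply_apply]; rfl

lemma cd_prm (δ : Derivation ℝ S S) (ω : Matrix (Fin n) (Fin n) S) (e : Fin p ≃ Fin q)
    (T : Ten n S p) : cd δ ω (prm e T) = prm e (cd δ ω T) := by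
  funext x; rw [cd_apply, act_prm]; rfl

/-- exchange of the slots `0` and `1` -/
def sw (T : Ten n S (p + 2)) : Ten n S (p + 2) := fun x =>
  T (Fin.cons (x 1) (Fin.cons (x 0) (Fin.tail (Fin.tail x))))

@[simp] lemma sw_cons (T : Ten n S (p + 2)) (a b : Fin n) (y : Fin p → Fin n) :
    sw T (Fin.cons a (Fin.cons b y)) = T (Fin.cons b (Fin.cons a y)) := rfl

lemma ten_ext2 {A B : Ten n S (p + 2)}
    (h : ∀ a b y, A (Fin.cons a (Fin.cons b y)) = B (Fin.cons a (Fin.cons b y))) : A = B :=
  ten_ext fun a y => cons_ind (P := fun y => A (Fin.cons a y) = B (Fin.cons a y)) (h a) y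

lemma cd_cons2 (δ : Derivation ℝ S S) (ω : Matrix (Fin n) (Fin n) S) (T : Ten n S (p + 2))
    (a b : Fin n) (y : Fin p → Fin n) :
    cd δ ω T (Fin.cons a (Fin.cons b y)) = cd δ ω (sl (sl T a) b) y
      - ∑ m, ω b m * T (Fin.cons a (Fin.cons m y)) - ∑ m, ω a m * T (Fin.cons m (Fin.cons b y)) := by
  rw [cd_cons, cd_cons]; rfl

lemma cd_sw (δ : Derivation ℝ S S) (ω : Matrix (Fin n) (Fin n) S) (T : Ten n S (p + 2)) :
    cd δ ω (sw T) = sw (cd δ ω T) := by
  refine ten_ext2 fun a b y => ?_
  rw [sw_cons, cd_cons2, cd_cons2]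
  have : sl (sl (sw T) a) b = sl (sl T b) a := rfl
  rw [this]; simp only [sw_cons]; ring

/-- trace over the slots `0, 1` for the inverse metric `H` -/
def tr (H : Matrix (Fin n) (Fin n) S) (T : Ten n S (p + 2)) : Ten n S p := fun I =>
  ∑ a, ∑ b, H a b * T (Fin.cons a (Fin.cons b I))

/-- the connection `(δ, ω)` preserves the inverse metric `H` -/
def Compat (δ : Derivation ℝ S S) (ω H : Matrix (Fin n) (Fin n) S) : Prop :=
  ∀ a b, δ (H a b) = -(∑ m, ω m a * H m b) - ∑ m, H a m * ω m b

lemma Compat.sum {δ : Derivation ℝ S S} {ω H : Matrix (Fin n) (Fin n) S} (h : Compat δ ω H)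
    (X : Fin n → Fin n → S) : ∑ a, ∑ b, δ (H a b) * X a b =
      -(∑ a, ∑ b, H a b * ∑ m, ω b m * X a m) - ∑ a, ∑ b, H a b * ∑ m, ω a m * X m b := by
  have e1 : ∑ a, ∑ b, H a b * ∑ m, ω b m * X a m = ∑ a, ∑ b, (∑ m, H a m * ω m b) * X a b := by
    refine sum_congr rfl fun a _ => ?_
    simp only [mul_sum, sum_mul]
    rw [sum_comm]
    exact sum_congr rfl fun _ _ => sum_congr rfl fun _ _ => by ring
  have e2 : ∑ a, ∑ b, H a b * ∑ m, ω a m * X m b = ∑ a, ∑ b, (∑ m, ω m a * H m b) * X a b := by
    rw [sum_comm, sum_comm (f := fun a b => (∑ m, ω m a * H m b) * X a b)]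
    refine sum_congr rfl fun b _ => ?_
    simp only [mul_sum, sum_mul]
    rw [sum_comm]
    exact sum_congr rfl fun _ _ => sum_congr rfl fun _ _ => by ring
  rw [e1, e2, ← sum_neg_distrib, ← sum_sub_distrib]
  refine sum_congr rfl fun a _ => ?_
  rw [← sum_neg_distrib, ← sum_sub_distrib]
  exact sum_congr rfl fun b _ => by rw [h a b]; ring

lemma tr_eq (H : Matrix (Fin n) (Fin n) S) (T : Ten n S (p + 2)) :
    tr H T = ∑ a, ∑ b, H a b • sl (sl T a) b := by
  funext x; simp only [tr, Finset.sum_apply, Pi.smul_apply, smul_eq_mul, sl_apply]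

lemma cd_tr {δ : Derivation ℝ S S} {ω H : Matrix (Fin n) (Fin n) S} (h : Compat δ ω H)
    (T : Ten n S (p + 2)) : cd δ ω (tr H T) = tr H (cd δ ω T) := by
  funext x
  have h1 := h.sum fun a b => T (Fin.cons a (Fin.cons b x))
  rw [tr_eq]
  simp only [cd_sum, cd_smul, Finset.sum_apply, Pi.add_apply, Pi.smul_apply, smul_eq_mul, sl_apply,
    sum_add_distrib, tr, cd_cons2, mul_sub, sum_sub_distrib]
  linear_combination h1

/-! ### inner products -/

/-- inner product for the inverse metric `H` -/
def ip (H : Matrix (Fin n) (Fin n) S) (A B : Ten n S p) : S :=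
  ∑ I : Fin p → Fin n, ∑ J : Fin p → Fin n, (∏ s, H (I s) (J s)) * (A I * B J)

lemma ip_zero0 (H : Matrix (Fin n) (Fin n) S) (A B : Ten n S 0) :
    ip H A B = A Fin.elim0 * B Fin.elim0 := by
  simp only [ip, Fintype.sum_unique, Finset.univ_eq_empty, prod_empty, one_mul]
  congr 2

lemma ip_cons (H : Matrix (Fin n) (Fin n) S) (A B : Ten n S (p + 1)) :
    ip H A B = ∑ a, ∑ b, H a b * ip H (sl A a) (sl B b) := by
  simp only [ip, sum_cons (p := p), Fin.prod_univ_succ, Fin.cons_zero, Fin.cons_succ, mul_sum,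
    sl_apply]
  refine sum_congr rfl fun a _ => ?_
  rw [sum_comm]
  exact sum_congr rfl fun b _ => sum_congr rfl fun _ _ => sum_congr rfl fun _ _ => by ring

section ip

variable (H : Matrix (Fin n) (Fin n) S) (A B U : Ten n S p)

lemma ip_addL : ip H (A + B) U = ip H A U + ip H B U := by
  simp only [ip, Pi.add_apply, add_mul, mul_add, sum_add_distrib]

lemma ip_subL : ip H (A - B) U = ip H A U - ip H B U := by
  simp only [ip, Pi.sub_apply, sub_mul, mul_sub, sum_sub_distrib]

lemma ip_smulL (c : S) : ip H (c • A) U = c * ip H A U := by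
  simp only [ip, Pi.smul_apply, smul_eq_mul, mul_sum]
  exact sum_congr rfl fun _ _ => sum_congr rfl fun _ _ => by ring

lemma ip_addR : ip H U (A + B) = ip H U A + ip H U B := by
  simp only [ip, Pi.add_apply, mul_add, sum_add_distrib]

lemma ip_subR : ip H U (A - B) = ip H U A - ip H U B := by
  simp only [ip, Pi.sub_apply, mul_sub, sum_sub_distrib]

lemma ip_smulR (c : S) : ip H U (c • A) = c * ip H U A := by
  simp only [ip, Pi.smul_apply, smul_eq_mul, mul_sum]
  exact sum_congr rfl fun _ _ => sum_congr rfl fun _ _ => by ring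

lemma ip_zeroL : ip H 0 U = 0 := by simp [ip]
lemma ip_zeroR : ip H U 0 = 0 := by simp [ip]

lemma ip_sumL {ι : Type*} (s : Finset ι) (A : ι → Ten n S p) :
    ip H (∑ i ∈ s, A i) U = ∑ i ∈ s, ip H (A i) U := by
  classical
  induction s using Finset.induction_on with
  | empty => simpa using ip_zeroL H U
  | insert a s ha ih => rw [sum_insert ha, sum_insert ha, ip_addL, ih]

lemma ip_sumR {ι : Type*} (s : Finset ι) (A : ι → Ten n S p) :
    ip H U (∑ i ∈ s, A i) = ∑ i ∈ s, ip H U (A i) := by
  classical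
  induction s using Finset.induction_on with
  | empty => simpa using ip_zeroR H U
  | insert a s ha ih => rw [sum_insert ha, sum_insert ha, ip_addR, ih]

lemma ip_comm {H : Matrix (Fin n) (Fin n) S} (hH : ∀ a b, H a b = H b a) :
    ip H A B = ip H B A := by
  simp only [ip]
  rw [sum_comm]
  refine sum_congr rfl fun I _ => sum_congr rfl fun J _ => ?_
  rw [mul_comm (A J), prod_congr rfl fun s _ => hH (J s) (I s)]

end ip

lemma D_ip {δ : Derivation ℝ S S} {ω H : Matrix (Fin n) (Fin n) S} (h : Compat δ ω H) :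
    ∀ {p : ℕ} (A B : Ten n S p), δ (ip H A B) = ip H (cd δ ω A) B + ip H A (cd δ ω B)
  | 0, A, B => by simp only [ip_zero0, cd_zero0, D_mul]
  | p + 1, A, B => by
    have h1 := h.sum fun a b => ip H (sl A a) (sl B b)
    simp only [ip_cons H (p := p), map_sum, D_mul, D_ip h, sl_cd, ip_subL, ip_subR, ip_sumL, ip_sumR,
      ip_smulL, ip_smulR, mul_add, mul_sub, sum_add_distrib, sum_sub_distrib]
    linear_combination h1

end Crest.Agent.N207.A
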