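import Crest.Agent.N207.A.Tf1

/-!
# Row 207, block A (helper33): tensors over a differential ring, part 2

Coordinates with a metric (`Co`), Levi-Civita connection, curvature, Ricci identity, symmetries of
the curvature tensor, Bianchi identities.  The definitions mirror `N207/Tens.lean`.
-/

set_option autoImplicit false
set_option linter.unusedSectionVars false

namespace Crest.Agent.N207.A

open Finset Function

/-- commuting derivations, a symmetric matrix `g` and its inverse `gi` -/
structure Co (n : ℕ) (S : Type*) [CommRing S] [Algebra ℝ S] where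
  d : Fin n → Derivation ℝ S S
  comm : ∀ k l f, d k (d l f) = d l (d k f)
  g : Matrix (Fin n) (Fin n) S
  gi : Matrix (Fin n) (Fin n) S
  g_symm : ∀ i j, g i j = g j i
  gi_g : gi * g = 1

variable {n p q : ℕ} {S : Type*} [CommRing S] [Algebra ℝ S]

/-- `1/2` in `S` -/
noncomputable def hf : S := algebraMap ℝ S (1 / 2)

lemma two_hf : (2 : S) * hf = 1 := by
  have : (2 : S) = algebraMap ℝ S 2 := (map_ofNat (algebraMap ℝ S) 2).symm
  rw [this, hf, ← map_mul]; norm_num

lemma eq_of_two {x y : S} (h : 2 * x = 2 * y) : x = y := by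
  have := two_hf (S := S)
  linear_combination hf * h - (x - y) * this

/-- index vectors -/
abbrev v1 (a : Fin n) : Fin 1 → Fin n := Fin.cons a Fin.elim0
/-- index vectors -/
abbrev v2 (a b : Fin n) : Fin 2 → Fin n := Fin.cons a (v1 b)
/-- index vectors -/
abbrev v3 (a b c : Fin n) : Fin 3 → Fin n := Fin.cons a (v2 b c)
/-- index vectors -/
abbrev v4 (a b c d : Fin n) : Fin 4 → Fin n := Fin.cons a (v3 b c d)
/-- index vectors -/
abbrev v5 (a b c d e : Fin n) : Fin 5 → Fin n := Fin.cons a (v4 b c d e)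
/-- index vectors -/
abbrev v6 (a b c d e f : Fin n) : Fin 6 → Fin n := Fin.cons a (v5 b c d e f)

lemma ext0 {A B : Ten n S 0} (h : A Fin.elim0 = B Fin.elim0) : A = B :=
  funext fun x => by rw [Subsingleton.elim x Fin.elim0, h]

lemma ext1 {A B : Ten n S 1} (h : ∀ a, A (v1 a) = B (v1 a)) : A = B :=
  ten_ext fun a y => by rw [Subsingleton.elim y Fin.elim0]; exact h a

lemma ext2 {A B : Ten n S 2} (h : ∀ a b, A (v2 a b) = B (v2 a b)) : A = B :=
  ten_ext fun a => congrFun (ext1 (A := sl A a) (B := sl B a) (h a))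

lemma ext3 {A B : Ten n S 3} (h : ∀ a b c, A (v3 a b c) = B (v3 a b c)) : A = B :=
  ten_ext fun a => congrFun (ext2 (A := sl A a) (B := sl B a) (h a))

lemma ext4 {A B : Ten n S 4} (h : ∀ a b c d, A (v4 a b c d) = B (v4 a b c d)) : A = B :=
  ten_ext fun a => congrFun (ext3 (A := sl A a) (B := sl B a) (h a))

lemma ext5 {A B : Ten n S 5} (h : ∀ a b c d e, A (v5 a b c d e) = B (v5 a b c d e)) : A = B :=
  ten_ext fun a => congrFun (ext4 (A := sl A a) (B := sl B a) (h a))

lemma act_v1 (ω : Matrix (Fin n) (Fin n) S) (T : Ten n S 1) (a : Fin n) :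
    act ω T (v1 a) = ∑ m, ω a m * T (v1 m) := by
  rw [act_cons, act_zero0, add_zero]

lemma act_v2 (ω : Matrix (Fin n) (Fin n) S) (T : Ten n S 2) (a b : Fin n) :
    act ω T (v2 a b) = ∑ m, ω a m * T (v2 m b) + ∑ m, ω b m * T (v2 a m) := by
  rw [act_cons, act_v1]; rfl

lemma act_v3 (ω : Matrix (Fin n) (Fin n) S) (T : Ten n S 3) (a b c : Fin n) :
    act ω T (v3 a b c) = ∑ m, ω a m * T (v3 m b c) + ∑ m, ω b m * T (v3 a m c)
      + ∑ m, ω c m * T (v3 a b m) := by
  rw [act_cons, act_v2, add_assoc]; rfl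

lemma act_v4 (ω : Matrix (Fin n) (Fin n) S) (T : Ten n S 4) (a b c d : Fin n) :
    act ω T (v4 a b c d) = ∑ m, ω a m * T (v4 m b c d) + ∑ m, ω b m * T (v4 a m c d)
      + ∑ m, ω c m * T (v4 a b m d) + ∑ m, ω d m * T (v4 a b c m) := by
  rw [act_cons, act_v3]; simp only [add_assoc]; rfl

/-- a matrix is determined by its action -/
lemma act_inj {A B : Matrix (Fin n) (Fin n) S}
    (h : ∀ (T : Ten n S 1) x, act A T x = act B T x) : A = B := by
  ext a b; rw [← act_delta A a b, ← act_delta B a b, h]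

/-- a matrix as a 2-tensor -/
def matT (A : Matrix (Fin n) (Fin n) S) : Ten n S 2 := fun I => A (I 0) (I 1)

/-- a 2-tensor as a matrix -/
def mat (M : Ten n S 2) : Matrix (Fin n) (Fin n) S := fun a b => M (v2 a b)

/-- a function as a 0-tensor -/
def fnT (f : S) : Ten n S 0 := fun _ => f

@[simp] lemma matT_v2 (A : Matrix (Fin n) (Fin n) S) (a b : Fin n) : matT A (v2 a b) = A a b := rfl

lemma mat_add (A B : Ten n S 2) : mat (A + B) = mat A + mat B := rfl
lemma mat_sub (A B : Ten n S 2) : mat (A - B) = mat A - mat B := rfl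
lemma mat_neg (A : Ten n S 2) : mat (-A) = -mat A := rfl
lemma mat_smul (c : S) (A : Ten n S 2) : mat (c • A) = c • mat A := rfl
lemma mat_sum {ι : Type*} (s : Finset ι) (A : ι → Ten n S 2) :
    mat (∑ i ∈ s, A i) = ∑ i ∈ s, mat (A i) := by
  ext a b; simp only [mat, Finset.sum_apply, Matrix.sum_apply]

/-- raising the second index commutes with compatible connections -/
lemma Compat.raise {δ : Derivation ℝ S S} {ω H : Matrix (Fin n) (Fin n) S} (h : Compat δ ω H)
    (M : Ten n S 2) :
    dM δ (mat M * H) - (ω * (mat M * H) - mat M * H * ω) = mat (cd δ ω M) * H := by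
  ext a b
  have hM : ∀ a b, mat (cd δ ω M) a b = δ (mat M a b) - (ω * mat M) a b
      - ∑ m, ω b m * mat M a m := by
    intro a b
    simp only [mat, cd_apply, act_v2, Matrix.mul_apply]; ring
  have e1 : ∑ c, mat M a c * ∑ m, ω m c * H m b = ∑ c, (∑ m, ω c m * mat M a m) * H c b := by
    simp only [mul_sum, sum_mul]
    rw [sum_comm]
    exact sum_congr rfl fun _ _ => sum_congr rfl fun _ _ => by ring
  have e2 : ∑ c, mat M a c * ∑ m, H c m * ω m b = (mat M * H * ω) a b := by
    rw [Matrix.mul_assoc]; rfl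
  have e3 : (ω * (mat M * H)) a b = ∑ c, (ω * mat M) a c * H c b := by
    rw [← Matrix.mul_assoc]; rfl
  rw [Matrix.sub_apply, Matrix.sub_apply, e3, ← e2, Matrix.mul_apply (M := mat (cd δ ω M))]
  simp only [dM, Matrix.mul_apply (M := mat M), map_sum, D_mul, h _ b, hM, mul_sub, sub_mul,
    sum_add_distrib, sum_sub_distrib, mul_neg, sum_neg_distrib]
  linear_combination -e1

/-- `gam H R T (i, j, x) = (R(i,j,·,·)^♯ · T)(x)` -/
def gamH (H : Matrix (Fin n) (Fin n) S) (R : Ten n S 4) (T : Ten n S p) : Ten n S (p + 2) :=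
  fun x => act (mat (sl (sl R (x 0)) (x 1)) * H) T (Fin.tail (Fin.tail x))

lemma gamH_cons (H : Matrix (Fin n) (Fin n) S) (R : Ten n S 4) (T : Ten n S p) (i j : Fin n)
    (x : Fin p → Fin n) :
    gamH H R T (Fin.cons i (Fin.cons j x)) = act (mat (sl (sl R i) j) * H) T x := rfl

lemma sl_sl_cd (δ : Derivation ℝ S S) (ω : Matrix (Fin n) (Fin n) S) (R : Ten n S (p + 2))
    (i j : Fin n) : sl (sl (cd δ ω R) i) j = cd δ ω (sl (sl R i) j)
      - ∑ m, ω j m • sl (sl R i) m - ∑ m, ω i m • sl (sl R m) j := by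
  funext y
  simp only [sl_apply, cd_cons2, Pi.sub_apply, Finset.sum_apply, Pi.smul_apply, smul_eq_mul]

lemma cd_gamH {δ : Derivation ℝ S S} {ω H : Matrix (Fin n) (Fin n) S} (h : Compat δ ω H)
    (R : Ten n S 4) (T : Ten n S p) :
    cd δ ω (gamH H R T) = gamH H (cd δ ω R) T + gamH H R (cd δ ω T) := by
  refine ten_ext2 fun i j x => ?_
  have e : sl (sl (gamH H R T) i) j = act (mat (sl (sl R i) j) * H) T := rfl
  rw [cd_cons2, e, cd_act, h.raise, Pi.add_apply, gamH_cons, gamH_cons, sl_sl_cd]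
  simp only [gamH_cons, mat_sub, mat_sum, mat_smul, Matrix.sub_mul, Matrix.sum_mul,
    Matrix.smul_mul, act_subL, act_sumL, act_smulL, Pi.sub_apply, Finset.sum_apply, Pi.smul_apply,
    smul_eq_mul]
  ring

namespace Co

variable (C : Co n S)

lemma g_gi : C.g * C.gi = 1 := mul_eq_one_comm.1 C.gi_g

lemma gi_symm (i j : Fin n) : C.gi i j = C.gi j i := by
  have hg : C.g.transpose = C.g := by ext i j; exact C.g_symm j i
  have h1 : C.gi.transpose * C.g = 1 := by
    have := congrArg Matrix.transpose C.g_gi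
    rwa [Matrix.transpose_mul, hg, Matrix.transpose_one] at this
  have : C.gi.transpose = C.gi := by
    rw [← Matrix.mul_one C.gi.transpose, ← C.g_gi, ← Matrix.mul_assoc, h1, Matrix.one_mul]
  exact (congrFun (congrFun this j) i).symm ▸ rfl

lemma sum_g_gi (k m : Fin n) : ∑ l, C.g k l * C.gi l m = if k = m then 1 else 0 := by
  have := congrFun (congrFun C.g_gi k) m
  rwa [Matrix.mul_apply, Matrix.one_apply] at this

lemma sum_gi_g (k m : Fin n) : ∑ l, C.gi k l * C.g l m = if k = m then 1 else 0 := by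
  have := congrFun (congrFun C.gi_g k) m
  rwa [Matrix.mul_apply, Matrix.one_apply] at this

/-- raising a lowered index -/
lemma gi_g_sum (k : Fin n) (X : Fin n → S) : ∑ l, C.gi k l * ∑ m, C.g l m * X m = X k := by
  have : ∑ l, C.gi k l * ∑ m, C.g l m * X m = ∑ m, (∑ l, C.gi k l * C.g l m) * X m := by
    simp only [mul_sum, sum_mul]
    rw [sum_comm]
    exact sum_congr rfl fun _ _ => sum_congr rfl fun _ _ => by ring
  rw [this]; simp [sum_gi_g]

/-- Christoffel symbols `Γᵏᵢⱼ` -/
noncomputable def Gam (k i j : Fin n) : S :=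
  hf * ∑ l, C.gi k l * (C.d i (C.g j l) + C.d j (C.g i l) - C.d l (C.g i j))

/-- connection matrices -/
noncomputable def Gm (k : Fin n) : Matrix (Fin n) (Fin n) S := fun i m => C.Gam m k i

lemma Gam_symm (l i j : Fin n) : C.Gam l i j = C.Gam l j i := by
  simp only [Gam, C.g_symm i j]
  congr 1
  exact sum_congr rfl fun m _ => by ring

lemma g_Gam (k i j : Fin n) : ∑ l, C.g k l * C.Gam l i j
    = hf * (C.d i (C.g j k) + C.d j (C.g i k) - C.d k (C.g i j)) := by
  simp only [Gam, mul_sum]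
  rw [sum_comm]
  have : ∀ m, ∑ l, C.g k l * (hf * (C.gi l m * (C.d i (C.g j m) + C.d j (C.g i m)
      - C.d m (C.g i j)))) = hf * ((∑ l, C.g k l * C.gi l m) * (C.d i (C.g j m)
        + C.d j (C.g i m) - C.d m (C.g i j))) := by
    intro m
    rw [sum_mul, mul_sum]
    exact sum_congr rfl fun l _ => by ring
  simp_rw [this, sum_g_gi]
  simp

/-- a connection preserving `g` preserves `gi` -/
lemma compat_of {δ : Derivation ℝ S S} {ω : Matrix (Fin n) (Fin n) S}
    (h : cd δ ω (matT C.g) = 0) : Compat δ ω C.gi := by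
  have h1 : dM δ C.g = ω * C.g + C.g * ω.transpose := by
    ext a b
    have := congrFun h (v2 a b)
    simp only [cd_apply, act_v2, matT_v2, Pi.zero_apply] at this
    simp only [dM, Matrix.add_apply, Matrix.mul_apply, Matrix.transpose_apply, mul_comm (C.g a _)]
    linear_combination this
  have h2 : dM δ C.gi * C.g + C.gi * dM δ C.g = 0 := by
    ext a b
    have := congrArg δ (C.sum_gi_g a b)
    rw [map_sum] at this
    simp only [D_mul, sum_add_distrib] at this
    simp only [dM, Matrix.add_apply, Matrix.mul_apply, Matrix.zero_apply, this]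
    split_ifs <;> simp
  have h3 : dM δ C.gi = -(ω.transpose * C.gi) - C.gi * ω := by
    have h4 : dM δ C.gi = -(C.gi * dM δ C.g * C.gi) := by
      have := congrArg (· * C.gi) h2
      simp only [Matrix.add_mul, Matrix.mul_assoc, C.g_gi, Matrix.mul_one, Matrix.zero_mul] at this
      rw [Matrix.mul_assoc]; exact eq_neg_of_add_eq_zero_left this
    rw [h4, h1, Matrix.mul_add, Matrix.add_mul, ← Matrix.mul_assoc, ← Matrix.mul_assoc, C.gi_g,
      Matrix.mul_assoc, C.g_gi, Matrix.one_mul, Matrix.mul_one]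
    abel
  intro a b
  have := congrFun (congrFun h3 a) b
  simpa only [dM, Matrix.sub_apply, Matrix.neg_apply, Matrix.mul_apply, Matrix.transpose_apply]
    using this

lemma cd_g (k : Fin n) : cd (C.d k) (C.Gm k) (matT C.g) = 0 := by
  refine ext2 fun a b => ?_
  have h1 := C.g_Gam b k a
  have h2 := C.g_Gam a k b
  have e1 : ∑ m, C.Gm k a m * C.g m b = ∑ l, C.g b l * C.Gam l k a :=
    sum_congr rfl fun m _ => by rw [Gm, C.g_symm m b, mul_comm]
  have e2 : ∑ m, C.Gm k b m * C.g a m = ∑ l, C.g a l * C.Gam l k b :=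
    sum_congr rfl fun m _ => by rw [Gm, mul_comm]
  simp only [cd_apply, act_v2, matT_v2, Pi.zero_apply, e1, e2, h1, h2, C.g_symm b a]
  linear_combination (-C.d k (C.g a b)) * two_hf (S := S)

lemma compat (k : Fin n) : Compat (C.d k) (C.Gm k) C.gi := C.compat_of (C.cd_g k)

/-- covariant derivative; the new index is index `0` -/
noncomputable def cov (T : Ten n S p) : Ten n S (p + 1) := fun J =>
  cd (C.d (J 0)) (C.Gm (J 0)) T (Fin.tail J)

/-- iterated covariant derivative -/
noncomputable def covN (T : Ten n S p) : (j : ℕ) → Ten n S (p + j)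
  | 0 => T
  | j + 1 => C.cov (covN T j)

lemma cov_cons (T : Ten n S p) (k : Fin n) (y : Fin p → Fin n) :
    C.cov T (Fin.cons k y) = cd (C.d k) (C.Gm k) T y := rfl

lemma sl_cov (T : Ten n S p) (k : Fin n) : sl (C.cov T) k = cd (C.d k) (C.Gm k) T := rfl

lemma cov_add (T U : Ten n S p) : C.cov (T + U) = C.cov T + C.cov U :=
  ten_ext fun k y => by simp only [cov_cons, cd_add, Pi.add_apply]

lemma cov_sub (T U : Ten n S p) : C.cov (T - U) = C.cov T - C.cov U :=
  ten_ext fun k y => by simp only [cov_cons, cd_sub, Pi.sub_apply]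

lemma cov_neg (T : Ten n S p) : C.cov (-T) = -C.cov T :=
  ten_ext fun k y => by simp only [cov_cons, cd_neg, Pi.neg_apply]

lemma cov_zero : C.cov (0 : Ten n S p) = 0 :=
  ten_ext fun k y => by simp only [cov_cons, cd_zero, Pi.zero_apply]

/-- `Rˡₖᵢⱼ` -/
noncomputable def riem (l k i j : Fin n) : S :=
  C.d i (C.Gam l j k) - C.d j (C.Gam l i k) +
    ∑ a, (C.Gam l i a * C.Gam a j k - C.Gam l j a * C.Gam a i k)

/-- `R_{lkij}` -/
noncomputable def rl (l k i j : Fin n) : S := ∑ m, C.g l m * C.riem m k i j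

/-- the Riemann tensor -/
noncomputable def rmT : Ten n S 4 := fun I => C.rl (I 0) (I 1) (I 2) (I 3)

@[simp] lemma rmT_v4 (l k i j : Fin n) : C.rmT (v4 l k i j) = C.rl l k i j := rfl

/-- the Ricci tensor (formula of the prelude) -/
noncomputable def ricc (i j : Fin n) : S :=
  (∑ k, C.d k (C.Gam k i j)) - C.d j (∑ k, C.Gam k k i)
    + (∑ k, ∑ l, C.Gam k k l * C.Gam l i j) - (∑ k, ∑ l, C.Gam k j l * C.Gam l k i)

/-- the Ricci tensor -/
noncomputable def ricT : Ten n S 2 := fun I => C.ricc (I 0) (I 1)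

@[simp] lemma ricT_v2 (i j : Fin n) : C.ricT (v2 i j) = C.ricc i j := rfl

/-- scalar curvature -/
noncomputable def scal : S := ∑ i, ∑ j, C.gi i j * C.ricc i j

/-- curvature matrices -/
noncomputable def Km (i j : Fin n) : Matrix (Fin n) (Fin n) S := fun a b => C.riem b a i j

lemma cov_cov (T : Ten n S p) (i j : Fin n) (x : Fin p → Fin n) :
    C.cov (C.cov T) (Fin.cons i (Fin.cons j x)) = cd (C.d i) (C.Gm i) (cd (C.d j) (C.Gm j) T) x
      - ∑ m, C.Gam m i j * cd (C.d m) (C.Gm m) T x := by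
  rw [cov_cons, cd_cons]; rfl

lemma ricci_id0 (T : Ten n S p) (i j : Fin n) (x : Fin p → Fin n) :
    C.cov (C.cov T) (Fin.cons i (Fin.cons j x)) - C.cov (C.cov T) (Fin.cons j (Fin.cons i x))
      = - act (C.Km i j) T x := by
  have h := cd_comm (C.d i) (C.Gm i) T (C.d j) (C.Gm j) x
  have e : dM (C.d i) (C.Gm j) - dM (C.d j) (C.Gm i) + (C.Gm j * C.Gm i - C.Gm i * C.Gm j)
      = C.Km i j := by
    ext a b
    simp only [dM, Gm, Km, riem, Matrix.add_apply, Matrix.sub_apply, Matrix.mul_apply,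
      sum_sub_distrib, mul_comm]
  rw [e, C.comm i j] at h
  simp only [cov_cov, C.Gam_symm _ j i]
  linear_combination h

lemma riem_anti (l k i j : Fin n) : C.riem l k i j = -C.riem l k j i := by
  simp only [riem, sum_sub_distrib]; ring

lemma rl_anti34 (l k i j : Fin n) : C.rl l k i j = -C.rl l k j i := by
  simp only [rl, C.riem_anti _ k i j, mul_neg, sum_neg_distrib]

lemma cov_g : C.cov (matT C.g) = 0 := ten_ext fun k y => by rw [cov_cons, cd_g]; rfl

lemma rl_anti12 (l k i j : Fin n) : C.rl l k i j = -C.rl k l i j := by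
  have h := C.ricci_id0 (matT C.g) i j (v2 k l)
  simp only [cov_g, cov_zero, Pi.zero_apply, act_v2, matT_v2, Km] at h
  have e1 : ∑ m, C.riem m k i j * C.g m l = C.rl l k i j :=
    sum_congr rfl fun m _ => by rw [C.g_symm m l, mul_comm]
  have e2 : ∑ m, C.riem m l i j * C.g k m = C.rl k l i j :=
    sum_congr rfl fun m _ => by rw [mul_comm]
  rw [e1, e2] at h
  linear_combination h

lemma riem_bianchi (l k i j : Fin n) : C.riem l k i j + C.riem l i j k + C.riem l j k i = 0 := by
  simp only [riem, sum_sub_distrib, C.Gam_symm _ k i, C.Gam_symm _ k j, C.Gam_symm _ j i]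
  ring

lemma rl_bianchi (l k i j : Fin n) : C.rl l k i j + C.rl l i j k + C.rl l j k i = 0 := by
  simp only [rl, ← sum_add_distrib, ← mul_add, riem_bianchi, mul_zero, sum_const_zero]

lemma rl_pair (l k i j : Fin n) : C.rl l k i j = C.rl i j l k := by
  apply eq_of_two
  linear_combination C.rl_bianchi l k i j - C.rl_bianchi k i j l - C.rl_bianchi i j l k
    + C.rl_bianchi j l k i - C.rl_anti12 l i j k - C.rl_anti34 i l j k - C.rl_anti12 l j k i
    + C.rl_anti12 k i j l + C.rl_anti34 i k j l + C.rl_anti12 k j l i + C.rl_anti12 k l i j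
    - C.rl_anti12 j i l k + C.rl_anti34 i l k j - C.rl_anti34 j k i l + C.rl_anti34 i k l j
    + C.rl_anti34 i l j k - 2 * C.rl_anti34 i k j l

lemma riem_eq (b a i j : Fin n) : C.riem b a i j = ∑ l, C.gi b l * C.rl l a i j :=
  (C.gi_g_sum b fun m => C.riem m a i j).symm

lemma Km_eq (i j : Fin n) : C.Km i j = -(mat (sl (sl C.rmT i) j) * C.gi) := by
  ext a b
  simp only [Km, riem_eq, Matrix.neg_apply, Matrix.mul_apply, mat, sl_apply, rmT_v4,
    ← sum_neg_distrib]
  exact sum_congr rfl fun l _ => by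
    rw [C.rl_pair l a i j, C.rl_anti34 i j l a, C.gi_symm b l]; ring

/-- Ricci identity -/
theorem ricci_id (T : Ten n S p) :
    C.cov (C.cov T) = sw (C.cov (C.cov T)) + gamH C.gi C.rmT T := by
  refine ten_ext2 fun i j x => ?_
  have := C.ricci_id0 T i j x
  rw [Km_eq, act_negL] at this
  rw [Pi.add_apply, sw_cons, gamH_cons]
  simp only [Pi.neg_apply] at this
  linear_combination this

lemma ricc_eq (k j : Fin n) : C.ricc k j = ∑ l, ∑ i, C.gi l i * C.rl l k i j := by
  have : ∑ l, ∑ i, C.gi l i * C.rl l k i j = ∑ i, C.riem i k i j := by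
    rw [sum_comm]
    exact sum_congr rfl fun i _ => by
      rw [riem_eq]; exact sum_congr rfl fun l _ => by rw [C.gi_symm l i]
  rw [this]
  simp only [ricc, riem, sum_add_distrib, sum_sub_distrib, map_sum, C.Gam_symm _ j k]
  ring

lemma ricc_symm (k j : Fin n) : C.ricc k j = C.ricc j k := by
  rw [ricc_eq, ricc_eq, sum_comm]
  exact sum_congr rfl fun _ _ => sum_congr rfl fun _ _ => by rw [C.rl_pair, C.gi_symm]

end Co

end Crest.Agent.N207.A
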