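import Crest.Agent.N207.A.Tf2

/-!
# Row 207, block A (helper33): tensors over a differential ring, part 3

Second Bianchi identity and its contractions, commutator of `Δ` and `∇`, Laplacian of `Rm`.
-/

set_option autoImplicit false
set_option linter.unusedSectionVars false

namespace Crest.Agent.N207.A

open Finset Function

variable {n p q : ℕ} {S : Type*} [CommRing S] [Algebra ℝ S]

/-- exchange of the slots `2, 3` -/
def e23 : Fin 4 ≃ Fin 4 := ⟨![0, 1, 3, 2], ![0, 1, 3, 2], by decide, by decide⟩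
/-- exchange of the slots `1, 2` -/
def e12 : Fin 4 ≃ Fin 4 := ⟨![0, 2, 1, 3], ![0, 2, 1, 3], by decide, by decide⟩
/-- exchange of the two pairs -/
def ePr : Fin 4 ≃ Fin 4 := ⟨![2, 3, 0, 1], ![2, 3, 0, 1], by decide, by decide⟩
/-- cyclic permutation of the first three slots -/
def eC5 : Fin 5 ≃ Fin 5 := ⟨![1, 2, 0, 3, 4], ![2, 0, 1, 3, 4], by decide, by decide⟩
/-- cyclic permutation of three slots -/
def eC3 : Fin 3 ≃ Fin 3 := ⟨![1, 2, 0], ![2, 0, 1], by decide, by decide⟩
/-- reversal of three slots -/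
def eR3 : Fin 3 ≃ Fin 3 := ⟨![2, 1, 0], ![2, 1, 0], by decide, by decide⟩

@[simp] lemma prm_e23 (T : Ten n S 4) (a b c d : Fin n) :
    prm e23 T (v4 a b c d) = T (v4 a b d c) := by
  unfold prm; congr 1; funext i; fin_cases i <;> rfl

@[simp] lemma prm_e12 (T : Ten n S 4) (a b c d : Fin n) :
    prm e12 T (v4 a b c d) = T (v4 a c b d) := by
  unfold prm; congr 1; funext i; fin_cases i <;> rfl

@[simp] lemma prm_ePr (T : Ten n S 4) (a b c d : Fin n) :
    prm ePr T (v4 a b c d) = T (v4 c d a b) := by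
  unfold prm; congr 1; funext i; fin_cases i <;> rfl

@[simp] lemma prm_eC5 (T : Ten n S 5) (a b c d e : Fin n) :
    prm eC5 T (v5 a b c d e) = T (v5 b c a d e) := by
  unfold prm; congr 1; funext i; fin_cases i <;> rfl

@[simp] lemma prm_eC3 (T : Ten n S 3) (a b c : Fin n) :
    prm eC3 T (v3 a b c) = T (v3 b c a) := by
  unfold prm; congr 1; funext i; fin_cases i <;> rfl

@[simp] lemma prm_eR3 (T : Ten n S 3) (a b c : Fin n) :
    prm eR3 T (v3 a b c) = T (v3 c b a) := by
  unfold prm; congr 1; funext i; fin_cases i <;> rfl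

/-- the symmetries of a curvature tensor (without the first Bianchi identity) -/
structure CS (T : Ten n S 4) : Prop where
  a12 : ∀ a b c d, T (v4 a b c d) = -T (v4 b a c d)
  a34 : ∀ a b c d, T (v4 a b c d) = -T (v4 a b d c)
  pr : ∀ a b c d, T (v4 a b c d) = T (v4 c d a b)

lemma CS.cd {T : Ten n S 4} (h : CS T) (δ : Derivation ℝ S S) (ω : Matrix (Fin n) (Fin n) S) :
    CS (cd δ ω T) := by
  have h1 : T = -sw (p := 2) T := ext4 h.a12
  have h2 : T = -prm e23 T := ext4 fun a b c d => by rw [Pi.neg_apply, prm_e23]; exact h.a34 ..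
  have h3 : T = prm ePr T := ext4 fun a b c d => by rw [prm_ePr]; exact h.pr ..
  refine ⟨fun a b c d => ?_, fun a b c d => ?_, fun a b c d => ?_⟩
  · have := congrFun (congrArg (A.cd δ ω) h1) (v4 a b c d)
    rwa [cd_neg, cd_sw] at this
  · have := congrFun (congrArg (A.cd δ ω) h2) (v4 a b c d)
    rwa [cd_neg, cd_prm, Pi.neg_apply, prm_e23] at this
  · have := congrFun (congrArg (A.cd δ ω) h3) (v4 a b c d)
    rwa [cd_prm, prm_ePr] at this

lemma CS.act_a12 {T : Ten n S 4} (h : CS T) (ω : Matrix (Fin n) (Fin n) S) (a b c d : Fin n) :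
    act ω T (v4 a b c d) = -act ω T (v4 b a c d) := by
  have := (h.cd 0 ω).a12 a b c d
  simp only [cd_apply, Derivation.coe_zero, Pi.zero_apply] at this
  linear_combination -this

lemma cs_slices {U : Ten n S 5} (h : ∀ k, CS (sl U k)) (δ : Derivation ℝ S S)
    (ω : Matrix (Fin n) (Fin n) S) (k : Fin n) : CS (sl (cd δ ω U) k) := by
  rw [sl_cd]
  refine ⟨fun a b c d => ?_, fun a b c d => ?_, fun a b c d => ?_⟩ <;>
    simp only [Pi.sub_apply, Finset.sum_apply, Pi.smul_apply, smul_eq_mul]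
  · rw [((h k).cd δ ω).a12, sum_congr rfl fun m _ => by rw [(h m).a12 a b c d]]
    simp only [mul_neg, sum_neg_distrib]; ring
  · rw [((h k).cd δ ω).a34, sum_congr rfl fun m _ => by rw [(h m).a34 a b c d]]
    simp only [mul_neg, sum_neg_distrib]; ring
  · rw [((h k).cd δ ω).pr, sum_congr rfl fun m _ => by rw [(h m).pr a b c d]]

/-- `∑ M^♯(k,m) T(m,x)` -/
def rho (H : Matrix (Fin n) (Fin n) S) (M : Ten n S 2) (T : Ten n S (p + 1)) : Ten n S (p + 1) :=
  fun x => ∑ m, (mat M * H) (x 0) m * T (Fin.cons m (Fin.tail x))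

/-- `(O(k,·,·)^♯ · T)(x)` -/
def the (H : Matrix (Fin n) (Fin n) S) (O : Ten n S 3) (T : Ten n S p) : Ten n S (p + 1) :=
  fun x => act (mat (sl O (x 0)) * H) T (Fin.tail x)

/-- `∑ Hᵃᵇ (R(b,k,·,·)^♯ · T(a,·))(x)` -/
def bet (H : Matrix (Fin n) (Fin n) S) (R : Ten n S 4) (T : Ten n S (p + 1)) : Ten n S (p + 1) :=
  fun x => ∑ a, ∑ b, H a b * act (mat (sl (sl R b) (x 0)) * H) (sl T a) (Fin.tail x)

lemma rho_cons (H : Matrix (Fin n) (Fin n) S) (M : Ten n S 2) (T : Ten n S (p + 1)) (k : Fin n)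
    (x : Fin p → Fin n) : rho H M T (Fin.cons k x) = ∑ m, (mat M * H) k m * T (Fin.cons m x) := rfl

lemma the_cons (H : Matrix (Fin n) (Fin n) S) (O : Ten n S 3) (T : Ten n S p) (k : Fin n)
    (x : Fin p → Fin n) : the H O T (Fin.cons k x) = act (mat (sl O k) * H) T x := rfl

lemma bet_cons (H : Matrix (Fin n) (Fin n) S) (R : Ten n S 4) (T : Ten n S (p + 1)) (k : Fin n)
    (x : Fin p → Fin n) : bet H R T (Fin.cons k x)
      = ∑ a, ∑ b, H a b * act (mat (sl (sl R b) k) * H) (sl T a) x := rfl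

lemma cd_the {δ : Derivation ℝ S S} {ω H : Matrix (Fin n) (Fin n) S} (h : Compat δ ω H)
    (O : Ten n S 3) (T : Ten n S p) :
    cd δ ω (the H O T) = the H (cd δ ω O) T + the H O (cd δ ω T) := by
  refine ten_ext fun i x => ?_
  have e : sl (the H O T) i = act (mat (sl O i) * H) T := rfl
  rw [cd_cons, e, cd_act, h.raise, Pi.add_apply, the_cons, the_cons, sl_cd]
  simp only [the_cons, mat_sub, mat_sum, mat_smul, Matrix.sub_mul, Matrix.sum_mul,
    Matrix.smul_mul, act_subL, act_sumL, act_smulL, Pi.sub_apply, Finset.sum_apply, Pi.smul_apply,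
    smul_eq_mul]
  ring

lemma rho_eq (H : Matrix (Fin n) (Fin n) S) (M : Ten n S 2) (T : Ten n S (p + 1)) (k : Fin n) :
    sl (rho H M T) k = sl (act (mat M * H) T) k - act (mat M * H) (sl T k) := by
  funext x; simp only [sl_apply, rho_cons, Pi.sub_apply, act_cons]; ring

lemma cd_rho {δ : Derivation ℝ S S} {ω H : Matrix (Fin n) (Fin n) S} (h : Compat δ ω H)
    (M : Ten n S 2) (T : Ten n S (p + 1)) :
    cd δ ω (rho H M T) = rho H (cd δ ω M) T + rho H M (cd δ ω T) := by
  refine ten_ext fun k x => ?_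
  have h1 := cd_act δ ω T (mat M * H) (Fin.cons k x)
  have h2 := cd_act δ ω (sl T k) (mat M * H) x
  have h3 : act (mat M * H) (sl (cd δ ω T) k) x = act (mat M * H) (cd δ ω (sl T k)) x
      - ∑ m, ω k m * act (mat M * H) (sl T m) x := by
    simp only [sl_cd, act_sub, act_sum, act_smul, Pi.sub_apply, Finset.sum_apply, Pi.smul_apply,
      smul_eq_mul]
  have h4 : ∀ (M : Ten n S 2) (T : Ten n S (p + 1)) k, rho H M T (Fin.cons k x)
      = act (mat M * H) T (Fin.cons k x) - act (mat M * H) (sl T k) x :=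
    fun M T k => congrFun (rho_eq H M T k) x
  rw [h.raise] at h1 h2
  rw [cd_cons] at h1
  rw [cd_cons, rho_eq, cd_sub, Pi.add_apply, Pi.sub_apply]
  simp only [h4, mul_sub, sum_sub_distrib]
  linear_combination h1 - h2 + h3

namespace Co

variable (C : Co n S)

lemma cs_rm : CS C.rmT := ⟨C.rl_anti12, C.rl_anti34, C.rl_pair⟩

lemma cs_cov (k : Fin n) : CS (sl (C.cov C.rmT) k) := C.cs_rm.cd (C.d k) (C.Gm k)

lemma cs_cov2 (j k : Fin n) : CS (sl (sl (C.cov (C.cov C.rmT)) j) k) :=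
  cs_slices C.cs_cov (C.d j) (C.Gm j) k

lemma raise_inj {M M' : Ten n S 2}
    (h : ∀ (T : Ten n S 1) x, act (mat M * C.gi) T x = act (mat M' * C.gi) T x) : M = M' := by
  have h1 := congrArg (· * C.g) (act_inj h)
  simp only [Matrix.mul_assoc, C.gi_g, Matrix.mul_one] at h1
  exact ext2 fun a b => congrFun (congrFun h1 a) b

/-- rough Laplacian -/
noncomputable def lapT (T : Ten n S p) : Ten n S p := tr C.gi (C.cov (C.cov T))

/-- divergence in the index `0` -/
noncomputable def divT (T : Ten n S (p + 1)) : Ten n S p := tr C.gi (C.cov T)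

/-- `df` -/
noncomputable def dT (f : S) : Ten n S 1 := fun I => C.d (I 0) f

/-- `Hess f` -/
noncomputable def hessT (f : S) : Ten n S 2 := C.cov (C.dT f)

lemma cov_fnT (f : S) : C.cov (fnT f) = C.dT f := ext1 fun a => by rw [cov_cons, cd_zero0]; rfl

lemma cov_tr (T : Ten n S (p + 2)) (k : Fin n) (x : Fin p → Fin n) :
    C.cov (tr C.gi T) (Fin.cons k x)
      = ∑ a, ∑ b, C.gi a b * C.cov T (Fin.cons k (Fin.cons a (Fin.cons b x))) := by
  rw [cov_cons, cd_tr (C.compat k)]; rfl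

lemma cov3_a (T : Ten n S p) (j k l : Fin n) (x : Fin p → Fin n) :
    C.cov (C.cov (C.cov T)) (Fin.cons j (Fin.cons k (Fin.cons l x)))
      = C.cov (C.cov (C.cov T)) (Fin.cons j (Fin.cons l (Fin.cons k x)))
        + act (mat (sl (sl (sl (C.cov C.rmT) j) k) l) * C.gi) T x
        + act (mat (sl (sl C.rmT k) l) * C.gi) (sl (C.cov T) j) x := by
  have := congrFun (congrArg (cd (C.d j) (C.Gm j)) (C.ricci_id T)) (Fin.cons k (Fin.cons l x))
  rw [cd_add, cd_sw, cd_gamH (C.compat j)] at this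
  exact this.trans (add_assoc _ _ _).symm

lemma cov3_b (T : Ten n S p) (j k l : Fin n) (x : Fin p → Fin n) :
    C.cov (C.cov (C.cov T)) (Fin.cons j (Fin.cons k (Fin.cons l x)))
      = C.cov (C.cov (C.cov T)) (Fin.cons k (Fin.cons j (Fin.cons l x)))
        + ∑ m, (mat (sl (sl C.rmT j) k) * C.gi) l m * C.cov T (Fin.cons m x)
        + act (mat (sl (sl C.rmT j) k) * C.gi) (sl (C.cov T) l) x := by
  have := congrFun (C.ricci_id (C.cov T)) (Fin.cons j (Fin.cons k (Fin.cons l x)))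
  rw [Pi.add_apply, sw_cons, gamH_cons, act_cons] at this
  exact this.trans (add_assoc _ _ _).symm

/-- second Bianchi identity -/
theorem bianchi2 (j k l a b : Fin n) : C.cov C.rmT (v5 j k l a b) + C.cov C.rmT (v5 k l j a b)
    + C.cov C.rmT (v5 l j k a b) = 0 := by
  have key : sl (sl (sl (C.cov C.rmT) j) k) l + sl (sl (sl (C.cov C.rmT) k) l) j
      + sl (sl (sl (C.cov C.rmT) l) j) k = 0 := by
    refine C.raise_inj fun T x => ?_
    have hK : ∀ j k l m, (mat (sl (sl C.rmT j) k) * C.gi) l m = -C.riem m l j k := by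
      intro j k l m
      have := congrFun (congrFun (C.Km_eq j k) l) m
      rw [Matrix.neg_apply] at this
      rw [← neg_neg ((mat (sl (sl C.rmT j) k) * C.gi) l m), ← this]; rfl
    have hs : ∑ m, (mat (sl (sl C.rmT j) k) * C.gi) l m * C.cov T (Fin.cons m x)
        + ∑ m, (mat (sl (sl C.rmT k) l) * C.gi) j m * C.cov T (Fin.cons m x)
        + ∑ m, (mat (sl (sl C.rmT l) j) * C.gi) k m * C.cov T (Fin.cons m x) = 0 := by
      rw [← sum_add_distrib, ← sum_add_distrib]
      refine sum_eq_zero fun m _ => ?_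
      rw [hK, hK, hK]
      linear_combination (-C.cov T (Fin.cons m x)) * C.riem_bianchi m l j k
    have h0 : mat (0 : Ten n S 2) = 0 := rfl
    simp only [mat_add, Matrix.add_mul, act_addL, Pi.add_apply, h0, Matrix.zero_mul, act_zeroL,
      Pi.zero_apply]
    linear_combination hs - C.cov3_a T j k l x - C.cov3_a T k l j x - C.cov3_a T l j k x
      + C.cov3_b T j k l x + C.cov3_b T k l j x + C.cov3_b T l j k x
  exact congrFun key (v2 a b)

lemma bianchi2_cov (i j k l a b : Fin n) : C.cov (C.cov C.rmT) (v6 i j k l a b)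
    + C.cov (C.cov C.rmT) (v6 i k l j a b) + C.cov (C.cov C.rmT) (v6 i l j k a b) = 0 := by
  have h : C.cov C.rmT + prm eC5 (C.cov C.rmT) + prm eC5 (prm eC5 (C.cov C.rmT)) = 0 :=
    ext5 fun j k l a b => by
      simp only [Pi.add_apply, prm_eC5, Pi.zero_apply]; exact C.bianchi2 j k l a b
  have := congrFun (congrArg (cd (C.d i) (C.Gm i)) h) (v5 j k l a b)
  simp only [cd_add, cd_prm, cd_zero, Pi.add_apply, prm_eC5, Pi.zero_apply] at this
  exact this

lemma ricT_eq : C.ricT = tr C.gi (prm e12 C.rmT) := ext2 fun k j => by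
  simp only [ricT_v2, tr, prm_e12, rmT_v4]; exact C.ricc_eq k j

lemma cd_ric {δ : Derivation ℝ S S} {ω : Matrix (Fin n) (Fin n) S} (h : Compat δ ω C.gi)
    (k j : Fin n) :
    cd δ ω C.ricT (v2 k j) = ∑ l, ∑ i, C.gi l i * cd δ ω C.rmT (v4 l k i j) := by
  rw [ricT_eq, cd_tr h, cd_prm]; simp only [tr, prm_e12]

lemma cov_ric (m k j : Fin n) :
    C.cov C.ricT (v3 m k j) = ∑ l, ∑ i, C.gi l i * C.cov C.rmT (v5 m l k i j) :=
  C.cd_ric (C.compat m) k j

lemma sw_ric : sw (p := 0) C.ricT = C.ricT := ext2 fun a b => C.ricc_symm b a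

lemma cd_ric_symm (δ : Derivation ℝ S S) (ω : Matrix (Fin n) (Fin n) S) (k j : Fin n) :
    cd δ ω C.ricT (v2 k j) = cd δ ω C.ricT (v2 j k) := by
  conv_lhs => rw [← C.sw_ric, cd_sw]
  rfl

lemma cov_ric_symm (m k j : Fin n) : C.cov C.ricT (v3 m k j) = C.cov C.ricT (v3 m j k) :=
  C.cd_ric_symm _ _ k j

/-- divergence of the curvature tensor -/
noncomputable def Om : Ten n S 3 := C.divT C.rmT

/-- contracted Bianchi identity -/
theorem Om_eq (k l m : Fin n) :
    C.Om (v3 k l m) = C.cov C.ricT (v3 l m k) - C.cov C.ricT (v3 m l k) := by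
  rw [cov_ric, cov_ric, Om, divT, tr, ← sum_sub_distrib]
  refine sum_congr rfl fun i _ => ?_
  rw [← sum_sub_distrib]
  refine sum_congr rfl fun i' _ => ?_
  have h1 := (C.cs_cov i).pr i' k l m
  have h2 := (C.cs_cov l).a12 m i i' k
  simp only [sl_apply] at h1 h2
  linear_combination C.gi i i' * (h1 + C.bianchi2 i l m i' k - h2)

lemma tr_Om (m : Fin n) : tr C.gi C.Om (v1 m) = -C.divT C.ricT (v1 m) := by
  have : ∀ k l, C.gi k l * C.Om (v3 k l m)
      = -∑ i, ∑ i', C.gi i i' * (C.gi k l * C.cov C.rmT (v5 i k i' l m)) := by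
    intro k l
    simp only [Om, divT, tr, mul_sum, ← sum_neg_distrib]
    refine sum_congr rfl fun i _ => sum_congr rfl fun i' _ => ?_
    have h2 := (C.cs_cov i).a12 i' k l m
    simp only [sl_apply] at h2
    linear_combination C.gi i i' * C.gi k l * h2
  have e : ∀ X : Fin n → Fin n → Fin n → Fin n → S,
      ∑ k, ∑ l, ∑ i, ∑ i', X k l i i' = ∑ i, ∑ i', ∑ k, ∑ l, X k l i i' := by
    intro X
    rw [sum_congr rfl fun k _ => sum_comm, sum_comm]
    refine sum_congr rfl fun i _ => ?_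
    rw [sum_congr rfl fun k _ => sum_comm, sum_comm]
  simp only [tr, this, divT, cov_ric, mul_sum, sum_neg_distrib]
  rw [e]

lemma fnT_scal : fnT C.scal = tr C.gi C.ricT := ext0 rfl

lemma d_scal (m : Fin n) : C.d m C.scal = ∑ k, ∑ l, C.gi k l * C.cov C.ricT (v3 m k l) := by
  rw [← C.cov_tr, ← fnT_scal, cov_fnT]; rfl

/-- twice contracted Bianchi identity -/
theorem two_div_ric (m : Fin n) : 2 * C.divT C.ricT (v1 m) = C.d m C.scal := by
  have h := C.tr_Om m
  have e : ∑ k, ∑ l, C.gi k l * C.cov C.ricT (v3 l m k) = C.divT C.ricT (v1 m) := by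
    rw [sum_comm]
    exact sum_congr rfl fun l _ => sum_congr rfl fun k _ => by
      rw [C.gi_symm k l, C.cov_ric_symm l m k]
  have e' : ∑ k, ∑ l, C.gi k l * C.cov C.ricT (v3 m l k) = C.d m C.scal := by
    rw [d_scal]
    exact sum_congr rfl fun k _ => sum_congr rfl fun l _ => by rw [C.cov_ric_symm m l k]
  simp only [tr, Om_eq, mul_sub, sum_sub_distrib, e, e'] at h
  linear_combination h

lemma tr_rm_raise (k m : Fin n) : ∑ a, ∑ b, C.gi a b * (mat (sl (sl C.rmT a) k) * C.gi) b m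
    = (mat C.ricT * C.gi) k m := by
  simp only [Matrix.mul_apply, mat, sl_apply, rmT_v4, ricT_v2, ricc_eq, mul_sum, sum_mul]
  rw [sum_congr rfl fun a _ => sum_comm, sum_comm]
  exact sum_congr rfl fun _ _ => sum_congr rfl fun _ _ => sum_congr rfl fun _ _ => by ring

lemma tr_act_rm (T : Ten n S (p + 1)) (k : Fin n) (x : Fin p → Fin n) :
    ∑ a, ∑ b, C.gi a b * act (mat (sl (sl C.rmT a) k) * C.gi) T (Fin.cons b x)
      = rho C.gi C.ricT T (Fin.cons k x) + bet C.gi C.rmT T (Fin.cons k x) := by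
  simp only [act_cons, mul_add, sum_add_distrib, rho_cons, bet_cons, ← tr_rm_raise, sum_mul,
    mul_sum]
  congr 1
  · rw [sum_congr rfl fun a _ => sum_comm, sum_comm]
    exact sum_congr rfl fun _ _ => sum_congr rfl fun _ _ => sum_congr rfl fun _ _ => by ring
  · rw [sum_comm]
    exact sum_congr rfl fun _ _ => sum_congr rfl fun _ _ => by rw [C.gi_symm]

/-- commutator of `Δ` and `∇` -/
theorem lap_cov (T : Ten n S p) : C.lapT (C.cov T) = C.cov (C.lapT T) + rho C.gi C.ricT (C.cov T)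
    + the C.gi C.Om T + (2 : S) • bet C.gi C.rmT (C.cov T) := by
  refine ten_ext fun k x => ?_
  have h1 := C.tr_act_rm (C.cov T) k x
  have h2 : the C.gi C.Om T (Fin.cons k x)
      = ∑ a, ∑ b, C.gi a b * act (mat (sl (sl (sl (C.cov C.rmT) a) b) k) * C.gi) T x := by
    have : sl C.Om k = ∑ a, ∑ b, C.gi a b • sl (sl (sl (C.cov C.rmT) a) b) k := by
      funext y
      simp only [Om, divT, tr, sl_apply, Finset.sum_apply, Pi.smul_apply, smul_eq_mul]
    simp only [the_cons, this, mat_sum, mat_smul, Matrix.sum_mul, Matrix.smul_mul, act_sumL,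
      act_smulL, Finset.sum_apply, Pi.smul_apply, smul_eq_mul]
  have h3 : ∀ a b, C.cov (C.cov (C.cov T)) (Fin.cons a (Fin.cons b (Fin.cons k x)))
      = C.cov (C.cov (C.cov T)) (Fin.cons k (Fin.cons a (Fin.cons b x)))
        + act (mat (sl (sl C.rmT a) k) * C.gi) (C.cov T) (Fin.cons b x)
        + act (mat (sl (sl (sl (C.cov C.rmT) a) b) k) * C.gi) T x
        + act (mat (sl (sl C.rmT b) k) * C.gi) (sl (C.cov T) a) x := by
    intro a b
    rw [C.cov3_a T a b k x, C.cov3_b T a k b x, act_cons]; ring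
  simp only [Pi.add_apply, Pi.smul_apply, smul_eq_mul, lapT, cov_tr, h2]
  simp only [tr, h3, mul_add, sum_add_distrib, h1, ← bet_cons]
  ring

/-- the linear part of `ΔRm` -/
noncomputable def Zr : Ten n S 4 := C.cov C.Om - sw (p := 2) (C.cov C.Om)
  + (rho C.gi C.ricT C.rmT - sw (p := 2) (rho C.gi C.ricT C.rmT))

/-- Laplacian of the curvature tensor -/
theorem lap_rm : C.lapT C.rmT
    = C.Zr + (bet C.gi C.rmT C.rmT - sw (p := 2) (bet C.gi C.rmT C.rmT)) := by
  refine ext4 fun k l a b => ?_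
  have h1 : ∀ k l, C.cov C.Om (v4 k l a b)
      = ∑ i, ∑ j, C.gi i j * C.cov (C.cov C.rmT) (v6 k i j l a b) := fun k l => C.cov_tr _ k _
  have h2 : ∀ i k l j, C.cov (C.cov C.rmT) (v6 i k l j a b) = C.cov (C.cov C.rmT) (v6 k i l j a b)
      + act (mat (sl (sl C.rmT i) k) * C.gi) C.rmT (v4 l j a b) :=
    fun i k l j => congrFun (C.ricci_id C.rmT) (v6 i k l j a b)
  have h3 : ∀ i j, C.cov (C.cov C.rmT) (v6 i j k l a b) = C.cov (C.cov C.rmT) (v6 k i j l a b)
      - C.cov (C.cov C.rmT) (v6 l i j k a b)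
      + act (mat (sl (sl C.rmT i) k) * C.gi) C.rmT (v4 j l a b)
      - act (mat (sl (sl C.rmT i) l) * C.gi) C.rmT (v4 j k a b) := by
    intro i j
    have h4 := (C.cs_cov2 k i).a12 l j a b
    simp only [sl_apply] at h4
    linear_combination C.bianchi2_cov i j k l a b - h2 i k l j - h2 i l j k - h4
      - C.cs_rm.act_a12 (mat (sl (sl C.rmT i) k) * C.gi) l j a b
  have h5 := C.tr_act_rm C.rmT k (v3 l a b)
  have h6 := C.tr_act_rm C.rmT l (v3 k a b)
  simp only [Zr, Pi.add_apply, Pi.sub_apply, sw_cons, h1, lapT, tr, h3, mul_add, mul_sub,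
    sum_add_distrib, sum_sub_distrib, h5, h6]
  ring

end Co

end Crest.Agent.N207.A
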