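import Crest.Agent.N207.A.Tf3

/-!
# Row 207, block A (helper33): tensors over a differential ring, part 4

Scalars (`lap0`, `gam`), Laplacian of inner products, and the Ricci flow `Rf` with Uhlenbeck's time
derivative: commutators and the evolution of `Rm`.
-/

set_option autoImplicit false
set_option linter.unusedSectionVars false

namespace Crest.Agent.N207.A

open Finset Function

variable {n p q : ℕ} {S : Type*} [CommRing S] [Algebra ℝ S]

/-- contraction of all indices of `A` with the last indices of `U` -/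
def con (H : Matrix (Fin n) (Fin n) S) (A : Ten n S p) (U : Ten n S (p + 1)) : Ten n S 1 :=
  fun I => ip H A (sl U (I 0))

@[simp] lemma con_v1 (H : Matrix (Fin n) (Fin n) S) (A : Ten n S p) (U : Ten n S (p + 1))
    (k : Fin n) : con H A U (v1 k) = ip H A (sl U k) := rfl

lemma cd_v1 (δ : Derivation ℝ S S) (ω : Matrix (Fin n) (Fin n) S) (T : Ten n S 1) (a : Fin n) :
    cd δ ω T (v1 a) = δ (T (v1 a)) - ∑ m, ω a m * T (v1 m) := by rw [cd_apply, act_v1]

lemma cd_con {δ : Derivation ℝ S S} {ω H : Matrix (Fin n) (Fin n) S} (h : Compat δ ω H)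
    (A : Ten n S p) (U : Ten n S (p + 1)) :
    cd δ ω (con H A U) = con H (cd δ ω A) U + con H A (cd δ ω U) := by
  refine ext1 fun k => ?_
  simp only [cd_v1, con_v1, Pi.add_apply, D_ip h, sl_cd, ip_subR, ip_sumR, ip_smulR]
  ring

lemma ip_v1 (H : Matrix (Fin n) (Fin n) S) (A B : Ten n S 1) :
    ip H A B = ∑ a, ∑ b, H a b * (A (v1 a) * B (v1 b)) := by
  simp only [ip_cons H (p := 0), ip_zero0, sl_apply]

lemma ip_v2 (H : Matrix (Fin n) (Fin n) S) (A B : Ten n S 2) :
    ip H A B = ∑ a, ∑ b, H a b * ∑ c, ∑ d, H c d * (A (v2 a c) * B (v2 b d)) := by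
  simp only [ip_cons H (p := 1), ip_v1, sl_apply]

namespace Co

variable (C : Co n S)

/-- `|T|²` -/
noncomputable def nsq (T : Ten n S p) : S := ip C.gi T T

/-- Laplacian of a function -/
noncomputable def lap0 (f : S) : S := C.lapT (fnT f) Fin.elim0

/-- `⟨∇f, ∇h⟩` -/
noncomputable def gam (f h : S) : S := ip C.gi (C.dT f) (C.dT h)

@[simp] lemma dT_v1 (f : S) (k : Fin n) : C.dT f (v1 k) = C.d k f := rfl

lemma lap0_eq (f : S) : C.lap0 f = ∑ a, ∑ b, C.gi a b * C.hessT f (v2 a b) := by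
  rw [lap0, lapT, cov_fnT]; rfl

lemma lapT_fnT (f : S) : C.lapT (fnT f) = fnT (C.lap0 f) := ext0 rfl

lemma hess_symm (f : S) (a b : Fin n) : C.hessT f (v2 a b) = C.hessT f (v2 b a) := by
  have := C.ricci_id0 (fnT f) a b Fin.elim0
  rw [act_zero0, cov_fnT] at this
  exact sub_eq_zero.1 (this.trans neg_zero)

lemma dT_ip (A B : Ten n S p) :
    C.dT (ip C.gi A B) = con C.gi B (C.cov A) + con C.gi A (C.cov B) := by
  refine ext1 fun k => ?_
  rw [dT_v1, D_ip (C.compat k), Pi.add_apply, con_v1, con_v1, ip_comm _ B C.gi_symm]; rfl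

lemma tr_cov_con (A : Ten n S p) (U : Ten n S (p + 1)) :
    ∑ a, ∑ b, C.gi a b * C.cov (con C.gi A U) (v2 a b)
      = ip C.gi (C.cov A) U + ip C.gi A (C.divT U) := by
  have : ∀ a b, C.cov (con C.gi A U) (v2 a b)
      = ip C.gi (sl (C.cov A) a) (sl U b) + ip C.gi A (sl (sl (C.cov U) a) b) := by
    intro a b
    rw [cov_cons, cd_con (C.compat a)]; rfl
  simp only [this, mul_add, sum_add_distrib, ← ip_cons, divT, tr_eq, ip_sumR, ip_smulR]

/-- divergence of a contraction -/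
lemma div_con (A : Ten n S p) (U : Ten n S (p + 1)) :
    C.divT (con C.gi A U) Fin.elim0 = ip C.gi (C.cov A) U + ip C.gi A (C.divT U) :=
  C.tr_cov_con A U

theorem lap0_ip (A B : Ten n S p) : C.lap0 (ip C.gi A B) = ip C.gi (C.lapT A) B
    + 2 * ip C.gi (C.cov A) (C.cov B) + ip C.gi A (C.lapT B) := by
  rw [lap0_eq, hessT, dT_ip, cov_add]
  simp only [Pi.add_apply, mul_add, sum_add_distrib, tr_cov_con]
  rw [ip_comm (C.cov B) _ C.gi_symm, ip_comm (C.lapT A) _ C.gi_symm]
  simp only [divT, lapT]; ring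

theorem lap0_nsq (T : Ten n S p) :
    C.lap0 (C.nsq T) = 2 * ip C.gi (C.lapT T) T + 2 * C.nsq (C.cov T) := by
  rw [nsq, lap0_ip, ip_comm T _ C.gi_symm, nsq]; ring

lemma d_nsq (T : Ten n S p) (k : Fin n) : C.d k (C.nsq T) = 2 * ip C.gi T (sl (C.cov T) k) := by
  have := congrFun (C.dT_ip T T) (v1 k)
  rw [dT_v1, Pi.add_apply, con_v1] at this
  rw [nsq, this]; ring

/-- a linear map commuting with the covariant derivatives commutes with the Laplacian -/
lemma lapT_comm {L : Ten n S p → Ten n S q} (hL : IsLinearMap S L)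
    (h : ∀ k T, cd (C.d k) (C.Gm k) (L T) = L (cd (C.d k) (C.Gm k) T)) (T : Ten n S p) :
    C.lapT (L T) = L (C.lapT T) := by
  have e : ∀ {r : ℕ} (T : Ten n S r), C.lapT T = ∑ a, ∑ b, C.gi a b •
      (cd (C.d a) (C.Gm a) (cd (C.d b) (C.Gm b) T)
        - ∑ m, C.Gam m a b • cd (C.d m) (C.Gm m) T) := by
    intro r T
    funext x
    simp only [lapT, tr, cov_cov, Finset.sum_apply, Pi.smul_apply, Pi.sub_apply, smul_eq_mul]
  rw [e, e]
  have := fun x => (hL.mk'_apply x).symm
  simp only [h]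
  simp only [this, map_sum, map_smul, map_sub]

end Co

lemma isLin_tr (H : Matrix (Fin n) (Fin n) S) : IsLinearMap S (tr (p := p) H) :=
  ⟨fun A B => by funext x; simp only [tr, Pi.add_apply, mul_add, sum_add_distrib],
    fun c A => by
      funext x
      simp only [tr, Pi.smul_apply, smul_eq_mul, mul_sum]
      exact sum_congr rfl fun _ _ => sum_congr rfl fun _ _ => by ring⟩

lemma isLin_prm (e : Fin p ≃ Fin q) : IsLinearMap S (prm (n := n) (S := S) e) :=
  ⟨fun _ _ => rfl, fun _ _ => rfl⟩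

/-- a Ricci flow over a differential ring -/
structure Rf (n : ℕ) (S : Type*) [CommRing S] [Algebra ℝ S] extends Co n S where
  dt : Derivation ℝ S S
  dt_comm : ∀ k f, dt (d k f) = d k (dt f)
  rf : ∀ i j, dt (g i j) = -2 * toCo.ricc i j

namespace Rf

variable (F : Rf n S)

/-- the connection matrix in the time direction -/
noncomputable def wt : Matrix (Fin n) (Fin n) S := mat (-F.ricT) * F.gi

/-- Uhlenbeck's time derivative -/
noncomputable def DtT (T : Ten n S p) : Ten n S p := cd F.dt F.wt T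

/-- heat operator on tensors -/
noncomputable def boxT (T : Ten n S p) : Ten n S p := F.DtT T - F.lapT T

lemma wt_g (a b : Fin n) : ∑ m, F.wt a m * F.g m b = -F.ricc a b := by
  have : (F.wt * F.g) a b = -F.ricc a b := by
    rw [wt, Matrix.mul_assoc, F.gi_g, Matrix.mul_one]; rfl
  rw [← this, Matrix.mul_apply]

lemma Dt_g : cd F.dt F.wt (matT F.g) = 0 := by
  refine ext2 fun a b => ?_
  have := F.wt_g b a
  simp only [cd_apply, act_v2, matT_v2, Pi.zero_apply, wt_g, F.rf, F.g_symm a, this,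
    F.ricc_symm b a]
  ring

lemma compat_t : Compat F.dt F.wt F.gi := F.compat_of F.Dt_g

lemma wt_apply (k m : Fin n) : F.wt k m = -(mat F.ricT * F.gi) k m := by
  rw [wt, mat_neg, Matrix.neg_mul, Matrix.neg_apply]

/-- the mixed curvature of the space-time connection -/
lemma curv_t (k : Fin n) : dM F.dt (F.Gm k) - dM (F.d k) F.wt + (F.Gm k * F.wt - F.wt * F.Gm k)
    = -(mat (sl F.Om k) * F.gi) := by
  set W : Fin n → Matrix (Fin n) (Fin n) S := fun k =>
    dM F.dt (F.Gm k) - dM (F.d k) F.wt + (F.Gm k * F.wt - F.wt * F.Gm k) with hW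
  have h1 : ∀ k, W k = dM F.dt (F.Gm k) + mat (sl (F.cov F.ricT) k) * F.gi := by
    intro k
    have := (F.compat k).raise (-F.ricT)
    rw [cd_neg, mat_neg (cd _ _ _), Matrix.neg_mul] at this
    rw [F.sl_cov, ← neg_neg (mat (cd (F.d k) (F.Gm k) F.ricT) * F.gi), ← this]
    simp only [hW, wt]; abel
  have h2 : ∀ k l m, (W k * F.g) l m + (W k * F.g) m l = 0 := by
    intro k l m
    have := cd_comm F.dt F.wt (matT F.g) (F.d k) (F.Gm k) (v2 l m)
    rw [F.cd_g, F.Dt_g, cd_zero, cd_zero, F.dt_comm, act_v2] at this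
    simp only [Pi.zero_apply, matT_v2, F.g_symm l] at this
    simp only [Matrix.mul_apply, hW]
    linear_combination this
  have h3 : ∀ k l m, (W k * F.g) l m - (W l * F.g) k m
      = F.cov F.ricT (v3 k l m) - F.cov F.ricT (v3 l k m) := by
    intro k l m
    have e : (dM F.dt (F.Gm k) * F.g) l m = (dM F.dt (F.Gm l) * F.g) k m := by
      simp only [Matrix.mul_apply, dM, Co.Gm, F.Gam_symm _ k l]
    simp only [h1, Matrix.add_mul, Matrix.mul_assoc, F.gi_g, Matrix.mul_one, Matrix.add_apply, e,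
      mat, sl_apply]
    ring
  have h4 : W k * F.g = -mat (sl F.Om k) := by
    ext l m
    apply eq_of_two
    have : (-mat (sl F.Om k)) l m = -F.Om (v3 k l m) := rfl
    rw [this, F.Om_eq]
    linear_combination h3 k l m + h3 m k l - h3 l m k + h2 k l m - h2 m k l + h2 l m k
      - 2 * h2 l m k + h2 m k l + h2 l m k - F.cov_ric_symm k m l + F.cov_ric_symm m k l
      - F.cov_ric_symm l k m + h2 l k m - h2 m l k
  have : W k = W k * F.g * F.gi := by rw [Matrix.mul_assoc, F.g_gi, Matrix.mul_one]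
  change W k = _
  rw [this, h4, Matrix.neg_mul]

theorem Dt_cov (T : Ten n S p) : F.DtT (F.cov T) = F.cov (F.DtT T) + rho F.gi F.ricT (F.cov T)
    + the F.gi F.Om T := by
  refine ten_ext fun k x => ?_
  have h := cd_comm F.dt F.wt T (F.d k) (F.Gm k) x
  rw [curv_t, act_negL, F.dt_comm] at h
  rw [DtT, cd_cons, F.sl_cov]
  simp only [Pi.add_apply, rho_cons, the_cons, wt_apply, neg_mul, sum_neg_distrib, DtT,
    Pi.neg_apply] at h ⊢
  rw [F.cov_cons (cd F.dt F.wt T)]
  linear_combination h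

lemma DtT_add (A B : Ten n S p) : F.DtT (A + B) = F.DtT A + F.DtT B := cd_add _ _ A B

/-- commutator of the heat operator and `∇` -/
theorem box_cov (T : Ten n S p) :
    F.boxT (F.cov T) = F.cov (F.boxT T) - (2 : S) • bet F.gi F.rmT (F.cov T) := by
  rw [boxT, boxT, Dt_cov, F.lap_cov, F.cov_sub]; abel

lemma Dt_cov2 (T : Ten n S p) (k l : Fin n) (x : Fin p → Fin n) :
    F.DtT (F.cov (F.cov T)) (Fin.cons k (Fin.cons l x))
      = F.cov (F.cov (F.DtT T)) (Fin.cons k (Fin.cons l x))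
        + ∑ m, (mat (sl (F.cov F.ricT) k) * F.gi) l m * F.cov T (Fin.cons m x)
        + ∑ m, (mat F.ricT * F.gi) l m * F.cov (F.cov T) (Fin.cons k (Fin.cons m x))
        + act (mat (sl (sl (F.cov F.Om) k) l) * F.gi) T x
        + act (mat (sl F.Om l) * F.gi) (sl (F.cov T) k) x
        + ∑ m, (mat F.ricT * F.gi) k m * F.cov (F.cov T) (Fin.cons m (Fin.cons l x))
        + ∑ m, (mat (sl F.Om k) * F.gi) l m * F.cov T (Fin.cons m x)
        + act (mat (sl F.Om k) * F.gi) (sl (F.cov T) l) x := by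
  rw [Dt_cov, Dt_cov, F.cov_add, F.cov_add]
  simp only [Pi.add_apply]
  rw [F.cov_cons (rho _ _ _), F.cov_cons (the _ _ _), cd_rho (F.compat k), cd_the (F.compat k),
    the_cons, act_cons]
  simp only [Pi.add_apply, rho_cons, the_cons, ← add_assoc]
  rfl

lemma Om_sub (k l m : Fin n) : (mat (sl (F.cov F.ricT) k) * F.gi) l m
    - (mat (sl (F.cov F.ricT) l) * F.gi) k m + (mat (sl F.Om k) * F.gi) l m
    - (mat (sl F.Om l) * F.gi) k m = 0 := by
  simp only [Matrix.mul_apply, mat, sl_apply, F.Om_eq, ← sum_sub_distrib, ← sum_add_distrib]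
  refine sum_eq_zero fun c _ => ?_
  rw [F.cov_ric_symm k c l, F.cov_ric_symm l c k, F.cov_ric_symm c l k]; ring

/-- time derivative of the curvature tensor -/
theorem Dt_rm : F.DtT F.rmT = F.Zr := by
  refine ten_ext2 fun k l => congrFun (?_ : sl (sl (F.DtT F.rmT) k) l = sl (sl F.Zr k) l)
  refine F.raise_inj fun T x => ?_
  have h := congrFun (congrArg F.DtT (F.ricci_id T)) (Fin.cons k (Fin.cons l x))
  rw [DtT_add, DtT, DtT, DtT, cd_sw, cd_gamH F.compat_t] at h
  simp only [Pi.add_apply, sw_cons, gamH_cons] at h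
  have h1 := F.Dt_cov2 T k l x
  have h2 := F.Dt_cov2 T l k x
  have h3 := congrFun (F.ricci_id (F.DtT T)) (Fin.cons k (Fin.cons l x))
  have h4 : ∀ a b, F.cov (F.cov T) (Fin.cons a (Fin.cons b x))
      = F.cov (F.cov T) (Fin.cons b (Fin.cons a x))
        + act (mat (sl (sl F.rmT a) b) * F.gi) T x :=
    fun a b => congrFun (F.ricci_id T) (Fin.cons a (Fin.cons b x))
  simp only [Pi.add_apply, sw_cons, gamH_cons, DtT] at h1 h2 h3
  have h5 : ∑ m, ((mat (sl (F.cov F.ricT) k) * F.gi) l m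
      - (mat (sl (F.cov F.ricT) l) * F.gi) k m + (mat (sl F.Om k) * F.gi) l m
      - (mat (sl F.Om l) * F.gi) k m) * F.cov T (Fin.cons m x) = 0 := by
    simp only [Om_sub, zero_mul, sum_const_zero]
  have h6 : ∀ k l, sl (sl (rho F.gi F.ricT F.rmT) k) l
      = ∑ m, (mat F.ricT * F.gi) k m • sl (sl F.rmT m) l := by
    intro k l; funext y
    simp only [sl_apply, rho_cons, Finset.sum_apply, Pi.smul_apply, smul_eq_mul]
  have h7 : sl (sl F.Zr k) l = sl (sl (F.cov F.Om) k) l - sl (sl (F.cov F.Om) l) k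
      + (sl (sl (rho F.gi F.ricT F.rmT) k) l - sl (sl (rho F.gi F.ricT F.rmT) l) k) := rfl
  have h8 : ∀ k l, ∑ m, (mat F.ricT * F.gi) k m * F.cov (F.cov T) (Fin.cons m (Fin.cons l x))
      = ∑ m, (mat F.ricT * F.gi) k m * F.cov (F.cov T) (Fin.cons l (Fin.cons m x))
        + ∑ m, (mat F.ricT * F.gi) k m * act (mat (sl (sl F.rmT m) l) * F.gi) T x := by
    intro k l
    rw [← sum_add_distrib]
    exact sum_congr rfl fun m _ => by rw [h4 m l]; ring
  rw [h8] at h1 h2
  simp only [sub_mul, add_mul, sum_add_distrib, sum_sub_distrib] at h5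
  rw [h7, h6, h6]
  simp only [mat_add, mat_sub, mat_sum, mat_smul, Matrix.add_mul, Matrix.sub_mul, Matrix.sum_mul,
    Matrix.smul_mul, act_addL, act_subL, act_sumL, act_smulL, Pi.add_apply, Pi.sub_apply,
    Finset.sum_apply, Pi.smul_apply, smul_eq_mul, DtT]
  linear_combination h1 - h2 - h + h3 + h5

/-- evolution of the curvature tensor -/
theorem box_rm :
    F.boxT F.rmT = sw (p := 2) (bet F.gi F.rmT F.rmT) - bet F.gi F.rmT F.rmT := by
  rw [boxT, Dt_rm, F.lap_rm]; abel

lemma dt_ip (A B : Ten n S p) :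
    F.dt (ip F.gi A B) = ip F.gi (F.DtT A) B + ip F.gi A (F.DtT B) := D_ip F.compat_t A B

theorem box_ip (A B : Ten n S p) : F.dt (ip F.gi A B) - F.lap0 (ip F.gi A B)
    = ip F.gi (F.boxT A) B + ip F.gi A (F.boxT B) - 2 * ip F.gi (F.cov A) (F.cov B) := by
  rw [dt_ip, F.lap0_ip, boxT, boxT, ip_subL, ip_subR]; ring

theorem box_nsq (T : Ten n S p) : F.dt (F.nsq T) - F.lap0 (F.nsq T)
    = 2 * ip F.gi (F.boxT T) T - 2 * F.nsq (F.cov T) := by
  rw [Co.nsq, box_ip, ip_comm T _ F.gi_symm, Co.nsq]; ring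

lemma DtT_fnT (f : S) : F.DtT (fnT f) = fnT (F.dt f) := ext0 (cd_zero0 _ _ _ _)

lemma boxT_fnT (f : S) : F.boxT (fnT f) = fnT (F.dt f - F.lap0 f) := by
  rw [boxT, DtT_fnT, F.lapT_fnT]; rfl

lemma box_dT (f : S) : F.boxT (F.dT f) = F.dT (F.dt f - F.lap0 f) := by
  rw [← F.cov_fnT, box_cov, boxT_fnT, F.cov_fnT]
  refine ext1 fun k => ?_
  simp only [Pi.sub_apply, Pi.smul_apply, bet_cons, act_zero0, mul_zero, sum_const_zero, smul_zero,
    sub_zero]

/-- Bochner formula along the flow -/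
theorem box_gam (f h : S) : F.dt (F.gam f h) - F.lap0 (F.gam f h)
    = F.gam (F.dt f - F.lap0 f) h + F.gam f (F.dt h - F.lap0 h)
      - 2 * ip F.gi (F.hessT f) (F.hessT h) := by
  rw [Co.gam, box_ip, box_dT, box_dT]; rfl

lemma Dt_dT (f : S) : F.DtT (F.dT f) = F.dT (F.dt f) + rho F.gi F.ricT (F.dT f) := by
  rw [← F.cov_fnT, Dt_cov, DtT_fnT, F.cov_fnT, F.cov_fnT]
  refine ext1 fun k => ?_
  simp only [Pi.add_apply, the_cons, act_zero0, add_zero]

end Rf

end Crest.Agent.N207.A
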