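import Crest.Agent.N207.A.Tf4

/-!
# Row 207, block A (helper33): tensors over a differential ring, part 5

Evolution of `Ric` and `R`, the commutator `[∂ₜ, Δ]` on functions.
-/

set_option autoImplicit false
set_option linter.unusedSectionVars false

namespace Crest.Agent.N207.A

open Finset Function

variable {n p q : ℕ} {S : Type*} [CommRing S] [Algebra ℝ S]

lemma sum4_comm (X : Fin n → Fin n → Fin n → Fin n → S) :
    ∑ k, ∑ l, ∑ i, ∑ j, X k l i j = ∑ i, ∑ j, ∑ k, ∑ l, X k l i j := by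
  rw [sum_congr rfl fun k _ => sum_comm, sum_comm]
  refine sum_congr rfl fun i _ => ?_
  rw [sum_congr rfl fun k _ => sum_comm, sum_comm]

namespace Co

variable (C : Co n S)

/-- both indices raised -/
noncomputable def up (B : Ten n S 2) : Matrix (Fin n) (Fin n) S := C.gi * mat B * C.gi

lemma up_apply (B : Ten n S 2) (b e : Fin n) :
    C.up B b e = ∑ a, ∑ m, C.gi b a * B (v2 a m) * C.gi m e := by
  simp only [up, Matrix.mul_apply, mat, sum_mul]
  rw [sum_comm]

lemma up_symm {B : Ten n S 2} (hB : ∀ a b, B (v2 a b) = B (v2 b a)) (b e : Fin n) :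
    C.up B b e = C.up B e b := by
  rw [up_apply, up_apply, sum_comm]
  exact sum_congr rfl fun a _ => sum_congr rfl fun m _ => by
    rw [hB m a, C.gi_symm b m, C.gi_symm a e]; ring

lemma ip_up (A B : Ten n S 2) : ip C.gi A B = ∑ b, ∑ e, C.up A b e * B (v2 b e) := by
  simp only [ip_v2, up_apply, mul_sum, sum_mul]
  rw [sum_congr rfl fun a _ => sum_congr rfl fun b _ => sum_comm, sum_comm]
  refine sum_congr rfl fun b _ => ?_
  rw [sum_comm]
  exact sum_congr rfl fun e _ => sum_congr rfl fun a _ => sum_congr rfl fun c _ => by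
    rw [C.gi_symm a b]; ring

lemma bet_two (R : Ten n S 4) (B : Ten n S 2) (j c : Fin n) :
    bet C.gi R B (v2 j c) = ∑ b, ∑ e, C.up B b e * R (v4 b j c e) := by
  simp only [bet_cons, act_v1, up_apply, Matrix.mul_apply, mat, sl_apply, mul_sum, sum_mul]
  rw [sum_comm]
  refine sum_congr rfl fun b _ => ?_
  rw [sum_congr rfl fun a _ => sum_comm, sum_comm]
  exact sum_congr rfl fun e _ => sum_congr rfl fun a _ => sum_congr rfl fun m _ => by
    rw [C.gi_symm a b, C.gi_symm e m]; ring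

lemma bet_ric_symm (j c : Fin n) :
    bet C.gi C.rmT C.ricT (v2 j c) = bet C.gi C.rmT C.ricT (v2 c j) := by
  rw [bet_two, bet_two, sum_comm]
  refine sum_congr rfl fun e _ => sum_congr rfl fun b _ => ?_
  rw [C.up_symm C.ricc_symm b e, rmT_v4, rmT_v4, C.rl_pair b j c e, C.rl_anti12 c e b j,
    C.rl_anti34 e c b j, neg_neg]

lemma cov2_ric_symm (i m k j : Fin n) :
    C.cov (C.cov C.ricT) (v4 i m k j) = C.cov (C.cov C.ricT) (v4 i m j k) := by
  have h : C.cov C.ricT = prm eC3 (prm eR3 (C.cov C.ricT)) := ext3 fun m k j => by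
    rw [prm_eC3, prm_eR3]; exact C.cov_ric_symm m k j
  have := congrFun (congrArg (cd (C.d i) (C.Gm i)) h) (v3 m k j)
  rwa [cd_prm, cd_prm, prm_eC3, prm_eR3] at this

lemma cov_Om (i k l m : Fin n) : C.cov C.Om (v4 i k l m)
    = C.cov (C.cov C.ricT) (v4 i l m k) - C.cov (C.cov C.ricT) (v4 i m l k) := by
  have h : C.Om = prm eC3 (C.cov C.ricT) - prm eR3 (C.cov C.ricT) := ext3 fun k l m => by
    rw [Pi.sub_apply, prm_eC3, prm_eR3]; exact C.Om_eq k l m
  have := congrFun (congrArg (cd (C.d i) (C.Gm i)) h) (v3 k l m)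
  rwa [cd_sub, cd_prm, cd_prm, Pi.sub_apply, prm_eC3, prm_eR3] at this

lemma cov_div_ric (j c : Fin n) : 2 * C.cov (C.divT C.ricT) (v2 j c) = C.hessT C.scal (v2 j c) := by
  have h : C.divT C.ricT + C.divT C.ricT = C.dT C.scal := ext1 fun m => by
    rw [Pi.add_apply, ← two_mul]; exact C.two_div_ric m
  rw [hessT, ← h, cov_add, Pi.add_apply, two_mul]

lemma cov_div_ric_symm (j c : Fin n) :
    C.cov (C.divT C.ricT) (v2 j c) = C.cov (C.divT C.ricT) (v2 c j) :=
  eq_of_two (by rw [cov_div_ric, cov_div_ric, hess_symm])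

lemma rho_ric_symm (j c : Fin n) :
    rho C.gi C.ricT C.ricT (v2 j c) = rho C.gi C.ricT C.ricT (v2 c j) := by
  simp only [rho_cons, Matrix.mul_apply, mat, ricT_v2, sum_mul]
  rw [sum_comm]
  exact sum_congr rfl fun e _ => sum_congr rfl fun m _ => by
    rw [C.ricc_symm m c, C.ricc_symm j e, C.gi_symm e m]; ring

/-- the Ricci contraction of `Zr` -/
lemma tr_Zr (j c : Fin n) : ∑ l, ∑ i, C.gi l i * C.Zr (v4 l j i c)
    = C.lapT C.ricT (v2 j c) - 2 * bet C.gi C.rmT C.ricT (v2 j c) := by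
  have h1 : ∑ l, ∑ i, C.gi l i * C.cov (C.cov C.ricT) (v4 l i c j) = C.lapT C.ricT (v2 j c) :=
    sum_congr rfl fun l _ => sum_congr rfl fun i _ => by rw [C.cov2_ric_symm l i c j]
  have h2 : ∑ l, ∑ i, C.gi l i * C.cov (C.cov C.ricT) (v4 l c i j)
      = C.cov (C.divT C.ricT) (v2 c j) + (rho C.gi C.ricT C.ricT (v2 c j)
        + bet C.gi C.rmT C.ricT (v2 c j)) := by
    rw [← C.tr_act_rm, divT, C.cov_tr, ← sum_add_distrib]
    refine sum_congr rfl fun l _ => ?_
    rw [← sum_add_distrib]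
    refine sum_congr rfl fun i _ => ?_
    rw [← mul_add]
    exact congrArg _ (congrFun (C.ricci_id C.ricT) (v4 l c i j))
  have h3 : ∑ l, ∑ i, C.gi l i * C.cov C.Om (v4 j l i c) = -C.cov (C.divT C.ricT) (v2 j c) := by
    have h : tr C.gi C.Om = -C.divT C.ricT := ext1 C.tr_Om
    rw [← C.cov_tr, h, cov_neg]; rfl
  have h4 : ∑ l, ∑ i, C.gi l i * rho C.gi C.ricT C.rmT (v4 l j i c)
      = -bet C.gi C.rmT C.ricT (v2 j c) := by
    simp only [bet_two, rho_cons, up_apply, Matrix.mul_apply, mat, ricT_v2, rmT_v4, mul_sum,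
      sum_mul, ← sum_neg_distrib]
    rw [sum4_comm]
    refine sum_congr rfl fun m _ => ?_
    rw [sum_comm, sum_congr rfl fun l _ => sum_comm, sum_comm]
    refine sum_congr rfl fun i _ => ?_
    rw [sum_comm]
    exact sum_congr rfl fun e _ => sum_congr rfl fun l _ => by
      rw [C.rl_anti34 m j i c, C.gi_symm e m, C.ricc_symm l e]; ring
  have h5 : ∑ l, ∑ i, C.gi l i * rho C.gi C.ricT C.rmT (v4 j l i c)
      = -rho C.gi C.ricT C.ricT (v2 j c) := by
    simp only [rho_cons, ricT_v2, rmT_v4, C.ricc_eq _ c, mul_sum, ← sum_neg_distrib]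
    rw [sum_congr rfl fun l _ => sum_comm, sum_comm]
    exact sum_congr rfl fun m _ => sum_congr rfl fun l _ => sum_congr rfl fun i _ => by
      rw [C.rl_anti12 m l i c]; ring
  have h6 : ∀ l i, C.Zr (v4 l j i c) = C.cov (C.cov C.ricT) (v4 l i c j)
      - C.cov (C.cov C.ricT) (v4 l c i j) - C.cov C.Om (v4 j l i c)
      + (rho C.gi C.ricT C.rmT (v4 l j i c) - rho C.gi C.ricT C.rmT (v4 j l i c)) := by
    intro l i; rw [← cov_Om]; rfl
  simp only [h6, mul_add, mul_sub, sum_add_distrib, sum_sub_distrib, h1, h2, h3, h4, h5]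
  rw [C.cov_div_ric_symm c j, C.rho_ric_symm c j, C.bet_ric_symm c j]; ring

lemma tr_bet_ric : ∑ j, ∑ c, C.gi j c * bet C.gi C.rmT C.ricT (v2 j c) = -C.nsq C.ricT := by
  simp only [bet_two, nsq, ip_up, ricT_v2, rmT_v4, ricc_eq, mul_sum, ← sum_neg_distrib]
  rw [sum4_comm]
  exact sum_congr rfl fun b _ => sum_congr rfl fun e _ => sum_congr rfl fun j _ =>
    sum_congr rfl fun c _ => by rw [C.rl_anti12 b j c e]; ring

end Co

namespace Rf

variable (F : Rf n S)

lemma boxT_comm {L : Ten n S p → Ten n S q} (hL : IsLinearMap S L)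
    (h : ∀ δ ω, Compat δ ω F.gi → ∀ T, cd δ ω (L T) = L (cd δ ω T)) (T : Ten n S p) :
    F.boxT (L T) = L (F.boxT T) := by
  rw [boxT, boxT, F.lapT_comm hL fun k => h _ _ (F.compat k), hL.map_sub, DtT, DtT,
    h _ _ F.compat_t]

/-- evolution of the Ricci tensor -/
theorem box_ric : F.boxT F.ricT = -((2 : S) • bet F.gi F.rmT F.ricT) := by
  refine ext2 fun j c => ?_
  have h := F.cd_ric F.compat_t j c
  have h2 := F.Dt_rm
  rw [DtT] at h2
  rw [h2, F.tr_Zr] at h
  simp only [boxT, DtT, Pi.sub_apply, Pi.neg_apply, Pi.smul_apply, smul_eq_mul, h]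
  ring

/-- evolution of the scalar curvature -/
theorem box_scal : F.dt F.scal - F.lap0 F.scal = 2 * F.nsq F.ricT := by
  have h := F.boxT_comm (p := 2) (q := 0) (isLin_tr F.gi) (fun _ _ h => cd_tr h) F.ricT
  rw [← F.fnT_scal, boxT_fnT, box_ric] at h
  have h2 := congrFun h Fin.elim0
  simp only [fnT, tr, Pi.neg_apply, Pi.smul_apply, smul_eq_mul] at h2
  have h3 := F.tr_bet_ric
  rw [h2]
  simp only [mul_neg, sum_neg_distrib, mul_left_comm _ (2 : S), ← mul_sum]
  rw [h3]; ring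

lemma Dt_hess (f : S) (k l : Fin n) : F.DtT (F.hessT f) (v2 k l) = F.hessT (F.dt f) (v2 k l)
    + ∑ m, ((mat (sl (F.cov F.ricT) k) * F.gi) l m + (mat (sl F.Om k) * F.gi) l m) * F.d m f
    + ∑ m, (mat F.ricT * F.gi) l m * F.hessT f (v2 k m)
    + ∑ m, (mat F.ricT * F.gi) k m * F.hessT f (v2 m l) := by
  have := F.Dt_cov2 (fnT f) k l Fin.elim0
  simp only [act_zero0, add_zero, DtT_fnT, F.cov_fnT, Co.dT_v1] at this
  simp only [Co.hessT, this, add_mul, sum_add_distrib]; ring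

/-- `[∂ₜ, Δ] f = 2 ⟨Ric, Hess f⟩` -/
theorem dt_lap0 (f : S) :
    F.dt (F.lap0 f) = F.lap0 (F.dt f) + 2 * ip F.gi F.ricT (F.hessT f) := by
  have h : F.dt (F.lap0 f) = ∑ k, ∑ l, F.gi k l * F.DtT (F.hessT f) (v2 k l) := by
    have := congrFun (cd_tr F.compat_t (F.hessT f)) Fin.elim0
    rw [cd_zero0] at this
    rw [F.lap0_eq]; exact this
  have h1 : ∑ k, ∑ l, F.gi k l * ∑ m, ((mat (sl (F.cov F.ricT) k) * F.gi) l m
      + (mat (sl F.Om k) * F.gi) l m) * F.d m f = 0 := by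
    have e : ∀ c, ∑ k, ∑ l, F.gi k l * (F.cov F.ricT (v3 k l c) + F.Om (v3 k l c)) = 0 := by
      intro c
      have := F.tr_Om c
      simp only [tr, Co.divT] at this
      simp only [mul_add, sum_add_distrib, this]; ring
    have e2 : ∀ k l, F.gi k l * ∑ m, ((mat (sl (F.cov F.ricT) k) * F.gi) l m
        + (mat (sl F.Om k) * F.gi) l m) * F.d m f = ∑ m, ∑ c,
          F.gi k l * (F.cov F.ricT (v3 k l c) + F.Om (v3 k l c)) * (F.gi c m * F.d m f) := by
      intro k l
      simp only [Matrix.mul_apply, mat, sl_apply, ← sum_add_distrib, mul_sum, sum_mul]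
      exact sum_congr rfl fun m _ => sum_congr rfl fun c _ => by ring
    simp only [e2]
    rw [sum4_comm]
    simp only [← sum_mul, e, zero_mul, sum_const_zero]
  have h2 : ∑ k, ∑ l, F.gi k l * ∑ m, (mat F.ricT * F.gi) k m * F.hessT f (v2 m l)
      = ip F.gi F.ricT (F.hessT f) := by
    simp only [F.ip_up, Co.up_apply, Matrix.mul_apply, mat, mul_sum, sum_mul]
    rw [sum_congr rfl fun k _ => sum_comm, sum4_comm]
    rw [sum_congr rfl fun l _ => sum_congr rfl fun c _ => sum_comm,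
      sum_congr rfl fun l _ => sum_comm, sum_comm]
    refine sum_congr rfl fun m _ => sum_congr rfl fun l _ => sum_congr rfl fun c _ =>
      sum_congr rfl fun k _ => ?_
    simp only [Co.ricT_v2]
    rw [F.ricc_symm k c, F.gi_symm c m]; ring
  have h3 : ∑ k, ∑ l, F.gi k l * ∑ m, (mat F.ricT * F.gi) l m * F.hessT f (v2 k m)
      = ip F.gi F.ricT (F.hessT f) := by
    rw [← h2, sum_comm]
    refine sum_congr rfl fun l _ => sum_congr rfl fun k _ => ?_
    rw [F.gi_symm k l]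
    exact congrArg _ (sum_congr rfl fun m _ => by rw [F.hess_symm f k m])
  rw [h, F.lap0_eq]
  simp only [Dt_hess, mul_add, sum_add_distrib, h1, h2, h3]; ring

end Rf

end Crest.Agent.N207.A
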