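import Crest.Agent.N207.A.Tf5
import Crest.Agent.N207.AI.GlobT

/-!
# Row 207, block A (helper33): the differential ring of smooth functions on `J × U`

`SR J U`: restrictions of functions smooth on `J ×ˢ U`; `Rep φ f`: the ring element `φ` is the
restriction of `f`.  `J` is any set of times with `Ok J U` (open sets, intervals).
-/

set_option autoImplicit false
set_option linter.unusedSectionVars false

open scoped ContDiff Topology
open Set Crest.GeometryTopology.CoordMetric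

noncomputable section

namespace Crest.Agent.N207.A

section ring

variable {E : Type*} [NormedAddCommGroup E] [NormedSpace ℝ E]

/-- restrictions of smooth functions -/
def SW (W : Set E) : Subalgebra ℝ (W → ℝ) where
  carrier := {φ | ∃ f : E → ℝ, ContDiffOn ℝ ∞ f W ∧ ∀ p : W, φ p = f p}
  mul_mem' := by
    rintro φ ψ ⟨f, hf, h⟩ ⟨g, hg, h'⟩
    exact ⟨fun x => f x * g x, hf.mul hg, fun p => by rw [Pi.mul_apply, h, h']⟩
  add_mem' := by
    rintro φ ψ ⟨f, hf, h⟩ ⟨g, hg, h'⟩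
    exact ⟨fun x => f x + g x, hf.add hg, fun p => by rw [Pi.add_apply, h, h']⟩
  algebraMap_mem' c := ⟨fun _ => c, contDiffOn_const, fun _ => rfl⟩

variable {W : Set E}

lemma SW.sm {φ : SW W} {f : E → ℝ} (h : ∀ p : W, φ.1 p = f p) : ContDiffOn ℝ ∞ f W := by
  obtain ⟨g, hg, h'⟩ := φ.2
  exact hg.congr fun x hx => (h ⟨x, hx⟩).symm.trans (h' ⟨x, hx⟩)

/-- a representative -/
def SW.rep (φ : SW W) : E → ℝ := φ.2.choose

lemma SW.rep_eq (φ : SW W) (p : W) : φ.1 p = SW.rep φ p := φ.2.choose_spec.2 p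

/-- directional derivative -/
def SW.D0 (hW : UniqueDiffOn ℝ W) (v : E) (φ : SW W) : SW W :=
  ⟨fun p => fderivWithin ℝ (SW.rep φ) W p v, fun x => fderivWithin ℝ (SW.rep φ) W x v,
    ((SW.sm (SW.rep_eq φ)).fderivWithin (m := ∞) hW (by simp)).clm_apply contDiffOn_const,
    fun _ => rfl⟩

lemma SW.D0_eq (hW : UniqueDiffOn ℝ W) (v : E) {φ : SW W} {f : E → ℝ} (h : ∀ p : W, φ.1 p = f p)
    (p : W) : (SW.D0 hW v φ).1 p = fderivWithin ℝ f W p v := by
  have : EqOn (SW.rep φ) f W := fun x hx => (SW.rep_eq φ ⟨x, hx⟩).symm.trans (h ⟨x, hx⟩)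
  change fderivWithin ℝ (SW.rep φ) W p v = _
  rw [fderivWithin_congr' this p.2]

lemma SW.dAt {φ : SW W} {f : E → ℝ} (h : ∀ p : W, φ.1 p = f p) (p : W) :
    DifferentiableWithinAt ℝ f W p := (SW.sm h p p.2).differentiableWithinAt (by simp)

/-- directional derivative -/
def SW.D (hW : UniqueDiffOn ℝ W) (v : E) : Derivation ℝ (SW W) (SW W) :=
  Derivation.mk'
    { toFun := SW.D0 hW v
      map_add' := fun φ ψ => Subtype.ext <| funext fun p => by
        have h : ∀ p : W, (φ + ψ).1 p = (fun x => SW.rep φ x + SW.rep ψ x) p := fun p => by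
          simp only [← SW.rep_eq]; rfl
        rw [SW.D0_eq hW v (f := fun x => SW.rep φ x + SW.rep ψ x) h, fderivWithin_fun_add (hW p p.2) (SW.dAt (SW.rep_eq φ) p)
          (SW.dAt (SW.rep_eq ψ) p)]
        rfl
      map_smul' := fun c φ => Subtype.ext <| funext fun p => by
        have h : ∀ p : W, (c • φ).1 p = (fun x => c • SW.rep φ x) p := fun p => by
          simp only [← SW.rep_eq]; rfl
        rw [SW.D0_eq hW v (f := fun x => c • SW.rep φ x) h, fderivWithin_fun_const_smul (hW p p.2) (SW.dAt (SW.rep_eq φ) p)]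
        rfl }
    fun φ ψ => Subtype.ext <| funext fun p => by
      have h : ∀ p : W, (φ * ψ).1 p = (fun x => SW.rep φ x * SW.rep ψ x) p := fun p => by
        simp only [← SW.rep_eq]; rfl
      change (SW.D0 hW v (φ * ψ)).1 p = φ.1 p * (SW.D0 hW v ψ).1 p + ψ.1 p * (SW.D0 hW v φ).1 p
      rw [SW.D0_eq hW v (f := fun x => SW.rep φ x * SW.rep ψ x) h, fderivWithin_fun_mul (hW p p.2) (SW.dAt (SW.rep_eq φ) p)
        (SW.dAt (SW.rep_eq ψ) p), SW.rep_eq φ p, SW.rep_eq ψ p]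
      rfl

lemma SW.D_eq (hW : UniqueDiffOn ℝ W) (v : E) {φ : SW W} {f : E → ℝ} (h : ∀ p : W, φ.1 p = f p)
    (p : W) : (SW.D hW v φ).1 p = fderivWithin ℝ f W p v := SW.D0_eq hW v h p

lemma SW.D_comm (hW : UniqueDiffOn ℝ W) (hc : W ⊆ closure (interior W)) (v w : E) (φ : SW W) :
    SW.D hW v (SW.D hW w φ) = SW.D hW w (SW.D hW v φ) := by
  refine Subtype.ext (funext fun p => ?_)
  have hf := SW.sm (SW.rep_eq φ)
  have e : ∀ v w : E, (SW.D hW v (SW.D hW w φ)).1 p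
      = fderivWithin ℝ (fderivWithin ℝ (SW.rep φ) W) W p v w := by
    intro v w
    have hd : DifferentiableWithinAt ℝ (fderivWithin ℝ (SW.rep φ) W) W p :=
      (hf.fderivWithin (m := ∞) hW (by simp) p p.2).differentiableWithinAt (by simp)
    rw [SW.D_eq hW v (f := fun x => fderivWithin ℝ (SW.rep φ) W x w) (fun _ => rfl),
      fderivWithin_clm_apply (hW p p.2) hd (differentiableWithinAt_const _)]
    simp
  rw [e, e]
  exact (hf p p.2).isSymmSndFDerivWithinAt (by simp; exact R247.Bo84.two_le_infty) hW (hc p.2) p.2 v w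

/-- evaluation -/
def SW.ev (p : W) : SW W →+* ℝ := (Pi.evalRingHom (fun _ : W => ℝ) p).comp (SW W).val.toRingHom

@[simp] lemma SW.ev_apply (p : W) (φ : SW W) : SW.ev p φ = φ.1 p := rfl

end ring

variable {n k : ℕ} {J : Set ℝ} {U : Set (En n)}

/-- admissible domains -/
structure Ok (J : Set ℝ) (U : Set (En n)) : Prop where
  ud : UniqueDiffOn ℝ J
  cl : J ⊆ closure (interior J)
  op : IsOpen U

lemma Ok.of_open (hJ : IsOpen J) (hU : IsOpen U) : Ok J U :=
  ⟨hJ.uniqueDiffOn, by rw [hJ.interior_eq]; exact subset_closure, hU⟩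

lemma Ok.icc {a b : ℝ} (hab : a < b) (hU : IsOpen U) : Ok (Icc a b) U :=
  ⟨uniqueDiffOn_Icc hab, by rw [interior_Icc, closure_Ioo hab.ne], hU⟩

lemma Ok.ico {a b : ℝ} (hab : a < b) (hU : IsOpen U) : Ok (Ico a b) U :=
  ⟨uniqueDiffOn_Ico a b, by rw [interior_Ico, closure_Ioo hab.ne]; exact Ico_subset_Icc_self, hU⟩

lemma Ok.udW (o : Ok J U) : UniqueDiffOn ℝ (J ×ˢ U) := o.ud.prod o.op.uniqueDiffOn

lemma Ok.clW (o : Ok J U) : J ×ˢ U ⊆ closure (interior (J ×ˢ U)) := by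
  rw [interior_prod_eq, closure_prod_eq, o.op.interior_eq]
  exact prod_mono o.cl subset_closure

/-- the ring of smooth functions on `J × U` -/
abbrev SR (J : Set ℝ) (U : Set (En n)) : Type := SW (J ×ˢ U)

/-- evaluation at `(t, y)` -/
def evp {t : ℝ} {y : En n} (ht : t ∈ J) (hy : y ∈ U) : SR J U →+* ℝ := SW.ev ⟨(t, y), ht, hy⟩

/-- `φ` is the restriction of `f` -/
def Rep (φ : SR J U) (f : ℝ → En n → ℝ) : Prop :=
  ∀ ⦃t : ℝ⦄ ⦃y : En n⦄ (ht : t ∈ J) (hy : y ∈ U), evp ht hy φ = f t y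

/-- `A` is the restriction of `T` -/
def RepT (A : Ten n (SR J U) k) (T : ℝ → Tn n k) : Prop := ∀ I, Rep (A I) fun t y => T t y I

/-- the restriction of a smooth function -/
def mkS (f : ℝ → En n → ℝ) (hf : St f J U) : SR J U :=
  ⟨fun p => f p.1.1 p.1.2, fun p => f p.1 p.2, hf, fun _ => rfl⟩

/-- the restriction of a smooth tensor -/
def mkT (T : ℝ → Tn n k) (hT : SmTT T J U) : Ten n (SR J U) k := fun I =>
  mkS (fun t y => T t y I) (hT I)

lemma rep_mkS {f : ℝ → En n → ℝ} (hf : St f J U) : Rep (mkS f hf) f := fun _ _ _ _ => rfl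

lemma repT_mkT {T : ℝ → Tn n k} (hT : SmTT T J U) : RepT (mkT T hT) T := fun _ _ _ _ _ => rfl

/-- spatial partial derivatives -/
def Ok.dX (o : Ok J U) (i : Fin n) : Derivation ℝ (SR J U) (SR J U) :=
  SW.D o.udW (0, EuclideanSpace.single i 1)

/-- time derivative -/
def Ok.dT (o : Ok J U) : Derivation ℝ (SR J U) (SR J U) := SW.D o.udW (1, 0)

namespace Rep

variable {φ ψ : SR J U} {f g : ℝ → En n → ℝ}

lemma eq' (h : Rep φ f) (p : (J ×ˢ U : Set (ℝ × En n))) :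
    φ.1 p = (fun q : ℝ × En n => f q.1 q.2) p := h p.2.1 p.2.2

lemma st (h : Rep φ f) : St f J U := SW.sm h.eq'

lemma congr (h : Rep φ f) (e : ∀ t ∈ J, ∀ y ∈ U, g t y = f t y) : Rep φ g :=
  fun t y ht hy => (h ht hy).trans (e t ht y hy).symm

lemma unique (h : Rep φ f) (h' : Rep φ g) {t : ℝ} {y : En n} (ht : t ∈ J) (hy : y ∈ U) :
    f t y = g t y := (h ht hy).symm.trans (h' ht hy)

lemma ext (h : Rep φ f) (h' : Rep ψ g) (e : ∀ t ∈ J, ∀ y ∈ U, f t y = g t y) : φ = ψ :=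
  Subtype.ext <| funext fun p => (h.eq' p).trans ((e _ p.2.1 _ p.2.2).trans (h'.eq' p).symm)

lemma dX (o : Ok J U) (h : Rep φ f) (i : Fin n) :
    Rep (o.dX i φ) fun t y => pderiv i (f t) y := by
  intro t y ht hy
  have h1 := (SW.dAt (f := fun q : ℝ × En n => f q.1 q.2) h.eq' ⟨(t, y), ht, hy⟩).hasFDerivWithinAt
  have h2 : HasFDerivWithinAt (fun z : En n => ((t, z) : ℝ × En n))
      (ContinuousLinearMap.inr ℝ ℝ (En n)) U y := (hasFDerivAt_prodMk_right t y).hasFDerivWithinAt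
  have h3 := (h1.comp y h2 fun z hz => ⟨ht, hz⟩).hasFDerivAt (o.op.mem_nhds hy)
  have h4 : pderiv i (f t) y = _ := congrArg (· (EuclideanSpace.single i 1)) h3.fderiv
  exact (SW.D_eq o.udW _ (f := fun q : ℝ × En n => f q.1 q.2) h.eq' _).trans h4.symm

lemma hasDeriv (o : Ok J U) (h : Rep φ f) {t : ℝ} {y : En n} (ht : t ∈ J) (hy : y ∈ U) :
    HasDerivWithinAt (fun s => f s y) (evp ht hy (o.dT φ)) J t := by
  have h1 := (SW.dAt (f := fun q : ℝ × En n => f q.1 q.2) h.eq' ⟨(t, y), ht, hy⟩).hasFDerivWithinAt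
  have h2 : HasDerivWithinAt (fun s : ℝ => ((s, y) : ℝ × En n)) (1, 0) J t :=
    ((hasDerivAt_id t).prodMk (hasDerivAt_const t y)).hasDerivWithinAt
  have h3 := h1.comp_hasDerivWithinAt t h2 fun s hs => mk_mem_prod hs hy
  have h4 : evp ht hy (o.dT φ) = _ := SW.D_eq o.udW _ (f := fun q : ℝ × En n => f q.1 q.2) h.eq' _
  rw [h4]; exact h3

lemma dT (o : Ok J U) (h : Rep φ f)
    (hd : ∀ t ∈ J, ∀ y ∈ U, HasDerivWithinAt (fun s => f s y) (g t y) J t) : Rep (o.dT φ) g :=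
  fun t y ht hy => (o.ud t ht).eq_deriv _ (h.hasDeriv o ht hy) (hd t ht y hy)

lemma hasDeriv_of (o : Ok J U) (h : Rep φ f) (h' : Rep (o.dT φ) g) {t : ℝ} {y : En n} (ht : t ∈ J)
    (hy : y ∈ U) : HasDerivWithinAt (fun s => f s y) (g t y) J t :=
  h' ht hy ▸ h.hasDeriv o ht hy

lemma dT_deriv (o : Ok J U) (hJ : IsOpen J) (h : Rep φ f) :
    Rep (o.dT φ) fun t y => deriv (fun s => f s y) t := fun _ _ ht hy =>
  ((h.hasDeriv o ht hy).hasDerivAt (hJ.mem_nhds ht)).deriv.symm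

lemma dT_static (o : Ok J U) {f : En n → ℝ} (h : Rep φ fun _ => f) : o.dT φ = 0 :=
  (h.dT o (g := fun _ _ => 0) fun _ _ _ _ => hasDerivWithinAt_const ..).ext
    (g := fun _ _ => 0) (fun _ _ _ _ => map_zero _) fun _ _ _ _ => rfl

end Rep

lemma Ok.dX_comm (o : Ok J U) (i j : Fin n) (φ : SR J U) :
    o.dX i (o.dX j φ) = o.dX j (o.dX i φ) := SW.D_comm o.udW o.clW _ _ φ

lemma Ok.dT_comm (o : Ok J U) (i : Fin n) (φ : SR J U) :
    o.dT (o.dX i φ) = o.dX i (o.dT φ) := SW.D_comm o.udW o.clW _ _ φ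

end Crest.Agent.N207.A

end
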