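import Crest.Agent.N207.A.Tg1
import Crest.Agent.N207.A.Co3

/-!
# Row 207, block A (helper33): dictionary between the ring calculus and the coordinate calculus

`mp ev`: evaluation of a tensor over `S`; the algebraic operations commute with it.
`CFam.co`, `WF.rf'`: the structures `Co`, `Rf` over `SR J U`; `rep_*`, `RepT.*`: dictionary.
-/

set_option autoImplicit false
set_option linter.unusedSectionVars false

open scoped ContDiff Topology
open Set Crest.GeometryTopology.CoordMetric Crest.GeometryTopology.ChartCurvature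
  Crest.GeometryTopology.MetricFamily Crest.Agent.R247

noncomputable section

namespace Crest.Agent.N207.A

section mp

variable {n p q : ℕ} {S S' : Type*} [CommRing S] [Algebra ℝ S] [CommRing S'] [Algebra ℝ S']
  (ev : S →+* S')

/-- evaluation of a tensor -/
def mp (A : Ten n S p) : Ten n S' p := fun I => ev (A I)

lemma mp_apply (A : Ten n S p) (I : Fin p → Fin n) : mp ev A I = ev (A I) := rfl
lemma mp_add (A B : Ten n S p) : mp ev (A + B) = mp ev A + mp ev B := funext fun _ => map_add ..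
lemma mp_sub (A B : Ten n S p) : mp ev (A - B) = mp ev A - mp ev B := funext fun _ => map_sub ..
lemma mp_neg (A : Ten n S p) : mp ev (-A) = -mp ev A := funext fun _ => map_neg ..
lemma mp_zero : mp ev (0 : Ten n S p) = 0 := funext fun _ => map_zero _
lemma mp_smul (c : S) (A : Ten n S p) : mp ev (c • A) = ev c • mp ev A :=
  funext fun _ => map_mul ..
lemma mp_two (A : Ten n S p) : mp ev ((2 : S) • A) = (2 : S') • mp ev A := by
  rw [mp_smul, map_ofNat]
lemma mp_sum {ι : Type*} (s : Finset ι) (A : ι → Ten n S p) :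
    mp ev (∑ i ∈ s, A i) = ∑ i ∈ s, mp ev (A i) := by
  funext I; simp only [mp, Finset.sum_apply, map_sum]
lemma mp_sl (A : Ten n S (p + 1)) (k : Fin n) : mp ev (sl A k) = sl (mp ev A) k := rfl
lemma mp_prm (e : Fin p ≃ Fin q) (A : Ten n S p) : mp ev (prm e A) = prm e (mp ev A) := rfl
lemma mp_sw (A : Ten n S (p + 2)) : mp ev (sw A) = sw (mp ev A) := rfl
lemma mp_matT (M : Matrix (Fin n) (Fin n) S) : mp ev (matT M) = matT (M.map ev) := rfl
lemma mp_fnT (f : S) : mp ev (fnT f : Ten n S 0) = fnT (ev f) := rfl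
lemma map_mat (A : Ten n S 2) : (mat A).map ev = mat (mp ev A) := rfl

variable (H : Matrix (Fin n) (Fin n) S)

lemma mp_act (A : Ten n S p) : mp ev (act H A) = act (H.map ev) (mp ev A) := by
  funext I; simp only [mp, act, map_sum, map_mul, Matrix.map_apply]
lemma mp_tr (A : Ten n S (p + 2)) : mp ev (tr H A) = tr (H.map ev) (mp ev A) := by
  funext I; simp only [mp, tr, map_sum, map_mul, Matrix.map_apply]
lemma ev_ip (A B : Ten n S p) : ev (ip H A B) = ip (H.map ev) (mp ev A) (mp ev B) := by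
  simp only [mp, ip, map_sum, map_mul, map_prod, Matrix.map_apply]
lemma mp_con (A : Ten n S p) (B : Ten n S (p + 1)) :
    mp ev (con H A B) = con (H.map ev) (mp ev A) (mp ev B) := funext fun _ => ev_ip ..
lemma map_raise (M : Ten n S 2) : (mat M * H).map ev = mat (mp ev M) * H.map ev := Matrix.map_mul
lemma mp_gamH (R : Ten n S 4) (A : Ten n S p) :
    mp ev (gamH H R A) = gamH (H.map ev) (mp ev R) (mp ev A) := funext fun _ =>
  (congrFun (mp_act ev _ A) _).trans (by rw [map_raise]; rfl)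
lemma mp_the (O : Ten n S 3) (A : Ten n S p) :
    mp ev (the H O A) = the (H.map ev) (mp ev O) (mp ev A) := funext fun _ =>
  (congrFun (mp_act ev _ A) _).trans (by rw [map_raise]; rfl)
lemma mp_rho (M : Ten n S 2) (A : Ten n S (p + 1)) :
    mp ev (rho H M A) = rho (H.map ev) (mp ev M) (mp ev A) := by
  funext I; simp only [mp_apply, rho, map_sum, map_mul, ← map_raise, Matrix.map_apply]
lemma mp_bet (R : Ten n S 4) (A : Ten n S (p + 1)) :
    mp ev (bet H R A) = bet (H.map ev) (mp ev R) (mp ev A) := by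
  funext I
  simp only [mp_apply, bet, map_sum, map_mul, Matrix.map_apply]
  exact Finset.sum_congr rfl fun a _ => Finset.sum_congr rfl fun b _ => by
    rw [← mp_apply ev (act _ _), mp_act, map_raise]; rfl

end mp

variable {n k l : ℕ} {J : Set ℝ} {U : Set (En n)} {G : ℝ → MetricField n}

lemma evp_algebraMap {t : ℝ} {y : En n} (ht : t ∈ J) (hy : y ∈ U) (c : ℝ) :
    evp ht hy (algebraMap ℝ (SR J U) c) = c := rfl

lemma RepT.mp {A : Ten n (SR J U) k} {T : ℝ → Tn n k} (h : RepT A T) {t : ℝ} {y : En n}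
    (ht : t ∈ J) (hy : y ∈ U) : mp (evp ht hy) A = T t y := funext fun I => h I ht hy

lemma RepT.of_mp {A : Ten n (SR J U) k} {T : ℝ → Tn n k}
    (h : ∀ ⦃t : ℝ⦄ ⦃y : En n⦄ (ht : t ∈ J) (hy : y ∈ U), N207.A.mp (evp ht hy) A = T t y) :
    RepT A T :=
  fun I _ _ ht hy => congrFun (h ht hy) I

lemma RepT.smTT {A : Ten n (SR J U) k} {T : ℝ → Tn n k} (h : RepT A T) : SmTT T J U :=
  fun I => (h I).st

lemma RepT.congr {A : Ten n (SR J U) k} {T T' : ℝ → Tn n k} (h : RepT A T)
    (e : ∀ t ∈ J, ∀ y ∈ U, T' t y = T t y) : RepT A T' :=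
  fun I => (h I).congr fun t ht y hy => congrFun (e t ht y hy) I

namespace Rep

variable {φ ψ : SR J U} {f g : ℝ → En n → ℝ}

lemma add (h : Rep φ f) (h' : Rep ψ g) : Rep (φ + ψ) fun t y => f t y + g t y :=
  fun _ _ ht hy => by rw [map_add, h ht hy, h' ht hy]
lemma sub (h : Rep φ f) (h' : Rep ψ g) : Rep (φ - ψ) fun t y => f t y - g t y :=
  fun _ _ ht hy => by rw [map_sub, h ht hy, h' ht hy]
lemma mul (h : Rep φ f) (h' : Rep ψ g) : Rep (φ * ψ) fun t y => f t y * g t y :=
  fun _ _ ht hy => by rw [map_mul, h ht hy, h' ht hy]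
lemma neg (h : Rep φ f) : Rep (-φ) fun t y => -f t y := fun _ _ ht hy => by rw [map_neg, h ht hy]
lemma const (c : ℝ) : Rep (algebraMap ℝ (SR J U) c) fun _ _ => c := fun _ _ _ _ => rfl
lemma two_mul (h : Rep φ f) : Rep (2 * φ) fun t y => 2 * f t y :=
  fun _ _ ht hy => by rw [map_mul, map_ofNat, h ht hy]
lemma sum {ι : Type*} (s : Finset ι) {φ : ι → SR J U} {f : ι → ℝ → En n → ℝ}
    (h : ∀ i, Rep (φ i) (f i)) : Rep (∑ i ∈ s, φ i) fun t y => ∑ i ∈ s, f i t y :=
  fun _ _ ht hy => by rw [map_sum]; exact Finset.sum_congr rfl fun i _ => h i ht hy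

end Rep

/-- the ring calculus of a family of metrics -/
def co (c : CFam G J U) (o : Ok J U) : Co n (SR J U) where
  d := o.dX
  comm := o.dX_comm
  g := Matrix.of fun i j => mkS (fun t y => G t y i j) (c.sm i j)
  gi := Matrix.of fun i j => mkS (fun t y => (G t y)⁻¹ i j) (c.st_inv i j)
  g_symm i j := (rep_mkS (f := fun t y => G t y i j) (c.sm i j)).ext
    (rep_mkS (f := fun t y => G t y j i) (c.sm j i)) fun t ht y hy => by
    simpa using ((c.pos t ht y hy).isHermitian.apply i j).symm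
  gi_g := by
    ext i j ⟨⟨t, y⟩, ht, hy⟩
    have h1 : (G t y)⁻¹ * G t y = 1 :=
      Matrix.nonsing_inv_mul _ ((Matrix.isUnit_iff_isUnit_det _).1 (c.pos t ht y hy).isUnit)
    have h2 := congrFun (congrFun h1 i) j
    change evp ht hy _ = evp ht hy _
    rw [Matrix.mul_apply, map_sum, Matrix.one_apply, apply_ite (evp ht hy), map_one, map_zero,
      ← Matrix.one_apply, ← h2, Matrix.mul_apply]
    rfl

section co

variable (c : CFam G J U) (o : Ok J U)

lemma rep_g (i j : Fin n) : Rep ((co c o).g i j) fun t y => G t y i j := fun _ _ _ _ => rfl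
lemma rep_gi (i j : Fin n) : Rep ((co c o).gi i j) fun t y => (G t y)⁻¹ i j :=
  rep_mkS (c.st_inv i j)

lemma map_g {t : ℝ} {y : En n} (ht : t ∈ J) (hy : y ∈ U) :
    (co c o).g.map (evp ht hy) = G t y := rfl
lemma map_gi {t : ℝ} {y : En n} (ht : t ∈ J) (hy : y ∈ U) :
    (co c o).gi.map (evp ht hy) = (G t y)⁻¹ := rfl

lemma rep_d {φ : SR J U} {f : ℝ → En n → ℝ} (h : Rep φ f) (i : Fin n) :
    Rep ((co c o).d i φ) fun t y => pderiv i (f t) y := h.dX o i

lemma rep_Gam (a i j : Fin n) :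
    Rep ((co c o).Gam a i j) fun t y => christoffel (G t) y a i j :=
  (Rep.const _).mul <| Rep.sum _ fun m => (rep_gi c o a m).mul
    (((rep_d c o (rep_g c o j m) i).add (rep_d c o (rep_g c o i m) j)).sub
      (rep_d c o (rep_g c o i j) m))

lemma rep_riem (a b i j : Fin n) :
    Rep ((co c o).riem a b i j) fun t y => riemann (G t) y a b i j :=
  ((rep_d c o (rep_Gam c o a j b) i).sub (rep_d c o (rep_Gam c o a i b) j)).add <|
    Rep.sum _ fun m => ((rep_Gam c o a i m).mul (rep_Gam c o m j b)).sub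
      ((rep_Gam c o a j m).mul (rep_Gam c o m i b))

lemma rep_rl (a b i j : Fin n) :
    Rep ((co c o).rl a b i j) fun t y => riemannLower (G t) y a b i j :=
  Rep.sum _ fun m => (rep_g c o a m).mul (rep_riem c o m b i j)

lemma rep_ricc (i j : Fin n) : Rep ((co c o).ricc i j) fun t y => ricci (G t) y i j :=
  (((Rep.sum _ fun m => rep_d c o (rep_Gam c o m i j) m).sub
    (rep_d c o (Rep.sum _ fun m => rep_Gam c o m m i) j)).add
    (Rep.sum _ fun a => Rep.sum _ fun b => (rep_Gam c o a a b).mul (rep_Gam c o b i j))).sub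
    (Rep.sum _ fun a => Rep.sum _ fun b => (rep_Gam c o a j b).mul (rep_Gam c o b a i))

lemma rep_scal : Rep (co c o).scal fun t y => scalarCurv (G t) y :=
  Rep.sum _ fun i => Rep.sum _ fun j => (rep_gi c o i j).mul (rep_ricc c o i j)

lemma repT_rm : RepT (co c o).rmT fun t => N207.rmT (G t) := fun _ => rep_rl c o _ _ _ _
lemma repT_ric : RepT (co c o).ricT fun t => N207.ricT (G t) := fun _ => rep_ricc c o _ _
lemma repT_g : RepT (matT (co c o).g) fun t => N207.matT (G t) := fun _ => rep_g c o _ _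

lemma Rep.fnT {φ : SR J U} {f : ℝ → En n → ℝ} (h : Rep φ f) :
    RepT (fnT φ) fun t => N207.fnT (f t) := fun _ => h

lemma Rep.dT' {φ : SR J U} {f : ℝ → En n → ℝ} (h : Rep φ f) :
    RepT ((co c o).dT φ) fun t => N207.dT (f t) := fun _ => rep_d c o h _

namespace RepT

variable {A B : Ten n (SR J U) k} {S T : ℝ → Tn n k}

lemma add (h : RepT A S) (h' : RepT B T) : RepT (A + B) fun t => S t + T t :=
  fun I => (h I).add (h' I)
lemma sub (h : RepT A S) (h' : RepT B T) : RepT (A - B) fun t => S t - T t :=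
  fun I => (h I).sub (h' I)
lemma neg (h : RepT A S) : RepT (-A) fun t => -S t := fun I => (h I).neg
lemma smT {φ : SR J U} {f : ℝ → En n → ℝ} (hf : Rep φ f) (h : RepT A S) :
    RepT (φ • A) fun t => smT (f t) (S t) := fun I => hf.mul (h I)
lemma const_smul (a : ℝ) (h : RepT A S) :
    RepT (algebraMap ℝ (SR J U) a • A) fun t => a • S t := fun I => (Rep.const a).mul (h I)

lemma cov (h : RepT A T) : RepT ((co c o).cov A) fun t => N207.cov (G t) (T t) := fun I =>
  (rep_d c o (h _) _).sub <| Rep.sum _ fun s => Rep.sum _ fun m =>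
    (rep_Gam c o m (I 0) (Fin.tail I s)).mul (h _)

lemma covN (h : RepT A T) :
    ∀ j, RepT ((co c o).covN A j) fun t => N207.covN (G t) (T t) j
  | 0 => h
  | j + 1 => (covN h j).cov c o

lemma tr {A : Ten n (SR J U) (k + 2)} {T : ℝ → Tn n (k + 2)} (h : RepT A T) :
    RepT (tr (co c o).gi A) fun t => trT (G t) (T t) := fun _ =>
  Rep.sum _ fun a => Rep.sum _ fun b => (rep_gi c o a b).mul (h _)

lemma lapT (h : RepT A T) : RepT ((co c o).lapT A) fun t => N207.lapT (G t) (T t) :=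
  ((h.cov c o).cov c o).tr c o

lemma divT {A : Ten n (SR J U) (k + 1)} {T : ℝ → Tn n (k + 1)} (h : RepT A T) :
    RepT ((co c o).divT A) fun t => N207.divT (G t) (T t) := (h.cov c o).tr c o

lemma ip (h : RepT A S) (h' : RepT B T) :
    Rep (ip (co c o).gi A B) fun t y => N207.ip (G t) (S t) (T t) y := fun _ _ ht hy => by
  rw [ev_ip, h.mp ht hy, h'.mp ht hy]; rfl

lemma nsq (h : RepT A T) : Rep ((co c o).nsq A) fun t y => N207.nsq (G t) (T t) y := h.ip c o h

lemma con {B : Ten n (SR J U) (k + 1)} {T : ℝ → Tn n (k + 1)} (h : RepT A S) (h' : RepT B T) :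
    RepT (con (co c o).gi A B) fun t => conT (G t) (S t) (T t) := of_mp fun _ _ ht hy => by
  rw [mp_con, h.mp ht hy, h'.mp ht hy]; rfl

end RepT

namespace Rep

variable {φ ψ : SR J U} {f g : ℝ → En n → ℝ}

lemma hessT (h : Rep φ f) : RepT ((co c o).hessT φ) fun t => N207.hessT (G t) (f t) :=
  (h.dT' c o).cov c o

lemma lap0 (h : Rep φ f) : Rep ((co c o).lap0 φ) fun t y => laplaceBeltrami (G t) (f t) y :=
  fun _ _ ht hy => (h.fnT.lapT c o _ ht hy).trans (lapB_eq_lapT (c.riem ht) hy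
    (((st_slice h.st ht).contDiffAt (c.isOpen.mem_nhds hy)).of_le Bo84.two_le_infty)).symm

lemma gam (h : Rep φ f) (h' : Rep ψ g) :
    Rep ((co c o).gam φ ψ) fun t y => Bo84.gam (G t) (f t) (g t) y :=
  ((h.dT' c o).ip c o (h'.dT' c o)).congr fun _ _ _ _ => (ip_dT ..).symm

end Rep

end co

/-- a Ricci flow on `J × U`, `J` not necessarily open -/
structure WF (G : ℝ → MetricField n) (J : Set ℝ) (U : Set (En n)) : Prop extends CFam G J U where
  ok : Ok J U
  rf : ∀ t ∈ J, ∀ y ∈ U, ∀ i j,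
    HasDerivWithinAt (fun s => G s y i j) (-2 * ricci (G t) y i j) J t

lemma WF.of_sub (c : CFlow G J U) {J' : Set ℝ} (h : J' ⊆ J) (o : Ok J' U) : WF G J' U :=
  ⟨c.toCFam.mono h c.isOpen subset_rfl, o,
    fun t ht y hy i j => (c.rf t (h ht) y hy i j).hasDerivWithinAt⟩

lemma WF.of_cflow (c : CFlow G J U) : WF G J U :=
  .of_sub c subset_rfl (.of_open c.isOpenJ c.isOpen)

lemma WF.icc (c : CFlow G J U) {a b : ℝ} (hab : a < b) (h : Icc a b ⊆ J) : WF G (Icc a b) U :=
  .of_sub c h (.icc hab c.isOpen)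

/-- the ring calculus of a Ricci flow -/
def WF.R (w : WF G J U) : Rf n (SR J U) where
  toCo := co w.toCFam w.ok
  dt := w.ok.dT
  dt_comm := w.ok.dT_comm
  rf i j := ((rep_g w.toCFam w.ok i j).dT w.ok fun t ht y hy => w.rf t ht y hy i j).ext
    (g := fun t y => -2 * ricci (G t) y i j)
    (fun _ _ ht hy => by rw [map_mul, map_neg, map_ofNat, rep_ricc _ _ i j ht hy])
    fun _ _ _ _ => rfl

lemma WF.R_toCo (w : WF G J U) : w.R.toCo = co w.toCFam w.ok := rfl
lemma WF.R_dt (w : WF G J U) : w.R.dt = w.ok.dT := rfl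

lemma RepT.DtT (w : WF G J U) (hJ : IsOpen J) {A : Ten n (SR J U) k} {T : ℝ → Tn n k}
    (h : RepT A T) : RepT (w.R.DtT A) (N207.DtT G T) := fun I t y ht hy => by
  have e : ∀ a b, evp ht hy (w.R.wt a b) = -∑ m, ricci (G t) y a m * (G t y)⁻¹ m b := fun a b => by
    rw [w.R.wt_apply, map_neg, Matrix.mul_apply, map_sum]
    exact congrArg _ (Finset.sum_congr rfl fun m _ => by
      rw [map_mul]; exact congrArg₂ _ (rep_ricc w.toCFam w.ok a m ht hy) rfl)
  rw [Rf.DtT, cd_apply, map_sub, WF.R_dt, (h I).dT_deriv w.ok hJ ht hy]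
  simp only [act, map_sum, map_mul, e, fun I => h I ht hy, N207.DtT, dtT, neg_mul,
    Finset.sum_neg_distrib, sub_neg_eq_add, Finset.sum_mul]
  exact congrArg _ (Finset.sum_congr rfl fun s _ => Finset.sum_comm)

lemma RepT.boxT (w : WF G J U) (hJ : IsOpen J) {A : Ten n (SR J U) k} {T : ℝ → Tn n k}
    (h : RepT A T) : RepT (w.R.boxT A) (N207.boxT G T) :=
  (h.DtT w hJ).sub (h.lapT w.toCFam w.ok)

end Crest.Agent.N207.A

end
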