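import Crest.Agent.N207.A.Tg2

/-!
# Row 207, block A (helper33): the identities of the ring calculus, in coordinates

Static identities (`hG : IsRiemannianOn g U`): Ricci identity, symmetries, Bianchi identities,
`Δ∇`, `ΔRm`.  Evolution equations along `w : WF G J U` (`WF.of_cflow`, `WF.icc`).
The pointwise operations `sw, gamH, rho, the, bet` are those of `A/Tf*` with `S = ℝ`.
-/

set_option autoImplicit false
set_option linter.unusedSectionVars false

open scoped ContDiff Topology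
open Set Crest.GeometryTopology.CoordMetric Crest.GeometryTopology.ChartCurvature
  Crest.GeometryTopology.MetricFamily Crest.Agent.R247

noncomputable section

namespace Crest.Agent.N207.A

variable {n k : ℕ} {J : Set ℝ} {U : Set (En n)} {G : ℝ → MetricField n}

section static

variable {g : MetricField n} {y : En n} (hG : IsRiemannianOn g U) (hy : y ∈ U)

lemma okU (hG : IsRiemannianOn g U) : Ok univ U := .of_open isOpen_univ hG.isOpen

/-- the ring calculus of a fixed metric -/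
def sco (hG : IsRiemannianOn g U) : Co n (SR univ U) := co (cfam_const hG univ) (okU hG)

/-- evaluation at `y` -/
def ev0 (hy : y ∈ U) : SR univ U →+* ℝ := evp (mem_univ 0) hy

/-- a fixed tensor in the ring -/
def sT {T : Tn n k} (hT : SmT T U) : Ten n (SR univ U) k := mkT (fun _ => T) (smTT_const hT univ)

/-- a fixed function in the ring -/
def sF {f : En n → ℝ} (hf : ContDiffOn ℝ ∞ f U) : SR univ U := mkS (fun _ => f) (st_const hf)

lemma rep_sT {T : Tn n k} (hT : SmT T U) : RepT (sT hT) fun _ => T := repT_mkT _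
lemma rep_sF {f : En n → ℝ} (hf : ContDiffOn ℝ ∞ f U) : Rep (sF hf) fun _ => f := rep_mkS _

lemma s_gi : (sco hG).gi.map (ev0 hy) = (g y)⁻¹ := rfl
lemma s_rm : mp (ev0 hy) (sco hG).rmT = N207.rmT g y := (repT_rm _ _).mp _ hy
lemma s_ric : mp (ev0 hy) (sco hG).ricT = N207.ricT g y := (repT_ric _ _).mp _ hy
lemma s_cov_rm : mp (ev0 hy) ((sco hG).cov (sco hG).rmT) = N207.cov g (N207.rmT g) y :=
  ((repT_rm _ _).cov _ _).mp _ hy
lemma s_cov_ric : mp (ev0 hy) ((sco hG).cov (sco hG).ricT) = N207.cov g (N207.ricT g) y :=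
  ((repT_ric _ _).cov _ _).mp _ hy
lemma s_Om : mp (ev0 hy) (sco hG).Om = N207.divT g (N207.rmT g) y :=
  ((repT_rm _ _).divT _ _).mp _ hy

include hG hy

/-- Ricci identity -/
theorem ricci_id {T : Tn n k} (hT : SmT T U) : N207.cov g (N207.cov g T) y
    = sw (N207.cov g (N207.cov g T) y) + gamH (g y)⁻¹ (N207.rmT g y) (T y) := by
  have h := congrArg (mp (ev0 hy)) ((sco hG).ricci_id (sT hT))
  have e : mp (ev0 hy) ((sco hG).cov ((sco hG).cov (sT hT))) = _ :=
    (((rep_sT hT).cov _ _).cov _ _).mp _ hy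
  rwa [mp_add, mp_sw, mp_gamH, e, s_gi, s_rm, show mp (ev0 hy) (sT hT) = T y from rfl] at h

lemma cs_mp {S : Type*} [CommRing S] [Algebra ℝ S] (ev : S →+* ℝ) {T : Ten n S 4} (h : CS T) :
    CS (mp ev T) :=
  ⟨fun a b c d => by rw [mp_apply, h.a12, map_neg]; rfl,
    fun a b c d => by rw [mp_apply, h.a34, map_neg]; rfl, fun a b c d => congrArg ev (h.pr a b c d)⟩

/-- symmetries of the curvature tensor -/
theorem cs_rm : CS (N207.rmT g y) := s_rm hG hy ▸ cs_mp hG hy _ (sco hG).cs_rm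

theorem cs_cov_rm (a : Fin n) : CS (sl (N207.cov g (N207.rmT g) y) a) :=
  s_cov_rm hG hy ▸ cs_mp hG hy _ ((sco hG).cs_cov a)

theorem rm_anti12 (a b i j : Fin n) : riemannLower g y a b i j = -riemannLower g y b a i j :=
  (cs_rm hG hy).a12 a b i j
theorem rm_anti34 (a b i j : Fin n) : riemannLower g y a b i j = -riemannLower g y a b j i :=
  (cs_rm hG hy).a34 a b i j
theorem rm_pair (a b i j : Fin n) : riemannLower g y a b i j = riemannLower g y i j a b :=
  (cs_rm hG hy).pr a b i j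

theorem rm_bianchi (a b i j : Fin n) :
    riemannLower g y a b i j + riemannLower g y a i j b + riemannLower g y a j b i = 0 := by
  have h := congrArg (ev0 hy) ((sco hG).rl_bianchi a b i j)
  have e := fun a b i j => rep_rl (cfam_const hG univ) (okU hG) a b i j (mem_univ 0) hy
  rw [map_add, map_add, map_zero] at h
  exact (congrArg₂ _ (congrArg₂ _ (e ..) (e ..)) (e ..)).symm.trans h

/-- second Bianchi identity -/
theorem bianchi2 (j a l b c : Fin n) : N207.cov g (N207.rmT g) y (v5 j a l b c)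
    + N207.cov g (N207.rmT g) y (v5 a l j b c) + N207.cov g (N207.rmT g) y (v5 l j a b c) = 0 := by
  have h := congrArg (ev0 hy) ((sco hG).bianchi2 j a l b c)
  rw [map_add, map_add, map_zero] at h
  rw [← s_cov_rm hG hy]; exact h

/-- contracted Bianchi identity -/
theorem div_rm (a l m : Fin n) : N207.divT g (N207.rmT g) y (v3 a l m)
    = N207.cov g (N207.ricT g) y (v3 l m a) - N207.cov g (N207.ricT g) y (v3 m l a) := by
  have h := congrArg (ev0 hy) ((sco hG).Om_eq a l m)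
  rw [map_sub] at h
  rw [← s_cov_ric hG hy, ← s_Om hG hy]; exact h

theorem cov_ric_symm (m a j : Fin n) :
    N207.cov g (N207.ricT g) y (v3 m a j) = N207.cov g (N207.ricT g) y (v3 m j a) := by
  rw [← s_cov_ric hG hy]; exact congrArg (ev0 hy) ((sco hG).cov_ric_symm m a j)

/-- twice contracted Bianchi identity -/
theorem two_div_ric (m : Fin n) :
    2 * N207.divT g (N207.ricT g) y (v1 m) = pderiv m (scalarCurv g) y := by
  have h := congrArg (ev0 hy) ((sco hG).two_div_ric m)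
  rw [map_mul, map_ofNat] at h
  have e1 : mp (ev0 hy) ((sco hG).divT (sco hG).ricT) = _ := ((repT_ric _ _).divT _ _).mp _ hy
  have e2 : ev0 hy ((sco hG).d m (sco hG).scal) = pderiv m (scalarCurv g) y :=
    rep_d _ _ (rep_scal _ _) m (mem_univ 0) hy
  rw [← e1, ← e2]; exact h

/-- commutator of `Δ` and `∇` -/
theorem lap_cov {T : Tn n k} (hT : SmT T U) : N207.lapT g (N207.cov g T) y
    = N207.cov g (N207.lapT g T) y + rho (g y)⁻¹ (N207.ricT g y) (N207.cov g T y)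
      + the (g y)⁻¹ (N207.divT g (N207.rmT g) y) (T y)
      + (2 : ℝ) • bet (g y)⁻¹ (N207.rmT g y) (N207.cov g T y) := by
  have h := congrArg (mp (ev0 hy)) ((sco hG).lap_cov (sT hT))
  have e1 : mp (ev0 hy) ((sco hG).lapT ((sco hG).cov (sT hT))) = _ :=
    (((rep_sT hT).cov _ _).lapT _ _).mp _ hy
  have e2 : mp (ev0 hy) ((sco hG).cov ((sco hG).lapT (sT hT))) = _ :=
    (((rep_sT hT).lapT _ _).cov _ _).mp _ hy
  have e3 : mp (ev0 hy) ((sco hG).cov (sT hT)) = _ := ((rep_sT hT).cov _ _).mp _ hy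
  rwa [mp_add, mp_add, mp_add, mp_two, mp_rho, mp_the, mp_bet, e1, e2, e3, s_gi, s_rm, s_ric, s_Om,
    show mp (ev0 hy) (sT hT) = T y from rfl] at h

/-- Bochner formula -/
theorem lap_dT {f : En n → ℝ} (hf : ContDiffOn ℝ ∞ f U) : N207.lapT g (N207.dT f) y
    = N207.dT (laplaceBeltrami g f) y + rho (g y)⁻¹ (N207.ricT g y) (N207.dT f y) := by
  have h0 := (sco hG).lap_cov (fnT (sF hf))
  have h1 : the (sco hG).gi (sco hG).Om (fnT (sF hf)) = 0 := ext1 fun a => act_zero0 ..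
  have h2 : bet (sco hG).gi (sco hG).rmT ((sco hG).cov (fnT (sF hf))) = 0 := ext1 fun a => by
    simp only [bet_cons, act_zero0, mul_zero, Finset.sum_const_zero, Pi.zero_apply]
  rw [h1, h2, smul_zero, add_zero, add_zero, Co.lapT_fnT, Co.cov_fnT, Co.cov_fnT] at h0
  have h := congrArg (mp (ev0 hy)) h0
  have e1 : mp (ev0 hy) ((sco hG).lapT ((sco hG).dT (sF hf))) = _ :=
    (((rep_sF hf).dT' _ _).lapT _ _).mp _ hy
  have e2 : mp (ev0 hy) ((sco hG).dT ((sco hG).lap0 (sF hf))) = _ :=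
    (((rep_sF hf).lap0 _ _).dT' _ _).mp _ hy
  have e3 : mp (ev0 hy) ((sco hG).dT (sF hf)) = _ := ((rep_sF hf).dT' _ _).mp _ hy
  rwa [mp_add, mp_rho, e1, e2, e3, s_gi, s_ric] at h

/-- Laplacian of the curvature tensor; `W = ∇ div Rm` -/
theorem lap_rm : N207.lapT g (N207.rmT g) y
    = N207.cov g (N207.divT g (N207.rmT g)) y
      - sw (p := 2) (N207.cov g (N207.divT g (N207.rmT g)) y)
      + (rho (g y)⁻¹ (N207.ricT g y) (N207.rmT g y)
        - sw (p := 2) (rho (g y)⁻¹ (N207.ricT g y) (N207.rmT g y)))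
      + (bet (g y)⁻¹ (N207.rmT g y) (N207.rmT g y)
        - sw (p := 2) (bet (g y)⁻¹ (N207.rmT g y) (N207.rmT g y))) := by
  have h := congrArg (mp (ev0 hy)) (sco hG).lap_rm
  have e1 : mp (ev0 hy) ((sco hG).lapT (sco hG).rmT) = _ := ((repT_rm _ _).lapT _ _).mp _ hy
  have e2 : mp (ev0 hy) ((sco hG).cov (sco hG).Om) = _ :=
    (((repT_rm _ _).divT _ _).cov _ _).mp _ hy
  rwa [Co.Zr, mp_add, mp_add, mp_sub, mp_sub, mp_sub, mp_sw, mp_sw, mp_sw, mp_rho, mp_bet, e1, e2,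
    s_gi, s_rm, s_ric] at h

theorem cov_div_rm (i a l m : Fin n) : N207.cov g (N207.divT g (N207.rmT g)) y (v4 i a l m)
    = N207.cov g (N207.cov g (N207.ricT g)) y (v4 i l m a)
      - N207.cov g (N207.cov g (N207.ricT g)) y (v4 i m l a) := by
  have h := congrArg (ev0 hy) ((sco hG).cov_Om i a l m)
  have e1 : mp (ev0 hy) ((sco hG).cov (sco hG).Om) = _ :=
    (((repT_rm _ _).divT _ _).cov _ _).mp _ hy
  have e2 : mp (ev0 hy) ((sco hG).cov ((sco hG).cov (sco hG).ricT)) = _ :=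
    (((repT_ric _ _).cov _ _).cov _ _).mp _ hy
  rw [map_sub] at h
  rw [← e1, ← e2]; exact h

end static

namespace WF

variable (w : WF G J U) {t : ℝ} {y : En n} (ht : t ∈ J) (hy : y ∈ U)

lemma rm : RepT w.R.rmT fun t => N207.rmT (G t) := repT_rm w.1 w.ok
lemma ric : RepT w.R.ricT fun t => N207.ricT (G t) := repT_ric w.1 w.ok
lemma scal : Rep w.R.scal fun t => scalarCurv (G t) := rep_scal w.1 w.ok
lemma gi : w.R.gi.map (evp ht hy) = (G t y)⁻¹ := rfl

include w ht hy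

/-- `∂ₜ R = Δ R + 2 |Ric|²` -/
theorem dt_scal : HasDerivWithinAt (fun s => scalarCurv (G s) y)
    (laplaceBeltrami (G t) (scalarCurv (G t)) y + 2 * N207.nsq (G t) (N207.ricT (G t)) y) J t := by
  refine w.scal.hasDeriv_of w.ok (g := fun t y => laplaceBeltrami (G t) (scalarCurv (G t)) y
    + 2 * N207.nsq (G t) (N207.ricT (G t)) y) ?_ ht hy
  rw [← w.R_dt, eq_add_of_sub_eq' w.R.box_scal]
  exact (w.scal.lap0 w.1 w.ok).add (w.ric.nsq w.1 w.ok).two_mul

variable {u u' v v' : ℝ → En n → ℝ}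

/-- `∂ₜ Δ u = Δ u' + 2 ⟨Ric, Hess u⟩` -/
theorem dt_lap (hu : St u J U)
    (hd : ∀ t ∈ J, ∀ y ∈ U, HasDerivWithinAt (fun s => u s y) (u' t y) J t) :
    HasDerivWithinAt (fun s => laplaceBeltrami (G s) (u s) y)
      (laplaceBeltrami (G t) (u' t) y
        + 2 * N207.ip (G t) (N207.ricT (G t)) (N207.hessT (G t) (u t)) y) J t := by
  have h := rep_mkS hu
  refine (h.lap0 w.toCFam w.ok).hasDeriv_of w.ok (g := fun t y => laplaceBeltrami (G t) (u' t) y
    + 2 * N207.ip (G t) (N207.ricT (G t)) (N207.hessT (G t) (u t)) y) ?_ ht hy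
  rw [← w.R_dt, ← w.R_toCo, w.R.dt_lap0]
  exact ((h.dT w.ok hd).lap0 w.1 w.ok).add (w.ric.ip w.1 w.ok (h.hessT w.1 w.ok)).two_mul

/-- evolution of `⟨∇u, ∇v⟩` -/
theorem dt_gam2 (hu : St u J U) (hv : St v J U)
    (hd : ∀ t ∈ J, ∀ y ∈ U, HasDerivWithinAt (fun s => u s y) (u' t y) J t)
    (hd' : ∀ t ∈ J, ∀ y ∈ U, HasDerivWithinAt (fun s => v s y) (v' t y) J t) :
    HasDerivWithinAt (fun s => Bo84.gam (G s) (u s) (v s) y)
      (laplaceBeltrami (G t) (Bo84.gam (G t) (u t) (v t)) y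
        + (Bo84.gam (G t) (fun z => u' t z - laplaceBeltrami (G t) (u t) z) (v t) y
          + Bo84.gam (G t) (u t) (fun z => v' t z - laplaceBeltrami (G t) (v t) z) y
          - 2 * N207.ip (G t) (N207.hessT (G t) (u t)) (N207.hessT (G t) (v t)) y)) J t := by
  have h := rep_mkS hu
  have h' := rep_mkS hv
  refine (h.gam w.toCFam w.ok h').hasDeriv_of w.ok (g := fun t y =>
    laplaceBeltrami (G t) (Bo84.gam (G t) (u t) (v t)) y
      + (Bo84.gam (G t) (fun z => u' t z - laplaceBeltrami (G t) (u t) z) (v t) y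
        + Bo84.gam (G t) (u t) (fun z => v' t z - laplaceBeltrami (G t) (v t) z) y
        - 2 * N207.ip (G t) (N207.hessT (G t) (u t)) (N207.hessT (G t) (v t)) y)) ?_ ht hy
  rw [← w.R_dt, ← w.R_toCo, eq_add_of_sub_eq' (w.R.box_gam _ _)]
  exact ((h.gam w.1 w.ok h').lap0 w.1 w.ok).add
    (((((h.dT w.ok hd).sub (h.lap0 w.1 w.ok)).gam w.1 w.ok h').add
      (h.gam w.1 w.ok ((h'.dT w.ok hd').sub (h'.lap0 w.1 w.ok)))).sub
      ((h.hessT w.1 w.ok).ip w.1 w.ok (h'.hessT w.1 w.ok)).two_mul)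

/-- evolution of `|∇u|²` (shape of `HC.Evo.dt_gam`) -/
theorem dt_gam (hu : St u J U)
    (hd : ∀ t ∈ J, ∀ y ∈ U, HasDerivWithinAt (fun s => u s y) (u' t y) J t) :
    HasDerivWithinAt (fun s => Bo84.gam (G s) (u s) (u s) y)
      (laplaceBeltrami (G t) (Bo84.gam (G t) (u t) (u t)) y
        + 2 * Bo84.gam (G t) (u t) (fun z => u' t z - laplaceBeltrami (G t) (u t) z) y
        - 2 * N207.nsq (G t) (N207.hessT (G t) (u t)) y) J t := by
  convert w.dt_gam2 ht hy hu hu hd hd using 1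
  rw [← ip_dT (G t) (fun z => u' t z - laplaceBeltrami (G t) (u t) z),
    N207.ip_comm (w.riem ht) hy, ip_dT, N207.nsq]
  ring

/-- `∂ₜ ⟨∇u, ∇v⟩ = ⟨∇u', ∇v⟩ + ⟨∇u, ∇v'⟩ + 2 Ric(∇u, ∇v)` -/
theorem dt_gam0 (hu : St u J U) (hv : St v J U)
    (hd : ∀ t ∈ J, ∀ y ∈ U, HasDerivWithinAt (fun s => u s y) (u' t y) J t)
    (hd' : ∀ t ∈ J, ∀ y ∈ U, HasDerivWithinAt (fun s => v s y) (v' t y) J t) :
    HasDerivWithinAt (fun s => Bo84.gam (G s) (u s) (v s) y)
      (Bo84.gam (G t) (u' t) (v t) y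
        + ipA (G t y)⁻¹ (rho (G t y)⁻¹ (N207.ricT (G t) y) (N207.dT (u t) y)) (N207.dT (v t) y)
        + (Bo84.gam (G t) (u t) (v' t) y + ipA (G t y)⁻¹ (N207.dT (u t) y)
          (rho (G t y)⁻¹ (N207.ricT (G t) y) (N207.dT (v t) y)))) J t := by
  have h := rep_mkS hu
  have h' := rep_mkS hv
  convert (h.gam w.toCFam w.ok h').hasDeriv w.ok ht hy using 1
  rw [← w.R_dt, ← w.R_toCo, Co.gam, w.R.dt_ip, w.R.Dt_dT, w.R.Dt_dT, ip_addL, ip_addR, map_add,
    map_add, map_add, ev_ip _ _ (rho _ _ _), ev_ip _ _ _ (rho _ _ _), mp_rho, mp_rho, w.gi,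
    w.ric.mp ht hy, show mp (evp ht hy) (w.R.dT (mkS u hu)) = _ from (h.dT' w.1 w.ok).mp ht hy,
    show mp (evp ht hy) (w.R.dT (mkS v hv)) = _ from (h'.dT' w.1 w.ok).mp ht hy]
  exact congrArg₂ _ (congrArg₂ _ ((h.dT w.ok hd).gam w.1 w.ok h' ht hy).symm rfl)
    (congrArg₂ _ (h.gam w.1 w.ok (h'.dT w.ok hd') ht hy).symm rfl)

end WF

section cflow

variable (c : CFlow G J U) {t : ℝ} {y : En n} (ht : t ∈ J) (hy : y ∈ U)

include c ht hy

theorem box_cov {T : ℝ → Tn n k} (hT : SmTT T J U) :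
    N207.boxT G (fun t => N207.cov (G t) (T t)) t y = N207.cov (G t) (N207.boxT G T t) y
      - (2 : ℝ) • bet (G t y)⁻¹ (N207.rmT (G t) y) (N207.cov (G t) (T t) y) := by
  have w := WF.of_cflow c
  have h0 := repT_mkT hT
  have h := congrArg (mp (evp ht hy)) (w.R.box_cov (mkT T hT))
  have e1 : mp (evp ht hy) (w.R.boxT (w.R.cov (mkT T hT))) = _ :=
    ((h0.cov w.1 w.ok).boxT w c.isOpenJ).mp ht hy
  have e2 : mp (evp ht hy) (w.R.cov (w.R.boxT (mkT T hT))) = _ :=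
    ((h0.boxT w c.isOpenJ).cov w.1 w.ok).mp ht hy
  have e3 : mp (evp ht hy) (w.R.cov (mkT T hT)) = _ := (h0.cov w.1 w.ok).mp ht hy
  rwa [mp_sub, mp_two, mp_bet, e1, e2, e3, w.gi, w.rm.mp ht hy] at h

theorem Dt_cov {T : ℝ → Tn n k} (hT : SmTT T J U) :
    N207.DtT G (fun t => N207.cov (G t) (T t)) t y = N207.cov (G t) (N207.DtT G T t) y
      + rho (G t y)⁻¹ (N207.ricT (G t) y) (N207.cov (G t) (T t) y)
      + the (G t y)⁻¹ (N207.divT (G t) (N207.rmT (G t)) y) (T t y) := by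
  have w := WF.of_cflow c
  have h0 := repT_mkT hT
  have h := congrArg (mp (evp ht hy)) (w.R.Dt_cov (mkT T hT))
  have e1 : mp (evp ht hy) (w.R.DtT (w.R.cov (mkT T hT))) = _ :=
    ((h0.cov w.1 w.ok).DtT w c.isOpenJ).mp ht hy
  have e2 : mp (evp ht hy) (w.R.cov (w.R.DtT (mkT T hT))) = _ :=
    ((h0.DtT w c.isOpenJ).cov w.1 w.ok).mp ht hy
  have e3 : mp (evp ht hy) (w.R.cov (mkT T hT)) = _ := (h0.cov w.1 w.ok).mp ht hy
  have e4 : mp (evp ht hy) w.R.Om = _ := (w.rm.divT w.1 w.ok).mp ht hy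
  rwa [mp_add, mp_add, mp_rho, mp_the, e1, e2, e3, e4, w.gi, w.ric.mp ht hy, h0.mp ht hy] at h

theorem box_rm : N207.boxT G (fun t => N207.rmT (G t)) t y
    = sw (p := 2) (bet (G t y)⁻¹ (N207.rmT (G t) y) (N207.rmT (G t) y))
      - bet (G t y)⁻¹ (N207.rmT (G t) y) (N207.rmT (G t) y) := by
  have w := WF.of_cflow c
  have h := congrArg (mp (evp ht hy)) w.R.box_rm
  rwa [mp_sub, mp_sw, mp_bet, (w.rm.boxT w c.isOpenJ).mp ht hy, w.gi, w.rm.mp ht hy] at h

theorem box_ric : N207.boxT G (fun t => N207.ricT (G t)) t y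
    = -((2 : ℝ) • bet (G t y)⁻¹ (N207.rmT (G t) y) (N207.ricT (G t) y)) := by
  have w := WF.of_cflow c
  have h := congrArg (mp (evp ht hy)) w.R.box_ric
  rwa [mp_neg, mp_two, mp_bet, (w.ric.boxT w c.isOpenJ).mp ht hy, w.gi, w.rm.mp ht hy,
    w.ric.mp ht hy] at h

theorem dt_ip {S T : ℝ → Tn n k} (hS : SmTT S J U) (hT : SmTT T J U) :
    HasDerivAt (fun s => N207.ip (G s) (S s) (T s) y)
      (N207.ip (G t) (N207.DtT G S t) (T t) y + N207.ip (G t) (S t) (N207.DtT G T t) y) t := by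
  have w := WF.of_cflow c
  have h := repT_mkT hS
  have h' := repT_mkT hT
  refine ((h.ip w.toCFam w.ok h').hasDeriv_of w.ok (g := fun t y =>
    N207.ip (G t) (N207.DtT G S t) (T t) y + N207.ip (G t) (S t) (N207.DtT G T t) y) ?_
      ht hy).hasDerivAt (c.isOpenJ.mem_nhds ht)
  rw [← w.R_dt, ← w.R_toCo, w.R.dt_ip]
  exact ((h.DtT w c.isOpenJ).ip w.1 w.ok h').add (h.ip w.1 w.ok (h'.DtT w c.isOpenJ))

theorem dt_nsq {T : ℝ → Tn n k} (hT : SmTT T J U) :
    HasDerivAt (fun s => N207.nsq (G s) (T s) y)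
      (laplaceBeltrami (G t) (N207.nsq (G t) (T t)) y
        + (2 * N207.ip (G t) (N207.boxT G T t) (T t) y
          - 2 * N207.nsq (G t) (N207.cov (G t) (T t)) y)) t := by
  have w := WF.of_cflow c
  have h := repT_mkT hT
  refine ((h.nsq w.toCFam w.ok).hasDeriv_of w.ok (g := fun t y =>
    laplaceBeltrami (G t) (N207.nsq (G t) (T t)) y
      + (2 * N207.ip (G t) (N207.boxT G T t) (T t) y
        - 2 * N207.nsq (G t) (N207.cov (G t) (T t)) y)) ?_ ht hy).hasDerivAt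
    (c.isOpenJ.mem_nhds ht)
  rw [← w.R_dt, ← w.R_toCo, eq_add_of_sub_eq' (w.R.box_nsq _)]
  exact ((h.nsq w.1 w.ok).lap0 w.1 w.ok).add
    (((h.boxT w c.isOpenJ).ip w.1 w.ok h).two_mul.sub ((h.cov w.1 w.ok).nsq w.1 w.ok).two_mul)

end cflow

end Crest.Agent.N207.A

end
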