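import Crest.Agent.N207.A.Tg3
import Crest.Agent.N207.A.Tf6
import Crest.Agent.N207.A.Arr

/-!
# Row 207, block A (helper33): Shi's inequalities and the Bochner inequality in coordinates
-/

set_option autoImplicit false
set_option linter.unusedSectionVars false

open scoped ContDiff Topology
open Set Crest.GeometryTopology.CoordMetric Crest.GeometryTopology.ChartCurvature
  Crest.GeometryTopology.MetricFamily Crest.Agent.R247

noncomputable section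

namespace Crest.Agent.N207.A

section ring

variable {n p : ℕ} {S : Type*} [CommRing S] [Algebra ℝ S] (C : Co n S) {ev : S →+* ℝ}

/-- `(i,k,l,m) ↦ (i,l,m,k)` -/
def eA : Fin 4 ≃ Fin 4 := ⟨![0, 2, 3, 1], ![0, 3, 1, 2], by decide, by decide⟩
/-- `(i,k,l,m) ↦ (i,m,l,k)` -/
def eB : Fin 4 ≃ Fin 4 := ⟨![0, 3, 2, 1], ![0, 3, 2, 1], by decide, by decide⟩

lemma prm_eA (T : Ten n S 4) (a b c d : Fin n) : prm eA T (v4 a b c d) = T (v4 a c d b) := by
  unfold prm; congr 1; funext i; fin_cases i <;> rfl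

lemma prm_eB (T : Ten n S 4) (a b c d : Fin n) : prm eB T (v4 a b c d) = T (v4 a d c b) := by
  unfold prm; congr 1; funext i; fin_cases i <;> rfl

lemma nr_prm {q : ℕ} {H : Matrix (Fin n) (Fin n) S} (e : Fin p ≃ Fin q) (T : Ten n S p) :
    nr ev H (prm e T) = nr ev H T := by rw [nr, ip_prm]; rfl

lemma nr_sw {H : Matrix (Fin n) (Fin n) S} (T : Ten n S (p + 2)) :
    nr ev H (sw T) = nr ev H T := by rw [nr, ip_sw]; rfl

variable (hp : Pt ev C.gi)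

include hp

lemma Co.nr_ric : nr ev C.gi C.ricT ≤ n * nr ev C.gi C.rmT := by
  rw [C.ricT_eq, ← nr_prm e12 C.rmT]; exact hp.nr_tr _

lemma Co.nr_Om : nr ev C.gi C.Om ≤ 2 * nr ev C.gi (C.cov C.ricT) := by
  have h : C.Om = prm eC3 (C.cov C.ricT) - prm eR3 (C.cov C.ricT) := ext3 fun k l m => by
    rw [Pi.sub_apply, prm_eC3, prm_eR3]; exact C.Om_eq k l m
  have := hp.nr_sub (prm eC3 (C.cov C.ricT)) (prm eR3 (C.cov C.ricT))
  rwa [nr_prm, nr_prm, ← h, ← two_mul] at this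

lemma Co.nr_cov_Om : nr ev C.gi (C.cov C.Om) ≤ 2 * nr ev C.gi (C.cov (C.cov C.ricT)) := by
  have h : C.cov C.Om = prm eA (C.cov (C.cov C.ricT)) - prm eB (C.cov (C.cov C.ricT)) :=
    ext4 fun i k l m => by rw [Pi.sub_apply, prm_eA, prm_eB]; exact C.cov_Om i k l m
  have := hp.nr_sub (prm eA (C.cov (C.cov C.ricT))) (prm eB (C.cov (C.cov C.ricT)))
  rwa [nr_prm, nr_prm, ← h, ← two_mul] at this

lemma Co.nr_lap_rm : nr ev C.gi (C.lapT C.rmT) ≤ 4 * nr ev C.gi (C.cov (C.cov C.ricT))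
    + 8 * n ^ 2 * nr ev C.gi C.rmT ^ 2 := by
  have h1 := C.nr_cov_Om hp
  have h2 := (n2_rho (p := 3)).bd ev hp C.ricT C.rmT
  have h3 := (n2_bet (p := 3)).bd ev hp C.rmT C.rmT
  have h4 := mul_le_mul_of_nonneg_right (mul_le_mul_of_nonneg_left (C.nr_ric hp) (Nat.cast_nonneg n))
    (nr_nonneg (ev := ev) (H := C.gi) C.rmT)
  have e : ∀ T : Ten n S 4, nr ev C.gi (T - sw (p := 2) T) ≤ 2 * nr ev C.gi T := fun T => by
    have := hp.nr_sub T (sw (p := 2) T)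
    rwa [nr_sw, ← two_mul] at this
  rw [C.lap_rm, Co.Zr]
  refine (hp.nr_add _ _).trans ((add_le_add ((hp.nr_add _ _).trans (add_le_add (e _) (e _)))
    (e _)).trans ?_)
  push_cast at h3
  nlinarith

/-- Bochner inequality for `|Rm|²` -/
theorem Co.bo_rm : 2 * ev (C.nsq (C.cov C.rmT)) - (16 * n ^ 2 + 8) *
    (ev (C.nsq C.rmT) * nr ev C.gi C.rmT + nr ev C.gi C.rmT * nr ev C.gi (C.cov (C.cov C.ricT)))
      ≤ ev (C.lap0 (C.nsq C.rmT)) := by
  have h1 := (abs_le.1 (hp.abs_ip (C.lapT C.rmT) C.rmT)).1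
  have h0 := nr_nonneg (ev := ev) (H := C.gi) C.rmT
  have h0' := nr_nonneg (ev := ev) (H := C.gi) (C.cov (C.cov C.ricT))
  have h2 := mul_le_mul_of_nonneg_right (C.nr_lap_rm hp) h0
  rw [C.lap0_nsq, map_add, map_mul, map_mul, map_ofNat,
    show ev (C.nsq C.rmT) = _ from (hp.nr_sq C.rmT).symm]
  nlinarith [mul_nonneg h0 h0', mul_nonneg (sq_nonneg (n : ℝ)) (mul_nonneg h0 h0'), pow_nonneg h0 3]

end ring

variable {n k : ℕ} {J : Set ℝ} {U : Set (En n)} {G : ℝ → MetricField n} {t : ℝ} {y : En n}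

lemma pt_co (c : CFam G J U) (o : Ok J U) (ht : t ∈ J) (hy : y ∈ U) :
    Pt (evp ht hy) (co c o).gi := by
  obtain ⟨e, he⟩ := Ar.exists_fr (c.pos t ht y hy)
  exact ⟨fun i a => e i a, he.inv⟩

lemma RepT.nr (c : CFam G J U) (o : Ok J U) {A : Ten n (SR J U) k} {T : ℝ → Tn n k} (h : RepT A T)
    (ht : t ∈ J) (hy : y ∈ U) : nr (evp ht hy) (co c o).gi A = √(N207.nsq (G t) (T t) y) :=
  congrArg _ (h.nsq c o ht hy)

lemma WF.pt (w : WF G J U) (ht : t ∈ J) (hy : y ∈ U) : Pt (evp ht hy) w.R.gi := pt_co w.1 w.ok ht hy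

lemma WF.shi (w : WF G J U) (ht : t ∈ J) (hy : y ∈ U) {p : ℕ} {A : Ten n (SR J U) p}
    {T : ℝ → Tn n p} (h : RepT A T) {c : ℝ} (hs : Star w.R.toCo w.R.rmT A 0 c (w.R.boxT A))
    (k : ℕ) : ∃ N', HasDerivWithinAt (fun s => N207.nsq (G s) (N207.covN (G s) (T s) k) y) N' J t ∧
      |N' - laplaceBeltrami (G t) (N207.nsq (G t) (N207.covN (G t) (T t) k)) y
        + 2 * N207.nsq (G t) (N207.covN (G t) (T t) (k + 1)) y| ≤ 2 * cS n p c k *
        ∑ i ∈ Finset.range (k + 1), √(N207.nsq (G t) (N207.covN (G t) (N207.rmT (G t)) i) y) *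
          √(N207.nsq (G t) (N207.covN (G t) (T t) (k - i)) y) *
          √(N207.nsq (G t) (N207.covN (G t) (T t) k) y) := by
  refine ⟨_, ((h.covN w.1 w.ok k).nsq w.1 w.ok).hasDeriv w.ok ht hy, ?_⟩
  have h1 := w.R.shi hs k (w.pt ht hy)
  have e1 : ∀ j, nr (evp ht hy) w.R.gi (w.R.covN A j) = _ :=
    fun j => (h.covN w.1 w.ok j).nr w.1 w.ok ht hy
  have e2 : ∀ j, nr (evp ht hy) w.R.gi (w.R.covN w.R.rmT j) = _ :=
    fun j => (w.rm.covN w.1 w.ok j).nr w.1 w.ok ht hy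
  have e3 : evp ht hy (w.R.lap0 (w.R.nsq (w.R.covN A k))) = _ :=
    ((h.covN w.1 w.ok k).nsq w.1 w.ok).lap0 w.1 w.ok ht hy
  have e4 : evp ht hy (w.R.nsq (w.R.covN A (k + 1))) = _ :=
    (h.covN w.1 w.ok (k + 1)).nsq w.1 w.ok ht hy
  simp only [e1, e2, e3, e4] at h1
  exact h1

/-- evolution of `|∇ᵏ Rm|²` -/
theorem dt_N (n k : ℕ) : ∃ C, 0 ≤ C ∧ ∀ {G : ℝ → MetricField n} {J : Set ℝ} {U : Set (En n)},
    WF G J U → ∀ t ∈ J, ∀ y ∈ U, ∃ N',
      HasDerivWithinAt (fun s => N207.nsq (G s) (N207.covN (G s) (N207.rmT (G s)) k) y) N' J t ∧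
      |N' - laplaceBeltrami (G t) (N207.nsq (G t) (N207.covN (G t) (N207.rmT (G t)) k)) y
        + 2 * N207.nsq (G t) (N207.covN (G t) (N207.rmT (G t)) (k + 1)) y| ≤ C *
        ∑ i ∈ Finset.range (k + 1), √(N207.nsq (G t) (N207.covN (G t) (N207.rmT (G t)) i) y) *
          √(N207.nsq (G t) (N207.covN (G t) (N207.rmT (G t)) (k - i)) y) *
          √(N207.nsq (G t) (N207.covN (G t) (N207.rmT (G t)) k) y) :=
  ⟨_, mul_nonneg zero_le_two (cS_nonneg n 4 (by positivity) k),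
    fun w _ ht _ hy => w.shi ht hy w.rm w.R.star_rm k⟩

/-- evolution of `|∇ᵏ Ric|²` -/
theorem dt_Q (n k : ℕ) : ∃ C, 0 ≤ C ∧ ∀ {G : ℝ → MetricField n} {J : Set ℝ} {U : Set (En n)},
    WF G J U → ∀ t ∈ J, ∀ y ∈ U, ∃ N',
      HasDerivWithinAt (fun s => N207.nsq (G s) (N207.covN (G s) (N207.ricT (G s)) k) y) N' J t ∧
      |N' - laplaceBeltrami (G t) (N207.nsq (G t) (N207.covN (G t) (N207.ricT (G t)) k)) y
        + 2 * N207.nsq (G t) (N207.covN (G t) (N207.ricT (G t)) (k + 1)) y| ≤ C *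
        ∑ i ∈ Finset.range (k + 1), √(N207.nsq (G t) (N207.covN (G t) (N207.rmT (G t)) i) y) *
          √(N207.nsq (G t) (N207.covN (G t) (N207.ricT (G t)) (k - i)) y) *
          √(N207.nsq (G t) (N207.covN (G t) (N207.ricT (G t)) k) y) :=
  ⟨_, mul_nonneg zero_le_two (cS_nonneg n 2 (by positivity) k),
    fun w _ ht _ hy => w.shi ht hy w.ric w.R.star_ric k⟩

/-- Bochner inequality for `|Rm|²` (this is `H.BoRm` for `n = 4`) -/
theorem bo_rm (n : ℕ) : ∃ C : ℝ, ∀ (G : MetricField n) (U : Set (En n)), IsRiemannianOn G U →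
    ∀ x ∈ U, 2 * N207.nsq G (N207.covN G (N207.rmT G) 1) x - C * (N207.nsq G (N207.rmT G) x *
      √(N207.nsq G (N207.rmT G) x) + √(N207.nsq G (N207.rmT G) x) *
        √(N207.nsq G (N207.covN G (N207.ricT G) 2) x))
      ≤ laplaceBeltrami G (N207.nsq G (N207.rmT G)) x := by
  refine ⟨16 * n ^ 2 + 8, fun G U hG x hx => ?_⟩
  have c := cfam_const hG univ
  have o := okU hG
  have h := (co c o).bo_rm (pt_co c o (mem_univ 0) hx)
  rwa [((repT_rm c o).cov c o).nsq c o, (repT_rm c o).nsq c o, (repT_rm c o).nr c o,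
    (((repT_ric c o).cov c o).cov c o).nr c o, ((repT_rm c o).nsq c o).lap0 c o] at h

end Crest.Agent.N207.A

end
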